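/-
Explicit bounds for all derivatives of `Real.smoothTransition`.
-/
import Mathlib

set_option autoImplicit false

namespace Crest.Agent.BoxFlowG

open Real Set Filter Topology
open scoped Nat ContDiff

/-- The base smooth step. -/
noncomputable abbrev G : ℝ → ℝ := Real.smoothTransition

theorem G_contDiff : ContDiff ℝ ∞ G := Real.smoothTransition.contDiff

theorem G_eq_of_mem {x : ℝ} (hx : x ∈ Ioo (0:ℝ) 1) :
    G x = exp (-x⁻¹) / (exp (-x⁻¹) + exp (-(1 - x)⁻¹)) := by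
  have h1 : ¬ x ≤ 0 := not_le.2 hx.1
  have h2 : ¬ 1 - x ≤ 0 := by linarith [hx.2]
  simp [G, Real.smoothTransition, expNegInvGlue, h1, h2]

theorem one_sub_G_eq_of_mem {x : ℝ} (hx : x ∈ Ioo (0:ℝ) 1) :
    1 - G x = exp (-(1 - x)⁻¹) / (exp (-x⁻¹) + exp (-(1 - x)⁻¹)) := by
  rw [G_eq_of_mem hx]
  have : exp (-x⁻¹) + exp (-(1 - x)⁻¹) ≠ 0 := by positivity
  rw [eq_div_iff this, sub_mul, div_mul_cancel₀ _ this]
  ring

theorem hasDerivAt_inv' {x : ℝ} (hx : x ≠ 0) : HasDerivAt (fun x : ℝ => x⁻¹) (-(x⁻¹) ^ 2) x := by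
  exact (hasDerivAt_inv hx).congr_deriv (by rw [inv_pow])

theorem hasDerivAt_z {x : ℝ} (hx : x ≠ 1) :
    HasDerivAt (fun x : ℝ => (1 - x)⁻¹) (((1 - x)⁻¹) ^ 2) x := by
  have h0 : (1 - x) ≠ 0 := sub_ne_zero.2 (Ne.symm hx)
  have h1 : HasDerivAt (fun x : ℝ => 1 - x) (-1) x := by
    simpa using (hasDerivAt_id x).const_sub 1
  have := HasDerivAt.comp x (hasDerivAt_inv' h0) h1
  exact this.congr_deriv (by ring)

theorem hasDerivAt_G {x : ℝ} (hx : x ∈ Ioo (0:ℝ) 1) :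
    HasDerivAt G (G x * (1 - G x) * ((x⁻¹) ^ 2 + ((1 - x)⁻¹) ^ 2)) x := by
  have hx0 : x ≠ 0 := hx.1.ne'
  have hx1 : x ≠ 1 := hx.2.ne
  have hf : HasDerivAt (fun x : ℝ => exp (-x⁻¹)) (exp (-x⁻¹) * (x⁻¹) ^ 2) x := by
    have h0 : HasDerivAt (fun x : ℝ => -x⁻¹) ((x⁻¹) ^ 2) x := by
      simpa using (hasDerivAt_inv' hx0).fun_neg
    exact h0.exp
  have hg : HasDerivAt (fun x : ℝ => exp (-(1 - x)⁻¹)) (exp (-(1 - x)⁻¹) * (-((1 - x)⁻¹) ^ 2)) x := by
    exact ((hasDerivAt_z hx1).fun_neg).exp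
  have hden : exp (-x⁻¹) + exp (-(1 - x)⁻¹) ≠ 0 := by positivity
  have h := hf.fun_div (hf.fun_add hg) hden
  have hev : G =ᶠ[𝓝 x] fun x => exp (-x⁻¹) / (exp (-x⁻¹) + exp (-(1 - x)⁻¹)) := by
    filter_upwards [Ioo_mem_nhds hx.1 hx.2] with y hy
    exact G_eq_of_mem hy
  refine (h.congr_of_eventuallyEq hev).congr_deriv ?_
  rw [one_sub_G_eq_of_mem hx, G_eq_of_mem hx]
  generalize exp (-x⁻¹) = E at *
  generalize exp (-(1 - x)⁻¹) = F at *
  generalize x⁻¹ = Y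
  generalize (1 - x)⁻¹ = Z
  field_simp
  ring

/-- A monomial. -/
noncomputable def mon (κ : ℝ) (a b c d : ℕ) (x : ℝ) : ℝ :=
  κ * (x⁻¹) ^ a * ((1 - x)⁻¹) ^ b * (G x) ^ c * (1 - G x) ^ d

theorem hasDerivAt_pow_aux {f : ℝ → ℝ} {f' x : ℝ} (hf : HasDerivAt f f' x) (n : ℕ) :
    HasDerivAt (fun y => f y ^ n) (if n = 0 then 0 else (n : ℝ) * f x ^ (n - 1) * f') x := by
  split_ifs with h
  · subst h
    simpa using hasDerivAt_const x (1:ℝ)
  · exact hf.pow n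

theorem hasDerivAt_mon (κ : ℝ) (a b c d : ℕ) {x : ℝ} (hx : x ∈ Ioo (0:ℝ) 1) :
    HasDerivAt (mon κ a b c d)
      (mon (-(a:ℝ) * κ) (a + 1) b c d x + mon ((b:ℝ) * κ) a (b + 1) c d x
        + mon ((c:ℝ) * κ) (a + 2) b c (d + 1) x + mon ((c:ℝ) * κ) a (b + 2) c (d + 1) x
        + mon (-(d:ℝ) * κ) (a + 2) b (c + 1) d x + mon (-(d:ℝ) * κ) a (b + 2) (c + 1) d x) x := by
  have hx0 : x ≠ 0 := hx.1.ne'
  have hx1 : x ≠ 1 := hx.2.ne
  have h1 := hasDerivAt_pow_aux (hasDerivAt_inv' hx0) a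
  have h2 := hasDerivAt_pow_aux (hasDerivAt_z hx1) b
  have h3 := hasDerivAt_pow_aux (hasDerivAt_G hx) c
  have h4 := hasDerivAt_pow_aux ((hasDerivAt_G hx).const_sub 1) d
  have h := (((h1.const_mul κ).fun_mul h2).fun_mul h3).fun_mul h4
  refine h.congr_deriv ?_
  simp only [mon]
  -- split on vanishing exponents
  have e1 : (if a = 0 then (0:ℝ) else (a:ℝ) * (x⁻¹) ^ (a - 1) * (-(x⁻¹) ^ 2)) = -(a:ℝ) * (x⁻¹) ^ (a + 1) := by
    split_ifs with h
    · simp [h]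
    · obtain ⟨k, rfl⟩ := Nat.exists_eq_succ_of_ne_zero h
      simp only [Nat.succ_eq_add_one, Nat.add_sub_cancel]
      ring
  have e2 : (if b = 0 then (0:ℝ) else (b:ℝ) * ((1 - x)⁻¹) ^ (b - 1) * (((1 - x)⁻¹) ^ 2)) = (b:ℝ) * ((1 - x)⁻¹) ^ (b + 1) := by
    split_ifs with h
    · simp [h]
    · obtain ⟨k, rfl⟩ := Nat.exists_eq_succ_of_ne_zero h
      simp only [Nat.succ_eq_add_one, Nat.add_sub_cancel]
      ring
  have e3 : (if c = 0 then (0:ℝ) else (c:ℝ) * (G x) ^ (c - 1) * (G x * (1 - G x) * ((x⁻¹) ^ 2 + ((1 - x)⁻¹) ^ 2))) = (c:ℝ) * (G x) ^ c * (1 - G x) * ((x⁻¹) ^ 2 + ((1 - x)⁻¹) ^ 2) := by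
    split_ifs with h
    · simp [h]
    · obtain ⟨k, rfl⟩ := Nat.exists_eq_succ_of_ne_zero h
      simp only [Nat.succ_eq_add_one, Nat.add_sub_cancel]
      ring
  have e4 : (if d = 0 then (0:ℝ) else (d:ℝ) * (1 - G x) ^ (d - 1) * (-(G x * (1 - G x) * ((x⁻¹) ^ 2 + ((1 - x)⁻¹) ^ 2)))) = -(d:ℝ) * (1 - G x) ^ d * (G x) * ((x⁻¹) ^ 2 + ((1 - x)⁻¹) ^ 2) := by
    split_ifs with h
    · simp [h]
    · obtain ⟨k, rfl⟩ := Nat.exists_eq_succ_of_ne_zero h
      simp only [Nat.succ_eq_add_one, Nat.add_sub_cancel]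
      ring
  rw [e1, e2, e3, e4]
  ring

/-- Finite sums of monomials with total weight `w`, `a + b ≤ e`, `1 ≤ c, d`, `c + d ≤ s`. -/
inductive Combo (e s : ℕ) : ℝ → (ℝ → ℝ) → Prop
  | mono (κ : ℝ) (a b c d : ℕ) (hab : a + b ≤ e) (hc : 1 ≤ c) (hd : 1 ≤ d) (hcd : c + d ≤ s) :
      Combo e s |κ| (mon κ a b c d)
  | add {w₁ w₂ : ℝ} {f g : ℝ → ℝ} : Combo e s w₁ f → Combo e s w₂ g →
      Combo e s (w₁ + w₂) (fun x => f x + g x)

theorem Combo.nonneg {e s : ℕ} {w : ℝ} {f : ℝ → ℝ} (h : Combo e s w f) : 0 ≤ w := by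
  induction h with
  | mono => exact abs_nonneg _
  | add _ _ h1 h2 => exact add_nonneg h1 h2

theorem Combo.deriv {e s : ℕ} {w : ℝ} {f : ℝ → ℝ} (h : Combo e s w f) :
    ∃ w' f', w' ≤ w * ((e : ℝ) + 2 * s) ∧ Combo (e + 2) (s + 1) w' f' ∧
      ∀ x ∈ Ioo (0:ℝ) 1, HasDerivAt f (f' x) x := by
  induction h with
  | mono κ a b c d hab hc hd hcd =>
    refine ⟨|-(a:ℝ) * κ| + |(b:ℝ) * κ| + |(c:ℝ) * κ| + |(c:ℝ) * κ| + |-(d:ℝ) * κ| + |-(d:ℝ) * κ|,
      _, ?_, ?_, fun x hx => hasDerivAt_mon κ a b c d hx⟩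
    · simp only [abs_mul, abs_neg, Nat.abs_cast]
      have h1 : ((a:ℝ) + b) ≤ e := by exact_mod_cast hab
      have h2 : ((c:ℝ) + d) ≤ s := by exact_mod_cast hcd
      have h3 := abs_nonneg κ
      nlinarith
    · refine Combo.add (Combo.add (Combo.add (Combo.add (Combo.add ?_ ?_) ?_) ?_) ?_) ?_
      · exact Combo.mono _ _ _ _ _ (by omega) hc hd (by omega)
      · exact Combo.mono _ _ _ _ _ (by omega) hc hd (by omega)
      · exact Combo.mono _ _ _ _ _ (by omega) hc (by omega) (by omega)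
      · exact Combo.mono _ _ _ _ _ (by omega) hc (by omega) (by omega)
      · exact Combo.mono _ _ _ _ _ (by omega) (by omega) hd (by omega)
      · exact Combo.mono _ _ _ _ _ (by omega) (by omega) hd (by omega)
  | add _ _ ih1 ih2 =>
    obtain ⟨w1, f1, h1, h1', h1''⟩ := ih1
    obtain ⟨w2, f2, h2, h2', h2''⟩ := ih2
    refine ⟨w1 + w2, fun x => f1 x + f2 x, ?_, Combo.add h1' h2', ?_⟩
    · linarith
    · intro x hx
      exact (h1'' x hx).add (h2'' x hx)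

theorem exp_two_le : exp 2 ≤ 8 := by
  have h : exp 2 = exp 1 * exp 1 := by rw [← Real.exp_add]; norm_num
  have h1 := Real.exp_one_lt_d9
  have h2 := Real.exp_pos 1
  rw [h]
  nlinarith

theorem G_nonneg (x : ℝ) : 0 ≤ G x := Real.smoothTransition.nonneg x
theorem G_le_one (x : ℝ) : G x ≤ 1 := Real.smoothTransition.le_one x
theorem G_of_nonpos {x : ℝ} (h : x ≤ 0) : G x = 0 := Real.smoothTransition.zero_of_nonpos h
theorem G_of_one_le {x : ℝ} (h : 1 ≤ x) : G x = 1 := Real.smoothTransition.one_of_one_le h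

theorem pow_mul_exp_neg_le (y : ℝ) (hy : 0 ≤ y) (a : ℕ) : y ^ a * exp (-y) ≤ (a ! : ℝ) := by
  have h1 := Real.pow_div_factorial_le_exp y hy a
  have hf : (0:ℝ) < (a ! : ℝ) := by exact_mod_cast a.factorial_pos
  rw [div_le_iff₀ hf] at h1
  rw [Real.exp_neg, ← div_eq_mul_inv, div_le_iff₀ (exp_pos y)]
  linarith

/-- Bound for one monomial. -/
theorem abs_mon_le (κ : ℝ) (a b c d : ℕ) (hc : 1 ≤ c) (hd : 1 ≤ d) {x : ℝ} (hx : x ∈ Ioo (0:ℝ) 1) :
    |mon κ a b c d x| ≤ |κ| * (8 * 2 ^ (a + b) * ((a + b)! : ℝ)) := by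
  have hx0 : 0 < x := hx.1
  have hx1 : 0 < 1 - x := by linarith [hx.2]
  have hy : 0 < x⁻¹ := inv_pos.2 hx0
  have hz : 0 < (1 - x)⁻¹ := inv_pos.2 hx1
  have hG0 := G_nonneg x
  have hG1 := G_le_one x
  have hT0 : 0 ≤ 1 - G x := by linarith
  have hT1 : 1 - G x ≤ 1 := by linarith
  have hpowG : G x ^ c ≤ G x := by
    obtain ⟨k, rfl⟩ : ∃ k, c = k + 1 := ⟨c - 1, by omega⟩
    rw [pow_succ]
    exact mul_le_of_le_one_left hG0 (pow_le_one₀ hG0 hG1)
  have hpowT : (1 - G x) ^ d ≤ 1 - G x := by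
    obtain ⟨k, rfl⟩ : ∃ k, d = k + 1 := ⟨d - 1, by omega⟩
    rw [pow_succ]
    exact mul_le_of_le_one_left hT0 (pow_le_one₀ hT0 hT1)
  have hpowG1 : G x ^ c ≤ 1 := pow_le_one₀ hG0 hG1
  have hpowT1 : (1 - G x) ^ d ≤ 1 := pow_le_one₀ hT0 hT1
  have hfa : ((a ! : ℕ) : ℝ) ≤ ((a + b)! : ℝ) := by
    exact_mod_cast Nat.factorial_le (Nat.le_add_right a b)
  have hfb : ((b ! : ℕ) : ℝ) ≤ ((a + b)! : ℝ) := by
    exact_mod_cast Nat.factorial_le (Nat.le_add_left b a)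
  have hF : (0:ℝ) < ((a + b)! : ℝ) := by exact_mod_cast (a + b).factorial_pos
  -- the core estimate
  have core : (x⁻¹) ^ a * ((1 - x)⁻¹) ^ b * G x ^ c * (1 - G x) ^ d ≤ 8 * 2 ^ (a + b) * ((a + b)! : ℝ) := by
    rcases le_total x (1/2) with hle | hge
    · -- z ≤ 2, G small
      have hz2 : (1 - x)⁻¹ ≤ 2 := by
        rw [inv_le_comm₀ hx1 (by norm_num)]
        linarith
      have hzb : ((1 - x)⁻¹) ^ b ≤ 2 ^ b := pow_le_pow_left₀ hz.le hz2 b
      have hGle : G x ≤ exp (-x⁻¹) * 8 := by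
        rw [G_eq_of_mem hx]
        have h1 : exp (-2) ≤ exp (-(1 - x)⁻¹) := Real.exp_le_exp.2 (by linarith)
        have h2 : 0 < exp (-2 : ℝ) := exp_pos _
        have h3 : exp (-x⁻¹) / (exp (-x⁻¹) + exp (-(1 - x)⁻¹)) ≤ exp (-x⁻¹) / exp (-2) := by
          apply div_le_div_of_nonneg_left (exp_pos _).le h2
          linarith [exp_pos (-x⁻¹)]
        refine h3.trans ?_
        rw [Real.exp_neg 2, div_inv_eq_mul]
        exact mul_le_mul_of_nonneg_left exp_two_le (exp_pos _).le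
      have hmain := pow_mul_exp_neg_le _ hy.le a
      calc (x⁻¹) ^ a * ((1 - x)⁻¹) ^ b * G x ^ c * (1 - G x) ^ d
          ≤ (x⁻¹) ^ a * ((1 - x)⁻¹) ^ b * G x * 1 := by gcongr
        _ ≤ (x⁻¹) ^ a * 2 ^ b * (exp (-x⁻¹) * 8) * 1 := by gcongr
        _ = 8 * 2 ^ b * ((x⁻¹) ^ a * exp (-x⁻¹)) := by ring
        _ ≤ 8 * 2 ^ b * ((a + b)! : ℝ) := by
            have := hmain.trans hfa
            gcongr
        _ ≤ 8 * 2 ^ (a + b) * ((a + b)! : ℝ) := by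
            have : (2:ℝ) ^ b ≤ 2 ^ (a + b) := pow_le_pow_right₀ (by norm_num) (by omega)
            gcongr
    · have hy2 : x⁻¹ ≤ 2 := by
        rw [inv_le_comm₀ hx0 (by norm_num)]
        linarith
      have hya : (x⁻¹) ^ a ≤ 2 ^ a := pow_le_pow_left₀ hy.le hy2 a
      have hTle : 1 - G x ≤ exp (-(1 - x)⁻¹) * 8 := by
        rw [one_sub_G_eq_of_mem hx]
        have h1 : exp (-2) ≤ exp (-x⁻¹) := Real.exp_le_exp.2 (by linarith)
        have h2 : 0 < exp (-2 : ℝ) := exp_pos _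
        have h3 : exp (-(1 - x)⁻¹) / (exp (-x⁻¹) + exp (-(1 - x)⁻¹)) ≤ exp (-(1 - x)⁻¹) / exp (-2) := by
          apply div_le_div_of_nonneg_left (exp_pos _).le h2
          linarith [exp_pos (-(1 - x)⁻¹)]
        refine h3.trans ?_
        rw [Real.exp_neg 2, div_inv_eq_mul]
        exact mul_le_mul_of_nonneg_left exp_two_le (exp_pos _).le
      have hmain := pow_mul_exp_neg_le _ hz.le b
      calc (x⁻¹) ^ a * ((1 - x)⁻¹) ^ b * G x ^ c * (1 - G x) ^ d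
          ≤ (x⁻¹) ^ a * ((1 - x)⁻¹) ^ b * 1 * (1 - G x) := by gcongr
        _ ≤ 2 ^ a * ((1 - x)⁻¹) ^ b * 1 * (exp (-(1 - x)⁻¹) * 8) := by gcongr
        _ = 8 * 2 ^ a * (((1 - x)⁻¹) ^ b * exp (-(1 - x)⁻¹)) := by ring
        _ ≤ 8 * 2 ^ a * ((a + b)! : ℝ) := by
            have := hmain.trans hfb
            gcongr
        _ ≤ 8 * 2 ^ (a + b) * ((a + b)! : ℝ) := by
            have : (2:ℝ) ^ a ≤ 2 ^ (a + b) := pow_le_pow_right₀ (by norm_num) (by omega)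
            gcongr
  have hpos : 0 ≤ (x⁻¹) ^ a * ((1 - x)⁻¹) ^ b * G x ^ c * (1 - G x) ^ d := by positivity
  have : mon κ a b c d x = κ * ((x⁻¹) ^ a * ((1 - x)⁻¹) ^ b * G x ^ c * (1 - G x) ^ d) := by
    simp only [mon]; ring
  rw [this, abs_mul, abs_of_nonneg hpos]
  exact mul_le_mul_of_nonneg_left core (abs_nonneg _)

theorem Combo.abs_le {e s : ℕ} {w : ℝ} {f : ℝ → ℝ} (h : Combo e s w f) {x : ℝ}
    (hx : x ∈ Ioo (0:ℝ) 1) : |f x| ≤ w * (8 * 2 ^ e * (e ! : ℝ)) := by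
  induction h with
  | mono κ a b c d hab hc hd hcd =>
    refine (abs_mon_le κ a b c d hc hd hx).trans ?_
    refine mul_le_mul_of_nonneg_left ?_ (abs_nonneg _)
    have h1 : (2:ℝ) ^ (a + b) ≤ 2 ^ e := pow_le_pow_right₀ (by norm_num) hab
    have h2 : ((a + b)! : ℝ) ≤ (e ! : ℝ) := by exact_mod_cast Nat.factorial_le hab
    gcongr
  | add _ _ h1 h2 =>
    refine (abs_add_le _ _).trans ?_
    rw [add_mul]
    exact add_le_add h1 h2

/-- Structure of the derivatives of `G` on the open unit interval. -/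
theorem iteratedDeriv_G_combo (m : ℕ) :
    ∃ w f, w ≤ 4 ^ (m + 1) * ((m + 1)! : ℝ) ∧ Combo (2 * m + 2) (m + 2) w f ∧
      ∀ x ∈ Ioo (0:ℝ) 1, iteratedDeriv (m + 1) G x = f x := by
  induction m with
  | zero =>
    refine ⟨|1| + |1|, fun x => mon 1 2 0 1 1 x + mon 1 0 2 1 1 x, ?_, ?_, ?_⟩
    · norm_num
    · exact Combo.add (Combo.mono _ _ _ _ _ (by omega) (by omega) (by omega) (by omega))
        (Combo.mono _ _ _ _ _ (by omega) (by omega) (by omega) (by omega))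
    · intro x hx
      rw [iteratedDeriv_one, (hasDerivAt_G hx).deriv]
      simp only [mon]
      ring
  | succ m ih =>
    obtain ⟨w, f, hw, hf, hfe⟩ := ih
    obtain ⟨w', f', hw', hf', hfd⟩ := hf.deriv
    refine ⟨w', f', ?_, ?_, ?_⟩
    · have hw0 := hf.nonneg
      have hfac : ((m + 1 + 1)! : ℝ) = (m + 2 : ℝ) * ((m + 1)! : ℝ) := by
        rw [Nat.factorial_succ (m + 1)]; push_cast; ring
      refine hw'.trans ?_
      rw [hfac, pow_succ 4 (m + 1)]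
      have h1 : ((2 * m + 2 : ℕ) : ℝ) + 2 * ((m + 2 : ℕ) : ℝ) ≤ 4 * (m + 2 : ℝ) := by
        push_cast; linarith
      have h2 : (0:ℝ) ≤ m := Nat.cast_nonneg m
      calc w * (((2 * m + 2 : ℕ) : ℝ) + 2 * ((m + 2 : ℕ) : ℝ))
          ≤ (4 ^ (m + 1) * ((m + 1)! : ℝ)) * (4 * (m + 2 : ℝ)) := by
            apply mul_le_mul hw h1 (by positivity) (by positivity)
        _ = _ := by ring
    · exact hf'
    · intro x hx
      rw [iteratedDeriv_succ]
      have hev : iteratedDeriv (m + 1) G =ᶠ[𝓝 x] f := by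
        filter_upwards [Ioo_mem_nhds hx.1 hx.2] with y hy
        exact hfe y hy
      rw [hev.deriv_eq, (hfd x hx).deriv]

/-- The explicit bound for the derivatives of `G`. -/
def Gb (m : ℕ) : ℕ := 8 * 16 ^ m * m ! * (2 * m)!

theorem abs_iteratedDeriv_G_le (m : ℕ) (x : ℝ) : |iteratedDeriv m G x| ≤ Gb m := by
  cases m with
  | zero =>
    simp only [iteratedDeriv_zero, Gb]
    rw [abs_of_nonneg (G_nonneg x)]
    refine (G_le_one x).trans ?_
    norm_num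
  | succ m =>
    obtain ⟨w, f, hw, hf, hfe⟩ := iteratedDeriv_G_combo m
    have hcont : Continuous (iteratedDeriv (m + 1) G) :=
      G_contDiff.continuous_iteratedDeriv _ (by exact_mod_cast le_top)
    have hB : (0:ℝ) ≤ Gb (m + 1) := Nat.cast_nonneg _
    -- away from 0 and 1
    have key : ∀ y : ℝ, y ≠ 0 → y ≠ 1 → |iteratedDeriv (m + 1) G y| ≤ Gb (m + 1) := by
      intro y hy0 hy1
      rcases lt_or_gt_of_ne hy0 with hneg | hpos
      · have hev : G =ᶠ[𝓝 y] fun _ => (0:ℝ) := by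
          filter_upwards [Iio_mem_nhds hneg] with z hz
          exact Real.smoothTransition.zero_of_nonpos (le_of_lt hz)
        rw [hev.iteratedDeriv_eq, iteratedDeriv_fun_const_zero]
        simpa using hB
      · rcases lt_or_gt_of_ne hy1 with hlt | hgt
        · rw [hfe y ⟨hpos, hlt⟩]
          refine (hf.abs_le ⟨hpos, hlt⟩).trans ?_
          have h0 : (0:ℝ) ≤ 8 * 2 ^ (2 * m + 2) * ((2 * m + 2)! : ℝ) := by positivity
          refine (mul_le_mul_of_nonneg_right hw h0).trans (le_of_eq ?_)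
          simp only [Gb]
          push_cast
          have : (16:ℝ) ^ (m + 1) = 4 ^ (m + 1) * 2 ^ (2 * m + 2) := by
            have : (16:ℝ) = 4 * 4 := by norm_num
            rw [this, mul_pow]
            congr 1
            rw [show 2 * m + 2 = 2 * (m + 1) by ring, pow_mul]
            norm_num
          rw [this, show 2 * (m + 1) = 2 * m + 2 by ring]
          ring
        · have hev : G =ᶠ[𝓝 y] fun _ => (1:ℝ) := by
            filter_upwards [Ioi_mem_nhds hgt] with z hz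
            exact Real.smoothTransition.one_of_one_le (le_of_lt hz)
          rw [hev.iteratedDeriv_eq, iteratedDeriv_const]
          simpa using hB
    have hclosed : IsClosed {y : ℝ | |iteratedDeriv (m + 1) G y| ≤ Gb (m + 1)} :=
      isClosed_le hcont.abs continuous_const
    have hdense : Dense ({(0:ℝ), 1}ᶜ : Set ℝ) := by
      have : ({(0:ℝ), 1} : Set ℝ).Countable := by simp
      exact this.dense_compl ℝ
    have hsub : ({(0:ℝ), 1}ᶜ : Set ℝ) ⊆ {y : ℝ | |iteratedDeriv (m + 1) G y| ≤ Gb (m + 1)} := by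
      intro y hy
      simp only [mem_compl_iff, mem_insert_iff, mem_singleton_iff, not_or] at hy
      exact key y hy.1 hy.2
    have := hclosed.closure_subset_iff.2 hsub
    rw [hdense.closure_eq] at this
    exact this (mem_univ x)

end Crest.Agent.BoxFlowG
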