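/-
Computability toolkit for rational arithmetic with Mathlib's `Primcodable ℚ` structure
(which comes from `Denumerable ℚ`, i.e. from the rank of the raw code among all raw codes).
-/
import Mathlib

set_option autoImplicit false

namespace Crest.Agent.BoxFlowQ

open Encodable

/-! ### Raw codes of rationals -/

/-- The raw code of a rational. -/
abbrev enc0 : ℚ → ℕ := @encode ℚ Rat.instEncodable

theorem enc0_eq (q : ℚ) : enc0 q = Nat.pair (encode q.num) q.den := by
  rcases q with ⟨a, b, c, d⟩
  rfl

/-- The absolute value of the integer with code `e`. -/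
def absOfCode (e : ℕ) : ℕ := if e % 2 = 0 then e / 2 else e / 2 + 1

/-- The positive part of the integer with code `e`. -/
def posOfCode (e : ℕ) : ℕ := if e % 2 = 0 then e / 2 else 0

/-- The negative part of the integer with code `e`. -/
def negOfCode (e : ℕ) : ℕ := if e % 2 = 0 then 0 else e / 2 + 1

/-- The integer with code `e`. -/
def intOfCode (e : ℕ) : ℤ := if e % 2 = 0 then ((e / 2 : ℕ) : ℤ) else Int.negSucc (e / 2)

theorem encode_int (z : ℤ) :
    encode z = match z with | Int.ofNat n => 2 * n | Int.negSucc n => 2 * n + 1 := by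
  cases z <;> rfl

theorem intOfCode_encode (z : ℤ) : intOfCode (encode z) = z := by
  rw [encode_int]
  cases z with
  | ofNat n =>
    have h1 : (2 * n) % 2 = 0 := by omega
    have h2 : (2 * n) / 2 = n := by omega
    simp [intOfCode, h1, h2]
  | negSucc n =>
    have h1 : ¬ (2 * n + 1) % 2 = 0 := by omega
    have h2 : (2 * n + 1) / 2 = n := by omega
    simp [intOfCode, h1, h2]

theorem encode_intOfCode (e : ℕ) : encode (intOfCode e) = e := by
  rw [encode_int]
  unfold intOfCode
  split_ifs with h
  · show 2 * (e / 2) = e
    omega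
  · show 2 * (e / 2) + 1 = e
    omega

theorem natAbs_intOfCode (e : ℕ) : (intOfCode e).natAbs = absOfCode e := by
  unfold intOfCode absOfCode
  split_ifs with h
  · exact Int.natAbs_natCast _
  · simp [Int.natAbs_negSucc]

theorem intOfCode_eq (e : ℕ) : intOfCode e = (posOfCode e : ℤ) - negOfCode e := by
  unfold intOfCode posOfCode negOfCode
  split_ifs with h
  · simp
  · simp [Int.negSucc_eq]

/-- Membership in the range of raw codes. -/
def IsCode (c : ℕ) : Prop :=
  0 < c.unpair.2 ∧ ∀ k < c.unpair.2 + 1,
    (absOfCode c.unpair.1 % k = 0 ∧ c.unpair.2 % k = 0) → k ≤ 1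

theorem coprime_iff (a d : ℕ) (hd : 0 < d) :
    a.Coprime d ↔ ∀ k < d + 1, (a % k = 0 ∧ d % k = 0) → k ≤ 1 := by
  constructor
  · rintro h k - ⟨h1, h2⟩
    have h1' : k ∣ a := Nat.dvd_of_mod_eq_zero h1
    have h2' : k ∣ d := Nat.dvd_of_mod_eq_zero h2
    have := Nat.dvd_gcd h1' h2'
    rw [h] at this
    exact Nat.le_of_dvd one_pos this
  · intro h
    have hg : 0 < Nat.gcd a d := Nat.gcd_pos_of_pos_right _ hd
    have hle : Nat.gcd a d ≤ d := Nat.gcd_le_right _ hd
    have := h (Nat.gcd a d) (by omega)
      ⟨Nat.mod_eq_zero_of_dvd (Nat.gcd_dvd_left _ _), Nat.mod_eq_zero_of_dvd (Nat.gcd_dvd_right _ _)⟩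
    exact le_antisymm this hg

theorem isCode_iff (c : ℕ) : IsCode c ↔ c ∈ Set.range enc0 := by
  constructor
  · rintro ⟨hd, hc⟩
    have hcop : (intOfCode c.unpair.1).natAbs.Coprime c.unpair.2 := by
      rw [natAbs_intOfCode]
      exact (coprime_iff _ _ hd).2 hc
    refine ⟨⟨intOfCode c.unpair.1, c.unpair.2, hd.ne', hcop⟩, ?_⟩
    rw [enc0_eq]
    simp only
    rw [encode_intOfCode, Nat.pair_unpair]
  · rintro ⟨q, rfl⟩
    rw [enc0_eq]
    simp only [IsCode, Nat.unpair_pair]
    refine ⟨q.den_pos, ?_⟩
    have h1 : absOfCode (encode q.num) = q.num.natAbs := by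
      rw [← natAbs_intOfCode, intOfCode_encode]
    rw [h1]
    exact (coprime_iff _ _ q.den_pos).1 q.reduced

instance (c : ℕ) : Decidable (IsCode c) := by
  unfold IsCode
  infer_instance

/-- Rank of a raw code among all raw codes. -/
def rank (c : ℕ) : ℕ := ((List.range c).filter (fun x => decide (IsCode x))).length

theorem encode_eq_rank (q : ℚ) : @encode ℚ (Denumerable.toEncodable) q = rank (enc0 q) := by
  have h : ∀ x, (decide (IsCode x)) = @decide (x ∈ Set.range enc0) (Encodable.decidableRangeEncode ℚ x) := by
    intro x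
    simp only [decide_eq_decide]
    exact isCode_iff x
  have h1 : @encode ℚ (Denumerable.toEncodable) q =
      (List.range (enc0 q)).countP
        (fun x => @decide (x ∈ Set.range enc0) (Encodable.decidableRangeEncode ℚ x)) := rfl
  rw [h1, rank, List.countP_eq_length_filter]
  congr 2
  funext x
  exact (h x).symm

/-! ### Primitive recursiveness of the raw code structure -/

theorem primrec_absOfCode : Primrec absOfCode := by
  unfold absOfCode
  refine Primrec.ite ?_ ?_ ?_
  · exact Primrec.eq.comp (Primrec.nat_mod.comp .id (.const 2)) (.const 0)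
  · exact Primrec.nat_div.comp .id (.const 2)
  · exact Primrec.succ.comp (Primrec.nat_div.comp .id (.const 2))

theorem primrec_posOfCode : Primrec posOfCode := by
  unfold posOfCode
  refine Primrec.ite ?_ ?_ (.const 0)
  · exact Primrec.eq.comp (Primrec.nat_mod.comp .id (.const 2)) (.const 0)
  · exact Primrec.nat_div.comp .id (.const 2)

theorem primrec_negOfCode : Primrec negOfCode := by
  unfold negOfCode
  refine Primrec.ite ?_ (.const 0) ?_
  · exact Primrec.eq.comp (Primrec.nat_mod.comp .id (.const 2)) (.const 0)
  · exact Primrec.succ.comp (Primrec.nat_div.comp .id (.const 2))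

theorem primrecPred_isCode : PrimrecPred IsCode := by
  unfold IsCode
  refine PrimrecPred.and ?_ ?_
  · exact Primrec.nat_lt.comp (.const 0) (Primrec.snd.comp Primrec.unpair)
  · -- bounded quantifier
    have hR : PrimrecRel fun (k : ℕ) (c : ℕ) =>
        (absOfCode c.unpair.1 % k = 0 ∧ c.unpair.2 % k = 0) → k ≤ 1 := by
      have : PrimrecRel fun (k : ℕ) (c : ℕ) =>
          ¬ (absOfCode c.unpair.1 % k = 0 ∧ c.unpair.2 % k = 0) ∨ k ≤ 1 := by
        refine PrimrecPred.or (PrimrecPred.not (PrimrecPred.and ?_ ?_)) ?_
        · exact Primrec.eq.comp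
            (Primrec.nat_mod.comp
              (primrec_absOfCode.comp (Primrec.fst.comp (Primrec.unpair.comp .snd))) .fst) (.const 0)
        · exact Primrec.eq.comp
            (Primrec.nat_mod.comp (Primrec.snd.comp (Primrec.unpair.comp .snd)) .fst) (.const 0)
        · exact Primrec.nat_le.comp .fst (.const 1)
      refine this.of_eq ?_
      intro k c
      tauto
    have h2 := hR.forall_lt
    have h3 : PrimrecPred fun c : ℕ => ∀ k < c.unpair.2 + 1,
        (absOfCode c.unpair.1 % k = 0 ∧ c.unpair.2 % k = 0) → k ≤ 1 :=
      h2.comp (Primrec.succ.comp (Primrec.snd.comp Primrec.unpair)) .id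
    exact h3

theorem primrec_rank : Primrec rank := by
  unfold rank
  have h1 : Primrec fun L : List ℕ => L.filter (fun x => decide (IsCode x)) :=
    Primrec.listFilter primrecPred_isCode
  exact Primrec.list_length.comp (h1.comp Primrec.list_range)

/-! ### Natural number operations -/

section Nat
variable {α : Type*} [Primcodable α]

theorem c_add {f g : α → ℕ} (hf : Computable f) (hg : Computable g) :
    Computable fun x => f x + g x := Primrec.nat_add.to_comp.comp hf hg

theorem c_mul {f g : α → ℕ} (hf : Computable f) (hg : Computable g) :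
    Computable fun x => f x * g x := Primrec.nat_mul.to_comp.comp hf hg

theorem c_sub {f g : α → ℕ} (hf : Computable f) (hg : Computable g) :
    Computable fun x => f x - g x := Primrec.nat_sub.to_comp.comp hf hg

theorem c_div {f g : α → ℕ} (hf : Computable f) (hg : Computable g) :
    Computable fun x => f x / g x := Primrec.nat_div.to_comp.comp hf hg

theorem c_eq {f g : α → ℕ} (hf : Computable f) (hg : Computable g) :
    Computable fun x => decide (f x = g x) :=
  (Primrec.eq (α := ℕ)).decide.to_comp.comp hf hg

theorem c_le {f g : α → ℕ} (hf : Computable f) (hg : Computable g) :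
    Computable fun x => decide (f x ≤ g x) :=
  Primrec.nat_le.decide.to_comp.comp hf hg

end Nat

/-! ### Search -/

/-- A function to `ℕ` whose graph is decidable by a computable test is computable. -/
theorem computable_of_graph {α : Type*} [Primcodable α] (f : α → ℕ) (R : α → ℕ → Bool)
    (hR : Computable₂ R) (h : ∀ x y, R x y = true ↔ y = f x) : Computable f := by
  let p : α → ℕ →. Bool := fun a n => Part.some (R a n)
  have h1 : Partrec fun a => Nat.rfind (p a) := by
    refine Partrec.rfind ?_
    exact hR.partrec₂
  refine h1.of_eq_tot ?_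
  intro x
  rw [Nat.mem_rfind]
  constructor
  · show true ∈ Part.some (R x (f x))
    rw [(h x (f x)).2 rfl]
    exact Part.mem_some _
  · intro m hm
    have : R x m = false := by
      cases hb : R x m with
      | false => rfl
      | true =>
        have := (h x m).1 hb
        omega
    show false ∈ Part.some (R x m)
    rw [this]
    exact Part.mem_some _

/-- `q ↦ enc0 q` is computable for the denumerable coding. -/
theorem computable_enc0 : Computable enc0 := by
  refine computable_of_graph enc0
    (fun q c => decide (IsCode c ∧ rank c = @encode ℚ (Denumerable.toEncodable) q)) ?_ ?_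
  · have : PrimrecRel fun (q : ℚ) (c : ℕ) =>
        (IsCode c ∧ rank c = @encode ℚ (Denumerable.toEncodable) q) := by
      refine PrimrecPred.and (primrecPred_isCode.comp .snd) ?_
      exact Primrec.eq.comp (primrec_rank.comp .snd) (Primrec.encode.comp .fst)
    exact this.decide.to_comp
  · intro q c
    simp only [decide_eq_true_eq]
    constructor
    · rintro ⟨h1, h2⟩
      obtain ⟨q', rfl⟩ := (isCode_iff c).1 h1
      rw [← encode_eq_rank] at h2
      have : q' = q := @encode_injective ℚ (Denumerable.toEncodable) _ _ h2
      rw [this]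
    · rintro rfl
      exact ⟨(isCode_iff _).2 ⟨q, rfl⟩, (encode_eq_rank q).symm⟩

/-- positive part of the numerator -/
def numP (q : ℚ) : ℕ := q.num.toNat
/-- negative part of the numerator -/
def numN (q : ℚ) : ℕ := (-q.num).toNat

theorem numP_eq (q : ℚ) : numP q = posOfCode (enc0 q).unpair.1 := by
  rw [enc0_eq, Nat.unpair_pair]
  simp only [numP]
  rcases q with ⟨a, b, c, d⟩
  simp only
  rw [encode_int]
  cases a with
  | ofNat n =>
    have h1 : (2 * n) % 2 = 0 := by omega
    have h2 : (2 * n) / 2 = n := by omega
    simp [posOfCode, h1, h2]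
  | negSucc n =>
    have h1 : ¬ (2 * n + 1) % 2 = 0 := by omega
    simp [posOfCode, h1]

theorem numN_eq (q : ℚ) : numN q = negOfCode (enc0 q).unpair.1 := by
  rw [enc0_eq, Nat.unpair_pair]
  simp only [numN]
  rcases q with ⟨a, b, c, d⟩
  simp only
  rw [encode_int]
  cases a with
  | ofNat n =>
    have h1 : (2 * n) % 2 = 0 := by omega
    simp [negOfCode, h1]
  | negSucc n =>
    have h1 : ¬ (2 * n + 1) % 2 = 0 := by omega
    have h2 : (2 * n + 1) / 2 = n := by omega
    simp only [negOfCode, h1, h2, if_false]
    simp [Int.neg_negSucc]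

theorem den_eq (q : ℚ) : q.den = (enc0 q).unpair.2 := by
  rw [enc0_eq, Nat.unpair_pair]

theorem computable_numP : Computable numP :=
  (primrec_posOfCode.to_comp.comp (Computable.fst.comp (Computable.unpair.comp computable_enc0))).of_eq
    (fun q => (numP_eq q).symm)

theorem computable_numN : Computable numN :=
  (primrec_negOfCode.to_comp.comp (Computable.fst.comp (Computable.unpair.comp computable_enc0))).of_eq
    (fun q => (numN_eq q).symm)

theorem computable_den : Computable Rat.den :=
  (Computable.snd.comp (Computable.unpair.comp computable_enc0)).of_eq (fun q => (den_eq q).symm)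

theorem rat_eq_parts (q : ℚ) : q = ((numP q : ℚ) - numN q) / q.den := by
  have h1 : (q.num : ℚ) = (numP q : ℚ) - numN q := by
    have : q.num = (numP q : ℤ) - numN q := by
      simp only [numP, numN]
      omega
    rw [this]
    push_cast
    ring
  rw [← h1]
  exact (Rat.num_div_den q).symm

/-- rationals from natural parts -/
def ofParts (a b d : ℕ) : ℚ := ((a : ℚ) - b) / (d + 1)

theorem ofParts_eq_iff (a b d : ℕ) (q : ℚ) :
    q = ofParts a b d ↔ numP q * (d + 1) + b * q.den = a * q.den + numN q * (d + 1) := by
  have hq : (q.den : ℚ) ≠ 0 := by exact_mod_cast q.den_ne_zero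
  have hd : ((d : ℚ) + 1) ≠ 0 := by positivity
  unfold ofParts
  conv_lhs => rw [rat_eq_parts q]
  rw [div_eq_div_iff hq hd]
  constructor
  · intro h
    have h' : ((numP q : ℚ) * (d + 1) + b * q.den) = a * q.den + numN q * (d + 1) := by
      linarith
    exact_mod_cast h'
  · intro h
    have h' : ((numP q : ℚ) * (d + 1) + b * q.den) = a * q.den + numN q * (d + 1) := by
      exact_mod_cast h
    linarith

/-- Rational-valued functions with a computably decidable graph are computable. -/
theorem computable_rat_of_graph {α : Type*} [Primcodable α] (f : α → ℚ) (R : α → ℚ → Bool)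
    (hR : Computable₂ R) (h : ∀ x y, R x y = true ↔ y = f x) : Computable f := by
  refine (Computable.encode_iff).1 ?_
  refine computable_of_graph _ (fun x n => R x (Denumerable.ofNat ℚ n)) ?_ ?_
  · exact hR.comp Computable.fst ((Computable.ofNat ℚ).comp Computable.snd)
  · intro x n
    rw [h]
    constructor
    · intro h1
      rw [← h1]
      exact (Denumerable.encode_ofNat n).symm
    · intro h1
      rw [h1]
      exact Denumerable.ofNat_encode _

theorem computable_ofParts : Computable fun p : ℕ × ℕ × ℕ => ofParts p.1 p.2.1 p.2.2 := by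
  refine computable_rat_of_graph _
    (fun p q => decide (numP q * (p.2.2 + 1) + p.2.1 * q.den = p.1 * q.den + numN q * (p.2.2 + 1))) ?_ ?_
  · have ha : Computable fun x : (ℕ × ℕ × ℕ) × ℚ => x.1.1 := Computable.fst.comp Computable.fst
    have hb : Computable fun x : (ℕ × ℕ × ℕ) × ℚ => x.1.2.1 :=
      Computable.fst.comp (Computable.snd.comp Computable.fst)
    have hd : Computable fun x : (ℕ × ℕ × ℕ) × ℚ => x.1.2.2 + 1 :=
      Computable.succ.comp (Computable.snd.comp (Computable.snd.comp Computable.fst))
    have hP : Computable fun x : (ℕ × ℕ × ℕ) × ℚ => numP x.2 := computable_numP.comp Computable.snd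
    have hN : Computable fun x : (ℕ × ℕ × ℕ) × ℚ => numN x.2 := computable_numN.comp Computable.snd
    have hD : Computable fun x : (ℕ × ℕ × ℕ) × ℚ => x.2.den := computable_den.comp Computable.snd
    have := (c_eq (c_add (c_mul hP hd) (c_mul hb hD)) (c_add (c_mul ha hD) (c_mul hN hd)))
    exact this
  · intro p q
    simp only [decide_eq_true_eq]
    exact (ofParts_eq_iff _ _ _ _).symm

/-! ### Rational arithmetic -/

section Ops
variable {α : Type*} [Primcodable α] {σ : Type*} [Primcodable σ]

theorem c_id : Computable fun x : α => x := Computable.id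

theorem c_fst {β γ : Type*} [Primcodable β] [Primcodable γ] {f : α → β × γ} (hf : Computable f) :
    Computable fun x => (f x).1 := Computable.fst.comp hf

theorem c_snd {β γ : Type*} [Primcodable β] [Primcodable γ] {f : α → β × γ} (hf : Computable f) :
    Computable fun x => (f x).2 := Computable.snd.comp hf

theorem c_pair {β γ : Type*} [Primcodable β] [Primcodable γ] {f : α → β} {g : α → γ}
    (hf : Computable f) (hg : Computable g) : Computable fun x => (f x, g x) := hf.pair hg

theorem c_const (c : σ) : Computable fun _ : α => c := Computable.const c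

theorem c_succ {f : α → ℕ} (hf : Computable f) : Computable fun x => f x + 1 :=
  Computable.succ.comp hf

/-- Simple primitive recursion. -/
theorem c_rec {F : α → ℕ → σ} {g : α → σ} {h : α → ℕ → σ → σ} {N : α → ℕ}
    (hN : Computable N) (hg : Computable g)
    (hh : Computable fun p : α × ℕ × σ => h p.1 p.2.1 p.2.2)
    (h0 : ∀ x, F x 0 = g x) (hs : ∀ x n, F x (n + 1) = h x n (F x n)) :
    Computable fun x => F x (N x) := by
  have h1 := Computable.nat_rec (f := N) (g := g) (h := fun a (p : ℕ × σ) => h a p.1 p.2) hN hg hh
  refine h1.of_eq ?_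
  intro x
  generalize N x = n
  induction n with
  | zero => simp [h0]
  | succ n ih => simp only [hs]; rw [← ih]

theorem c_ite {c : α → Prop} [DecidablePred c] {f g : α → σ}
    (hc : Computable fun x => decide (c x)) (hf : Computable f) (hg : Computable g) :
    Computable fun x => if c x then f x else g x := by
  refine (Computable.cond hc hf hg).of_eq ?_
  intro x
  by_cases h : c x <;> simp [h]

theorem c_pow {f g : α → ℕ} (hf : Computable f) (hg : Computable g) :
    Computable fun x => f x ^ g x :=
  (c_rec (F := fun x n => f x ^ n) (g := fun _ => 1) (h := fun x _ r => r * f x) hg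
    (Computable.const 1) (c_mul (c_snd (c_snd c_id)) (hf.comp Computable.fst))
    (fun _ => pow_zero _) (fun _ _ => pow_succ _ _))

theorem c_fact {f : α → ℕ} (hf : Computable f) : Computable fun x => (f x).factorial :=
  (c_rec (F := fun _ n => n.factorial) (g := fun _ => 1) (h := fun _ n r => (n + 1) * r) hf
    (Computable.const 1) (c_mul (c_succ (c_fst (c_snd c_id))) (c_snd (c_snd c_id)))
    (fun _ => Nat.factorial_zero) (fun _ n => Nat.factorial_succ n))

theorem q_ofParts {a b d : α → ℕ} (ha : Computable a) (hb : Computable b) (hd : Computable d) :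
    Computable fun x => ofParts (a x) (b x) (d x) := by
  have h := computable_ofParts.comp (ha.pair (hb.pair hd))
  exact h

theorem c_numP {f : α → ℚ} (hf : Computable f) : Computable fun x => numP (f x) :=
  computable_numP.comp hf

theorem c_numN {f : α → ℚ} (hf : Computable f) : Computable fun x => numN (f x) :=
  computable_numN.comp hf

theorem c_den {f : α → ℚ} (hf : Computable f) : Computable fun x => (f x).den :=
  computable_den.comp hf

theorem q_natCast {f : α → ℕ} (hf : Computable f) : Computable fun x => ((f x : ℕ) : ℚ) := by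
  refine (q_ofParts hf (Computable.const 0) (Computable.const 0)).of_eq ?_
  intro x
  simp [ofParts]

theorem q_neg {f : α → ℚ} (hf : Computable f) : Computable fun x => - f x := by
  refine (q_ofParts (c_numN hf) (c_numP hf) (c_sub (c_den hf) (Computable.const 1))).of_eq ?_
  intro x
  have h1 : 1 ≤ (f x).den := (f x).den_pos
  have h2 : (((f x).den - 1 : ℕ) : ℚ) + 1 = (f x).den := by
    rw [Nat.cast_sub h1]; simp
  simp only [ofParts, h2]
  conv_rhs => rw [rat_eq_parts (f x)]
  ring

theorem q_add {f g : α → ℚ} (hf : Computable f) (hg : Computable g) :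
    Computable fun x => f x + g x := by
  refine (q_ofParts
    (c_add (c_mul (c_numP hf) (c_den hg)) (c_mul (c_numP hg) (c_den hf)))
    (c_add (c_mul (c_numN hf) (c_den hg)) (c_mul (c_numN hg) (c_den hf)))
    (c_sub (c_mul (c_den hf) (c_den hg)) (Computable.const 1))).of_eq ?_
  intro x
  have h1 : 1 ≤ (f x).den * (g x).den := Nat.mul_pos (f x).den_pos (g x).den_pos
  have h2 : (((f x).den * (g x).den - 1 : ℕ) : ℚ) + 1 = (f x).den * (g x).den := by
    rw [Nat.cast_sub h1]; push_cast; ring
  have hf0 : ((f x).den : ℚ) ≠ 0 := by exact_mod_cast (f x).den_ne_zero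
  have hg0 : ((g x).den : ℚ) ≠ 0 := by exact_mod_cast (g x).den_ne_zero
  simp only [ofParts, h2]
  conv_rhs => rw [rat_eq_parts (f x), rat_eq_parts (g x)]
  push_cast
  field_simp
  ring

theorem q_mul {f g : α → ℚ} (hf : Computable f) (hg : Computable g) :
    Computable fun x => f x * g x := by
  refine (q_ofParts
    (c_add (c_mul (c_numP hf) (c_numP hg)) (c_mul (c_numN hf) (c_numN hg)))
    (c_add (c_mul (c_numP hf) (c_numN hg)) (c_mul (c_numN hf) (c_numP hg)))
    (c_sub (c_mul (c_den hf) (c_den hg)) (Computable.const 1))).of_eq ?_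
  intro x
  have h1 : 1 ≤ (f x).den * (g x).den := Nat.mul_pos (f x).den_pos (g x).den_pos
  have h2 : (((f x).den * (g x).den - 1 : ℕ) : ℚ) + 1 = (f x).den * (g x).den := by
    rw [Nat.cast_sub h1]; push_cast; ring
  have hf0 : ((f x).den : ℚ) ≠ 0 := by exact_mod_cast (f x).den_ne_zero
  have hg0 : ((g x).den : ℚ) ≠ 0 := by exact_mod_cast (g x).den_ne_zero
  simp only [ofParts, h2]
  conv_rhs => rw [rat_eq_parts (f x), rat_eq_parts (g x)]
  push_cast
  field_simp
  ring

theorem q_sub {f g : α → ℚ} (hf : Computable f) (hg : Computable g) :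
    Computable fun x => f x - g x :=
  (q_add hf (q_neg hg)).of_eq (fun x => (sub_eq_add_neg _ _).symm)

theorem q_le_iff (q r : ℚ) :
    q ≤ r ↔ numP q * r.den + numN r * q.den ≤ numP r * q.den + numN q * r.den := by
  have hq : (0 : ℚ) < q.den := by exact_mod_cast q.den_pos
  have hr : (0 : ℚ) < r.den := by exact_mod_cast r.den_pos
  conv_lhs => rw [rat_eq_parts q, rat_eq_parts r]
  rw [div_le_div_iff₀ hq hr]
  constructor
  · intro h
    have h' : ((numP q : ℚ) * r.den + numN r * q.den) ≤ numP r * q.den + numN q * r.den := by
      linarith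
    exact_mod_cast h'
  · intro h
    have h' : ((numP q : ℚ) * r.den + numN r * q.den) ≤ numP r * q.den + numN q * r.den := by
      exact_mod_cast h
    linarith

theorem q_le {f g : α → ℚ} (hf : Computable f) (hg : Computable g) :
    Computable fun x => decide (f x ≤ g x) := by
  refine (c_le (c_add (c_mul (c_numP hf) (c_den hg)) (c_mul (c_numN hg) (c_den hf)))
    (c_add (c_mul (c_numP hg) (c_den hf)) (c_mul (c_numN hf) (c_den hg)))).of_eq ?_
  intro x
  simp only [decide_eq_decide]
  exact (q_le_iff _ _).symm

theorem q_pow {f : α → ℚ} {g : α → ℕ} (hf : Computable f) (hg : Computable g) :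
    Computable fun x => f x ^ g x :=
  (c_rec (F := fun x n => f x ^ n) (g := fun _ => 1) (h := fun x _ r => r * f x) hg
    (Computable.const 1) (q_mul (c_snd (c_snd c_id)) (hf.comp Computable.fst))
    (fun _ => pow_zero _) (fun _ _ => pow_succ _ _))

theorem q_sum {f : α × ℕ → ℚ} {g : α → ℕ} (hf : Computable f) (hg : Computable g) :
    Computable fun x => ∑ i ∈ Finset.range (g x), f (x, i) :=
  (c_rec (F := fun x n => ∑ i ∈ Finset.range n, f (x, i)) (g := fun _ => 0)
    (h := fun x n r => r + f (x, n)) hg
    (Computable.const 0) (q_add (c_snd (c_snd c_id))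
      (hf.comp (c_pair (c_fst c_id) (c_fst (c_snd c_id)))))
    (fun _ => Finset.sum_range_zero _) (fun _ _ => Finset.sum_range_succ _ _))

/-- Inversion of rationals. -/
theorem q_inv {f : α → ℚ} (hf : Computable f) : Computable fun x => (f x)⁻¹ := by
  -- numP = 0 ∧ numN = 0 → 0; numN = 0 → d / numP; else  - d / numN
  have h1 : Computable fun x => if numP (f x) = 0 then
      (if numN (f x) = 0 then (0 : ℚ) else - ofParts (f x).den 0 (numN (f x) - 1))
      else ofParts (f x).den 0 (numP (f x) - 1) :=
    c_ite (c_eq (c_numP hf) (Computable.const 0))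
      (c_ite (c_eq (c_numN hf) (Computable.const 0)) (Computable.const 0)
        (q_neg (q_ofParts (c_den hf) (Computable.const 0) (c_sub (c_numN hf) (Computable.const 1)))))
      (q_ofParts (c_den hf) (Computable.const 0) (c_sub (c_numP hf) (Computable.const 1)))
  refine h1.of_eq ?_
  intro x
  set q := f x with hq
  have hnum : q.num = (numP q : ℤ) - numN q := by
    simp only [numP, numN]; omega
  have hd0 : (q.den : ℚ) ≠ 0 := by exact_mod_cast q.den_ne_zero
  have hqe := rat_eq_parts q
  by_cases hP : numP q = 0
  · by_cases hN : numN q = 0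
    · simp only [hP, hN, if_true, and_self]
      rw [hP, hN] at hqe
      have : q = 0 := by rw [hqe]; simp
      rw [this]; simp
    · simp only [hP, hN, if_true, if_false]
      have hN1 : 1 ≤ numN q := Nat.one_le_iff_ne_zero.2 hN
      have hN2 : ((numN q - 1 : ℕ) : ℚ) + 1 = numN q := by
        rw [Nat.cast_sub hN1]; simp
      have hN3 : (numN q : ℚ) ≠ 0 := by exact_mod_cast hN
      simp only [ofParts, hN2]
      conv_rhs => rw [hqe, hP]
      push_cast
      field_simp
      simp
  · simp only [hP, if_false]
    have hN : numN q = 0 := by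
      simp only [numP, numN] at hP ⊢
      omega
    have hP1 : 1 ≤ numP q := Nat.one_le_iff_ne_zero.2 hP
    have hP2 : ((numP q - 1 : ℕ) : ℚ) + 1 = numP q := by
      rw [Nat.cast_sub hP1]; simp
    have hP3 : (numP q : ℚ) ≠ 0 := by exact_mod_cast hP
    simp only [ofParts, hP2]
    conv_rhs => rw [hqe, hN]
    push_cast
    field_simp
    simp

/-- A computable natural bound for the absolute value. -/
def natBd (q : ℚ) : ℕ := numP q + numN q

theorem abs_le_natBd (q : ℚ) : |q| ≤ natBd q := by
  have h1 : q = ((numP q : ℚ) - numN q) / q.den := rat_eq_parts q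
  have h2 : (1 : ℚ) ≤ q.den := by exact_mod_cast q.den_pos
  have h3 : (0 : ℚ) ≤ numP q := by positivity
  have h4 : (0 : ℚ) ≤ numN q := by positivity
  have h5 : |(numP q : ℚ) - numN q| ≤ (numP q : ℚ) + numN q := by
    rw [abs_le]; constructor <;> linarith
  rw [h1, abs_div, abs_of_pos (by linarith : (0 : ℚ) < q.den), natBd]
  have h6 : |(numP q : ℚ) - numN q| / q.den ≤ |(numP q : ℚ) - numN q| :=
    div_le_self (abs_nonneg _) h2
  have h7 := h6.trans h5
  have h8 : ((numP ((↑(numP q) - ↑(numN q)) / ↑q.den) + numN ((↑(numP q) - ↑(numN q)) / ↑q.den) : ℕ) : ℚ)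
      = (numP q : ℚ) + numN q := by
    rw [← h1]; push_cast; ring
  rw [h8]
  exact h7

theorem c_natBd {f : α → ℚ} (hf : Computable f) : Computable fun x => natBd (f x) :=
  c_add (c_numP hf) (c_numN hf)

/-- Building a finite function from computable components. -/
theorem c_finArrow {n : ℕ} {F : α → Fin n → σ} (h : ∀ j, Computable fun x => F x j) :
    Computable F :=
  (Primrec.vector_get'.to_comp.comp (Computable.vector_ofFn h)).of_eq
    (fun a => by funext i; simp)

theorem c_finApp {n : ℕ} {F : α → Fin n → σ} (h : Computable F) (j : Fin n) :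
    Computable fun x => F x j :=
  Computable.fin_app.comp h (Computable.const j)

theorem c_count (l : Fin 4) : Computable fun ds : List (Fin 4) => ds.count l := by
  have h1 : PrimrecPred fun d : Fin 4 => d = l :=
    Primrec.primrecPred (Primrec.dom_finite (fun d : Fin 4 => decide (d = l)))
  have h2 := Primrec.list_length.comp (Primrec.listFilter h1)
  refine h2.to_comp.of_eq ?_
  intro ds
  rw [List.count_eq_length_filter]
  congr 2

end Ops

end Crest.Agent.BoxFlowQ
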