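/-
Rational approximation of `Real.smoothTransition` and of all its derivatives.
-/
import Mathlib
import Crest.Agent.Lib.BoxFlowQ
import Crest.Agent.Lib.BoxFlowG

set_option autoImplicit false

namespace Crest.Agent.BoxFlowApprox

open Crest.Agent.BoxFlowQ Crest.Agent.BoxFlowG
open Real Set Filter Topology
open scoped Nat ContDiff fwdDiff

/-! ### exponentials -/

/-- Truncated exponential series. -/
def sumExp (u : ℚ) (K : ℕ) : ℚ := ∑ k ∈ Finset.range K, u ^ k * ((k ! : ℕ) : ℚ)⁻¹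

/-- Rational approximation of `exp (-y)`, `y ≥ 0`. -/
def aExp (y : ℚ) (N : ℕ) : ℚ :=
  (sumExp (-y * ((natBd y + 1 : ℕ) : ℚ)⁻¹) (2 * (natBd y + 1) * 2 ^ (natBd y + 1) * (N + 1) + 1)) ^
    (natBd y + 1)

theorem abs_pow_sub_pow_le (a b δ : ℝ) (ha : |a| ≤ 1) (hab : |a - b| ≤ δ) (hδ : δ ≤ 1) (M : ℕ) :
    |a ^ M - b ^ M| ≤ M * 2 ^ M * δ := by
  have hδ0 : 0 ≤ δ := (abs_nonneg _).trans hab
  have hb : |b| ≤ 2 := by
    have : |b| ≤ |a| + |a - b| := by
      have := abs_sub_abs_le_abs_sub b a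
      rw [abs_sub_comm b a] at this
      linarith
    linarith
  induction M with
  | zero => simp
  | succ M ih =>
    have h1 : a ^ (M + 1) - b ^ (M + 1) = a * (a ^ M - b ^ M) + (a - b) * b ^ M := by ring
    rw [h1]
    have h2 : |a * (a ^ M - b ^ M)| ≤ M * 2 ^ M * δ := by
      rw [abs_mul]
      calc |a| * |a ^ M - b ^ M| ≤ 1 * |a ^ M - b ^ M| := by gcongr
        _ ≤ _ := by rw [one_mul]; exact ih
    have h3 : |(a - b) * b ^ M| ≤ δ * 2 ^ M := by
      rw [abs_mul, abs_pow]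
      gcongr
    refine (abs_add_le _ _).trans ((add_le_add h2 h3).trans ?_)
    have h4 : (0:ℝ) ≤ 2 ^ M * δ := by positivity
    have h5 : (0:ℝ) ≤ M := Nat.cast_nonneg M
    push_cast
    rw [pow_succ]
    nlinarith [mul_nonneg h5 h4]

theorem aExp_spec (y : ℚ) (hy : 0 ≤ y) (N : ℕ) :
    |exp (-(y:ℝ)) - (aExp y N : ℝ)| ≤ 1 / ((N:ℝ) + 1) := by
  set M : ℕ := natBd y + 1 with hM
  set K : ℕ := 2 * M * 2 ^ M * (N + 1) + 1 with hK
  have hMpos : (0:ℝ) < M := by rw [hM]; positivity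
  have hyR : (0:ℝ) ≤ y := by exact_mod_cast hy
  have hyM : (y:ℝ) ≤ M := by
    have := abs_le_natBd y
    have h2 : y ≤ M := by
      rw [hM]; push_cast
      have := le_abs_self y
      linarith
    exact_mod_cast h2
  set u : ℝ := -(y:ℝ) * ((M:ℝ))⁻¹ with hu
  have hu0 : u ≤ 0 := by
    rw [hu]
    have : 0 ≤ (y:ℝ) * (M:ℝ)⁻¹ := by positivity
    linarith
  have hu1 : |u| ≤ 1 := by
    rw [abs_of_nonpos hu0, hu, neg_mul, neg_neg, ← div_eq_mul_inv, div_le_one hMpos]
    exact hyM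
  have hKpos : 0 < K := by rw [hK]; positivity
  have hbound := Real.exp_bound hu1 hKpos
  -- simplify the error term
  have hKR : (K:ℝ) = 2 * M * 2 ^ M * (N + 1) + 1 := by rw [hK]; push_cast; ring
  have hK1 : (1:ℝ) ≤ K := by exact_mod_cast hKpos
  have hKf : (K:ℝ) ≤ (K ! : ℝ) := by exact_mod_cast Nat.self_le_factorial K
  have herr : |u| ^ K * (((K.succ : ℕ) : ℝ) / ((K ! : ℝ) * K)) ≤ 1 / (M * 2 ^ M * ((N:ℝ) + 1)) := by
    have h1 : |u| ^ K ≤ 1 := pow_le_one₀ (abs_nonneg _) hu1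
    have h2 : ((K.succ : ℕ) : ℝ) / ((K ! : ℝ) * K) ≤ 2 / K := by
      rw [div_le_div_iff₀ (by positivity) (by positivity)]
      push_cast
      have : (K:ℝ) + 1 ≤ 2 * K := by linarith
      nlinarith [mul_nonneg (sub_nonneg.2 hKf) (by positivity : (0:ℝ) ≤ (K:ℝ)),
        mul_nonneg (sub_nonneg.2 this) (by positivity : (0:ℝ) ≤ (K:ℝ)),
        mul_nonneg (sub_nonneg.2 this) (by positivity : (0:ℝ) ≤ (K ! : ℝ))]
    have h3 : (2:ℝ) / K ≤ 1 / (M * 2 ^ M * ((N:ℝ) + 1)) := by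
      rw [div_le_div_iff₀ (by positivity) (by positivity)]
      rw [hKR]
      nlinarith
    calc _ ≤ 1 * (2 / (K:ℝ)) := by
          gcongr
      _ ≤ _ := by rw [one_mul]; exact h3
  set δ : ℝ := 1 / (M * 2 ^ M * ((N:ℝ) + 1)) with hδ
  have hδ1 : δ ≤ 1 := by
    rw [hδ, div_le_one (by positivity)]
    have h1 : (1:ℝ) ≤ M := by rw [hM]; push_cast; linarith [(Nat.cast_nonneg (natBd y) : (0:ℝ) ≤ _)]
    have h2 : (1:ℝ) ≤ 2 ^ M := one_le_pow₀ (by norm_num)
    have h3 : (1:ℝ) ≤ (N:ℝ) + 1 := by linarith [(Nat.cast_nonneg N : (0:ℝ) ≤ _)]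
    calc (1:ℝ) = 1 * 1 * 1 := by norm_num
      _ ≤ _ := by gcongr
  have hcast : ((aExp y N : ℚ) : ℝ) =
      (∑ k ∈ Finset.range K, u ^ k / (k ! : ℝ)) ^ M := by
    simp only [aExp, sumExp]
    push_cast
    rw [← hM, ← hK]
    congr 1
    refine Finset.sum_congr rfl ?_
    intro k _
    rw [div_eq_mul_inv, hu]
    congr 2
    rw [hM]
    push_cast
    rfl
  have hexpu : exp (-(y:ℝ)) = (exp u) ^ M := by
    rw [← Real.exp_nat_mul]
    congr 1
    rw [hu]
    field_simp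
  rw [hcast, hexpu]
  have habs : |exp u| ≤ 1 := by
    rw [abs_of_pos (exp_pos u)]
    exact Real.exp_le_one_iff.2 hu0
  have h := abs_pow_sub_pow_le _ _ δ habs (hbound.trans herr) hδ1 M
  refine h.trans (le_of_eq ?_)
  rw [hδ]
  field_simp

/-! ### values of `G` -/

/-- Rational approximation of the values of `G`. -/
def aG (x : ℚ) (N : ℕ) : ℚ :=
  if x ≤ 0 then 0 else if 1 ≤ x then 1 else
    aExp x⁻¹ (256 * (N + 1)) * (aExp x⁻¹ (256 * (N + 1)) + aExp (1 - x)⁻¹ (256 * (N + 1)))⁻¹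

theorem aG_spec (x : ℚ) (N : ℕ) : |G (x:ℝ) - (aG x N : ℝ)| ≤ 1 / ((N:ℝ) + 1) := by
  have hNpos : (0:ℝ) < (N:ℝ) + 1 := by positivity
  by_cases h0 : x ≤ 0
  · have h0' : (x:ℝ) ≤ 0 := by exact_mod_cast h0
    simp only [aG, h0, if_true]
    rw [G_of_nonpos h0']
    simp only [Rat.cast_zero, sub_zero, abs_zero]
    positivity
  by_cases h1 : 1 ≤ x
  · have h1' : (1:ℝ) ≤ (x:ℝ) := by exact_mod_cast h1
    simp only [aG, h0, h1, if_true, if_false]
    rw [G_of_one_le h1']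
    simp only [Rat.cast_one, sub_self, abs_zero]
    positivity
  push Not at h0 h1
  have h0R : (0:ℝ) < x := by exact_mod_cast h0
  have h1R : (x:ℝ) < 1 := by exact_mod_cast h1
  simp only [aG, not_le.2 h0, not_le.2 h1, if_false]
  obtain ⟨P, hP⟩ : ∃ P : ℕ, P = 256 * (N + 1) := ⟨_, rfl⟩
  rw [← hP]
  have hy : 0 ≤ x⁻¹ := inv_nonneg.2 h0.le
  have hz : 0 ≤ (1 - x)⁻¹ := inv_nonneg.2 (by linarith)
  have hA := aExp_spec x⁻¹ hy P
  have hB := aExp_spec (1 - x)⁻¹ hz P
  push_cast at hA hB ⊢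
  rw [G_eq_of_mem ⟨h0R, h1R⟩]
  set a₀ := exp (-(x:ℝ)⁻¹) with ha₀
  set b₀ := exp (-(1 - (x:ℝ))⁻¹) with hb₀
  set a : ℝ := ((aExp x⁻¹ P : ℚ) : ℝ) with ha
  set b : ℝ := ((aExp (1 - x)⁻¹ P : ℚ) : ℝ) with hb
  have hPR : ((P:ℝ) + 1) ≥ 256 * ((N:ℝ) + 1) := by
    have : (P:ℝ) = 256 * ((N:ℝ) + 1) := by rw [hP]; push_cast; ring
    linarith
  clear_value a b a₀ b₀
  clear hP
  set ε : ℝ := 1 / ((P:ℝ) + 1) with hε
  have hε1 : ε * 256 ≤ 1 / ((N:ℝ) + 1) := by
    rw [hε, div_mul_eq_mul_div, div_le_div_iff₀ (by positivity) hNpos]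
    nlinarith
  have hε0 : 0 ≤ ε := by rw [hε]; positivity
  have hε2 : ε ≤ 1 / 256 := by
    have h2 : 1 / ((N:ℝ) + 1) ≤ 1 := by
      rw [div_le_one hNpos]; linarith [(Nat.cast_nonneg N : (0:ℝ) ≤ _)]
    linarith
  have ha₀1 : a₀ ≤ 1 := by
    rw [ha₀]; exact Real.exp_le_one_iff.2 (by have := inv_pos.2 h0R; linarith)
  have hb₀1 : b₀ ≤ 1 := by
    have h3 : 0 < 1 - (x:ℝ) := by linarith
    rw [hb₀]; exact Real.exp_le_one_iff.2 (by have := inv_pos.2 h3; linarith)
  have ha₀0 : 0 < a₀ := by rw [ha₀]; exact exp_pos _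
  have hb₀0 : 0 < b₀ := by rw [hb₀]; exact exp_pos _
  have hexp2 : (1/8 : ℝ) ≤ exp (-2) := by
    rw [Real.exp_neg, one_div]
    exact inv_anti₀ (exp_pos _) exp_two_le
  have hsum : (1/8 : ℝ) ≤ a₀ + b₀ := by
    rcases le_total (x:ℝ) (1/2) with hle | hge
    · have h3 : 0 < 1 - (x:ℝ) := by linarith
      have h4 : (1 - (x:ℝ))⁻¹ ≤ 2 := by
        rw [inv_le_comm₀ h3 (by norm_num)]; linarith
      have h5 : exp (-2) ≤ b₀ := by rw [hb₀]; exact Real.exp_le_exp.2 (by linarith)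
      linarith
    · have h4 : (x:ℝ)⁻¹ ≤ 2 := by
        rw [inv_le_comm₀ h0R (by norm_num)]; linarith
      have h5 : exp (-2) ≤ a₀ := by rw [ha₀]; exact Real.exp_le_exp.2 (by linarith)
      linarith
  have hA' := abs_le.1 hA
  have hB' := abs_le.1 hB
  have hsum2 : (1/16 : ℝ) ≤ a + b := by linarith [hA'.1, hA'.2, hB'.1, hB'.2]
  have hd1 : a₀ + b₀ ≠ 0 := by linarith
  have hd2 : a + b ≠ 0 := by linarith
  have hid : a₀ / (a₀ + b₀) - a * (a + b)⁻¹ = (a₀ * (b - b₀) + (a₀ - a) * b₀) / ((a₀ + b₀) * (a + b)) := by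
    field_simp
    ring
  rw [hid, abs_div, abs_of_pos (by positivity : 0 < (a₀ + b₀) * (a + b))]
  have hnum : |a₀ * (b - b₀) + (a₀ - a) * b₀| ≤ 2 * ε := by
    refine (abs_add_le _ _).trans ?_
    rw [abs_mul, abs_mul, abs_of_pos ha₀0, abs_of_pos hb₀0, abs_sub_comm b b₀]
    have h5 : a₀ * |b₀ - b| ≤ 1 * ε := mul_le_mul ha₀1 hB (abs_nonneg _) zero_le_one
    have h6 : |a₀ - a| * b₀ ≤ ε * 1 := mul_le_mul hA hb₀1 hb₀0.le hε0
    linarith
  have hden : (1/128 : ℝ) ≤ (a₀ + b₀) * (a + b) := by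
    nlinarith
  rw [div_le_iff₀ (by positivity)]
  have h7 : 1 / ((N:ℝ) + 1) * (1/128) ≤ 1 / ((N:ℝ) + 1) * ((a₀ + b₀) * (a + b)) := by
    gcongr
  linarith

/-! ### computability of the value approximations -/

theorem computable_sumExp {α : Type*} [Primcodable α] {u : α → ℚ} {K : α → ℕ}
    (hu : Computable u) (hK : Computable K) : Computable fun x => sumExp (u x) (K x) := by
  have hf : Computable fun p : α × ℕ => u p.1 ^ p.2 * ((p.2 ! : ℕ) : ℚ)⁻¹ :=
    q_mul (q_pow (hu.comp Computable.fst) Computable.snd) (q_inv (q_natCast (c_fact Computable.snd)))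
  refine (q_sum hf hK).of_eq fun x => ?_
  simp only [sumExp]

theorem computable_aExp {α : Type*} [Primcodable α] {y : α → ℚ} {N : α → ℕ}
    (hy : Computable y) (hN : Computable N) : Computable fun x => aExp (y x) (N x) := by
  unfold aExp
  have hM : Computable fun x => natBd (y x) + 1 := c_succ (c_natBd hy)
  refine q_pow (computable_sumExp (q_mul (q_neg hy) (q_inv (q_natCast hM))) ?_) hM
  exact c_succ (c_mul (c_mul (c_mul (Computable.const 2) hM) (c_pow (Computable.const 2) hM)) (c_succ hN))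

theorem computable_aG {α : Type*} [Primcodable α] {y : α → ℚ} {N : α → ℕ}
    (hy : Computable y) (hN : Computable N) : Computable fun x => aG (y x) (N x) := by
  unfold aG
  have hP : Computable fun x => 256 * (N x + 1) := c_mul (Computable.const 256) (c_succ hN)
  have h1 : Computable fun x => aExp (y x)⁻¹ (256 * (N x + 1)) := computable_aExp (q_inv hy) hP
  have h2 : Computable fun x => aExp (1 - y x)⁻¹ (256 * (N x + 1)) :=
    computable_aExp (q_inv (q_sub (Computable.const 1) hy)) hP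
  exact c_ite (q_le hy (Computable.const 0)) (Computable.const 0)
    (c_ite (q_le (Computable.const 1) hy) (Computable.const 1) (q_mul h1 (q_inv (q_add h1 h2))))

/-! ### finite differences -/

/-- Difference quotient. -/
noncomputable def Dq (h : ℝ) (f : ℝ → ℝ) : ℝ → ℝ := fun x => (f (x + h) - f x) / h

theorem iteratedDeriv_Dq (h : ℝ) {f : ℝ → ℝ} (hf : ContDiff ℝ ∞ f) (m : ℕ) (x : ℝ) :
    iteratedDeriv m (Dq h f) x = (iteratedDeriv m f (x + h) - iteratedDeriv m f x) / h := by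
  have h1 : Dq h f = fun x => h⁻¹ * ((fun y => f (y + h)) x - f x) := by
    funext y
    simp only [Dq]
    rw [div_eq_inv_mul]
  have hs : ContDiff ℝ ∞ fun y => f (y + h) := hf.comp (contDiff_id.add contDiff_const)
  have hm : ((m : ℕ∞) : WithTop ℕ∞) ≤ ∞ := by exact_mod_cast le_top
  rw [h1, iteratedDeriv_const_mul_field, div_eq_inv_mul]
  congr 1
  rw [iteratedDeriv_fun_sub ((hs.of_le hm).contDiffAt) ((hf.of_le hm).contDiffAt),
    iteratedDeriv_comp_add_const]

theorem contDiff_Dq (h : ℝ) {f : ℝ → ℝ} (hf : ContDiff ℝ ∞ f) : ContDiff ℝ ∞ (Dq h f) := by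
  have hs : ContDiff ℝ ∞ fun y => f (y + h) := hf.comp (contDiff_id.add contDiff_const)
  exact (hs.sub hf).div_const h

theorem mvt_global {F : ℝ → ℝ} (hF : Differentiable ℝ F) {C : ℝ} (hC : ∀ x, |deriv F x| ≤ C)
    (x y : ℝ) : |F y - F x| ≤ C * |y - x| := by
  have := Convex.norm_image_sub_le_of_norm_deriv_le (f := F) (s := univ) (C := C) (x := x) (y := y)
    (fun z _ => hF z) (fun z _ => by simpa using hC z) convex_univ (mem_univ _) (mem_univ _)
  simpa using this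

theorem differentiable_iteratedDeriv' {f : ℝ → ℝ} (hf : ContDiff ℝ ∞ f) (m : ℕ) :
    Differentiable ℝ (iteratedDeriv m f) := by
  have hm : ((m + 1 : ℕ∞) : WithTop ℕ∞) ≤ ∞ := by exact_mod_cast le_top
  refine ContDiff.differentiable_iteratedDeriv m (hf.of_le hm) ?_
  exact_mod_cast Nat.cast_lt.2 (Nat.lt_succ_self m)

/-- Finite difference error estimate. -/
theorem Dq_iterate_error (m : ℕ) : ∀ (f : ℝ → ℝ), ContDiff ℝ ∞ f → ∀ (B h : ℝ), 0 < h →
    (∀ x, |iteratedDeriv (m + 1) f x| ≤ B) →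
    ∀ x, |(Dq h)^[m] f x - iteratedDeriv m f x| ≤ m * h * B := by
  induction m with
  | zero =>
    intro f _ B h _ _ x
    simp
  | succ m ih =>
    intro f hf B h hh hB x
    have hB0 : 0 ≤ B := (abs_nonneg _).trans (hB x)
    have hdiff1 := differentiable_iteratedDeriv' hf (m + 1)
    have hdiff0 := differentiable_iteratedDeriv' hf m
    -- bound for the derivative of the difference quotient
    have h1 : ∀ y, |iteratedDeriv (m + 1) (Dq h f) y| ≤ B := by
      intro y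
      rw [iteratedDeriv_Dq h hf, abs_div, abs_of_pos hh, div_le_iff₀ hh]
      have := mvt_global hdiff1 (C := B) (fun z => by
        rw [← iteratedDeriv_succ]
        exact hB z) y (y + h)
      simpa [abs_of_pos hh] using this
    have h2 := ih (Dq h f) (contDiff_Dq h hf) B h hh h1 x
    rw [Function.iterate_succ_apply]
    -- second order estimate
    have h3 : |iteratedDeriv m (Dq h f) x - iteratedDeriv (m + 1) f x| ≤ h * B := by
      rw [iteratedDeriv_Dq h hf]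
      set F := iteratedDeriv m f with hF
      have hF' : ∀ z, deriv F z = iteratedDeriv (m + 1) f z := by
        intro z; rw [hF, iteratedDeriv_succ]
      -- ph(t) = F t - F'(x) t
      set c := iteratedDeriv (m + 1) f x with hc
      let ph : ℝ → ℝ := fun t => F t - c * t
      have hph : Differentiable ℝ ph := hdiff0.sub ((differentiable_const c).mul differentiable_id)
      have hph' : ∀ t, deriv ph t = iteratedDeriv (m + 1) f t - c := by
        intro t
        have h5 : HasDerivAt ph (deriv F t - c * 1) t :=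
          (hdiff0 t).hasDerivAt.sub ((hasDerivAt_id t).const_mul c)
        rw [h5.deriv, hF', mul_one]
      have hbd : ∀ t ∈ Icc x (x + h), ‖deriv ph t‖ ≤ B * h := by
        intro t ht
        rw [hph', Real.norm_eq_abs]
        have h6 := mvt_global hdiff1 (C := B) (fun z => by
          rw [← iteratedDeriv_succ]
          exact hB z) x t
        refine h6.trans ?_
        have h7 : |t - x| ≤ h := by
          rw [abs_of_nonneg (by linarith [ht.1])]
          linarith [ht.2]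
        gcongr
      have h8 := Convex.norm_image_sub_le_of_norm_deriv_le (f := ph) (s := Icc x (x + h)) (C := B * h)
        (x := x) (y := x + h) (fun z _ => hph z) hbd (convex_Icc _ _)
        (left_mem_Icc.2 (by linarith)) (right_mem_Icc.2 (by linarith))
      simp only [ph, Real.norm_eq_abs] at h8
      have h9 : x + h - x = h := by ring
      rw [h9, abs_of_pos hh] at h8
      have h10 : (F (x + h) - F x) / h - c = ((F (x + h) - c * (x + h)) - (F x - c * x)) / h := by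
        field_simp
        ring
      rw [h10, abs_div, abs_of_pos hh, div_le_iff₀ hh]
      linarith
    have h4 := abs_sub_le ((Dq h)^[m] (Dq h f) x) (iteratedDeriv m (Dq h f) x) (iteratedDeriv (m + 1) f x)
    refine h4.trans ?_
    push_cast
    nlinarith

theorem Dq_iterate_eq (h : ℝ) (m : ℕ) : ∀ f : ℝ → ℝ, (Dq h)^[m] f = (h⁻¹) ^ m • (fwdDiff h)^[m] f := by
  induction m with
  | zero => intro f; simp
  | succ m ih =>
    intro f
    rw [Function.iterate_succ_apply, Function.iterate_succ_apply, ih]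
    have : Dq h f = h⁻¹ • fwdDiff h f := by
      funext y
      simp [Dq, fwdDiff, div_eq_inv_mul]
    rw [this, fwdDiff_iter_const_smul, smul_smul, pow_succ]

theorem Dq_iterate_sum (h : ℝ) (m : ℕ) (f : ℝ → ℝ) (x : ℝ) :
    (Dq h)^[m] f x = (h⁻¹) ^ m * ∑ i ∈ Finset.range (m + 1),
      ((-1 : ℝ) ^ (m - i) * (m.choose i : ℝ)) * f (x + (i : ℝ) * h) := by
  rw [Dq_iterate_eq, Pi.smul_apply, smul_eq_mul, fwdDiff_iter_eq_sum_shift]
  congr 1
  refine Finset.sum_congr rfl ?_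
  intro i _
  simp [zsmul_eq_mul, nsmul_eq_mul]

/-- step used -/
def aDH (m n : ℕ) : ℕ := 2 * (n + 1) * (m + 1) * Gb (m + 1) + 1

/-- precision used -/
def aDP (m n : ℕ) : ℕ := 2 * (n + 1) * (2 * aDH m n) ^ m

/-- one term -/
def aDt (m : ℕ) (r : ℚ) (n i : ℕ) : ℚ :=
  ((-1 : ℚ) ^ (m - i) * ((m.choose i : ℕ) : ℚ)) * aG (r + (i : ℚ) * ((aDH m n : ℕ) : ℚ)⁻¹) (aDP m n)

/-- Approximation of the derivatives of `G` at rational points. -/
def aD (m : ℕ) (r : ℚ) (n : ℕ) : ℚ :=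
  ((aDH m n : ℕ) : ℚ) ^ m * ∑ i ∈ Finset.range (m + 1), aDt m r n i

theorem aD_spec (m : ℕ) (r : ℚ) (n : ℕ) :
    |iteratedDeriv m G (r:ℝ) - (aD m r n : ℝ)| ≤ 1 / ((n:ℝ) + 1) := by
  unfold aD aDt
  obtain ⟨H, hH⟩ : ∃ H : ℕ, H = aDH m n := ⟨_, rfl⟩
  rw [← hH]
  obtain ⟨P, hP⟩ : ∃ P : ℕ, P = aDP m n := ⟨_, rfl⟩
  rw [← hP]
  rw [aDP, ← hH] at hP
  rw [aDH] at hH
  have hn : (0:ℝ) < (n:ℝ) + 1 := by positivity
  have hHpos : (0:ℝ) < H := by rw [hH]; positivity
  set h : ℝ := (H:ℝ)⁻¹ with hh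
  have hhpos : 0 < h := inv_pos.2 hHpos
  have hhinv : h⁻¹ = H := by rw [hh, inv_inv]
  have hE1 := Dq_iterate_error m G G_contDiff (Gb (m + 1)) h hhpos
    (fun x => abs_iteratedDeriv_G_le (m + 1) x) (r:ℝ)
  rw [Dq_iterate_sum, hhinv] at hE1
  have hE1' : (m:ℝ) * h * (Gb (m + 1) : ℝ) ≤ 1 / (2 * ((n:ℝ) + 1)) := by
    rw [hh, le_div_iff₀ (by positivity)]
    have h2 : (H:ℝ) = 2 * ((n:ℝ) + 1) * ((m:ℝ) + 1) * (Gb (m + 1) : ℝ) + 1 := by
      rw [hH]; push_cast; ring
    have hG0 : (0:ℝ) ≤ Gb (m + 1) := Nat.cast_nonneg _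
    have hm0 : (0:ℝ) ≤ m := Nat.cast_nonneg _
    have h3 : (m:ℝ) * (H:ℝ)⁻¹ * (Gb (m + 1) : ℝ) * (2 * ((n:ℝ) + 1)) =
        ((m:ℝ) * (Gb (m + 1) : ℝ) * (2 * ((n:ℝ) + 1))) / H := by
      field_simp
    rw [h3, div_le_one hHpos, h2]
    nlinarith [mul_nonneg hm0 hG0, mul_nonneg (mul_nonneg hn.le hm0) hG0, mul_nonneg hn.le hG0]
  -- second error
  have hE2 : |(H:ℝ) ^ m * (∑ i ∈ Finset.range (m + 1), ((-1 : ℝ) ^ (m - i) * (m.choose i : ℝ)) *
        G ((r:ℝ) + (i : ℝ) * h))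
      - (((H:ℚ) ^ m * ∑ i ∈ Finset.range (m + 1), ((-1 : ℚ) ^ (m - i) * ((m.choose i : ℕ) : ℚ)) *
        aG (r + (i : ℚ) * (H:ℚ)⁻¹) P : ℚ) : ℝ)| ≤ 1 / (2 * ((n:ℝ) + 1)) := by
    push_cast
    rw [← mul_sub, ← Finset.sum_sub_distrib, abs_mul, abs_of_pos (by positivity)]
    have hsum : |∑ i ∈ Finset.range (m + 1), (((-1 : ℝ) ^ (m - i) * (m.choose i : ℝ)) *
          G ((r:ℝ) + (i : ℝ) * h) - ((-1 : ℝ) ^ (m - i) * (m.choose i : ℝ)) *
          ((aG (r + (i : ℚ) * (H:ℚ)⁻¹) P : ℚ) : ℝ))| ≤ 2 ^ m * (1 / ((P:ℝ) + 1)) := by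
      refine (Finset.abs_sum_le_sum_abs _ _).trans ?_
      have h3 : ∀ i ∈ Finset.range (m + 1), |((-1 : ℝ) ^ (m - i) * (m.choose i : ℝ)) *
          G ((r:ℝ) + (i : ℝ) * h) - ((-1 : ℝ) ^ (m - i) * (m.choose i : ℝ)) *
          ((aG (r + (i : ℚ) * (H:ℚ)⁻¹) P : ℚ) : ℝ)| ≤ (m.choose i : ℝ) * (1 / ((P:ℝ) + 1)) := by
        intro i _
        rw [← mul_sub, abs_mul, abs_mul, abs_pow, abs_neg, abs_one, one_pow, one_mul, Nat.abs_cast]
        refine mul_le_mul_of_nonneg_left ?_ (Nat.cast_nonneg _)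
        have h4 := aG_spec (r + (i : ℚ) * (H:ℚ)⁻¹) P
        push_cast at h4
        rw [hh]
        exact h4
      refine (Finset.sum_le_sum h3).trans (le_of_eq ?_)
      rw [← Finset.sum_mul]
      congr 1
      have := Nat.sum_range_choose m
      exact_mod_cast this
    have hP1 : (P:ℝ) = 2 * ((n:ℝ) + 1) * (2 * (H:ℝ)) ^ m := by rw [hP]; push_cast; ring
    calc (H:ℝ) ^ m * _ ≤ (H:ℝ) ^ m * (2 ^ m * (1 / ((P:ℝ) + 1))) := by gcongr
      _ ≤ 1 / (2 * ((n:ℝ) + 1)) := by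
        rw [← mul_assoc, ← mul_pow, mul_comm (H:ℝ) 2, mul_one_div, hP1]
        rw [div_le_div_iff₀ (by positivity) (by positivity)]
        have h5 : (0:ℝ) < (2 * (H:ℝ)) ^ m := by positivity
        nlinarith
  have h6 := abs_sub_le (iteratedDeriv m G (r:ℝ))
    ((H:ℝ) ^ m * (∑ i ∈ Finset.range (m + 1), ((-1 : ℝ) ^ (m - i) * (m.choose i : ℝ)) *
        G ((r:ℝ) + (i : ℝ) * h)))
    (((H:ℚ) ^ m * ∑ i ∈ Finset.range (m + 1), ((-1 : ℚ) ^ (m - i) * ((m.choose i : ℕ) : ℚ)) *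
        aG (r + (i : ℚ) * (H:ℚ)⁻¹) P : ℚ) : ℝ)
  rw [abs_sub_comm] at hE1
  refine h6.trans ?_
  have h7 : (1:ℝ) / ((n:ℝ) + 1) = 1 / (2 * ((n:ℝ) + 1)) + 1 / (2 * ((n:ℝ) + 1)) := by
    field_simp
    norm_num
  rw [h7]
  exact add_le_add (hE1.trans hE1') hE2

theorem c_choose {α : Type*} [Primcodable α] {f g : α → ℕ} (hf : Computable f) (hg : Computable g) :
    Computable fun x => (f x).choose (g x) := by
  refine (c_ite (c_le hg hf)
    (c_div (c_fact hf) (c_mul (c_fact hg) (c_fact (c_sub hf hg)))) (Computable.const 0)).of_eq ?_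
  intro x
  split_ifs with h
  · exact (Nat.choose_eq_factorial_div_factorial h).symm
  · exact (Nat.choose_eq_zero_of_lt (not_le.1 h)).symm

theorem c_Gb {α : Type*} [Primcodable α] {f : α → ℕ} (hf : Computable f) :
    Computable fun x => Gb (f x) := by
  unfold Gb
  exact c_mul (c_mul (c_mul (Computable.const 8) (c_pow (Computable.const 16) hf)) (c_fact hf))
    (c_fact (c_mul (Computable.const 2) hf))

theorem computable_aDH {α : Type*} [Primcodable α] {f g : α → ℕ} (hf : Computable f)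
    (hg : Computable g) : Computable fun x => aDH (f x) (g x) := by
  unfold aDH
  exact c_succ (c_mul (c_mul (c_mul (Computable.const 2) (c_succ hg)) (c_succ hf)) (c_Gb (c_succ hf)))

theorem computable_aDP {α : Type*} [Primcodable α] {f g : α → ℕ} (hf : Computable f)
    (hg : Computable g) : Computable fun x => aDP (f x) (g x) := by
  unfold aDP
  exact c_mul (c_mul (Computable.const 2) (c_succ hg))
    (c_pow (c_mul (Computable.const 2) (computable_aDH hf hg)) hf)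

theorem computable_aDt {α : Type*} [Primcodable α] {m n i : α → ℕ} {r : α → ℚ} (hm : Computable m)
    (hr : Computable r) (hn : Computable n) (hi : Computable i) :
    Computable fun x => aDt (m x) (r x) (n x) (i x) := by
  unfold aDt
  exact q_mul (q_mul (q_pow (Computable.const _) (c_sub hm hi)) (q_natCast (c_choose hm hi)))
    (computable_aG (q_add hr (q_mul (q_natCast hi) (q_inv (q_natCast (computable_aDH hm hn)))))
      (computable_aDP hm hn))

theorem computable_aD : Computable fun p : ℕ × ℚ × ℕ => aD p.1 p.2.1 p.2.2 := by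
  unfold aD
  have hm : Computable fun p : ℕ × ℚ × ℕ => p.1 := Computable.fst
  have hr : Computable fun p : ℕ × ℚ × ℕ => p.2.1 := c_fst Computable.snd
  have hn : Computable fun p : ℕ × ℚ × ℕ => p.2.2 := c_snd Computable.snd
  refine q_mul (q_pow (q_natCast (computable_aDH hm hn)) hm) ?_
  have hf : Computable fun q : (ℕ × ℚ × ℕ) × ℕ => aDt q.1.1 q.1.2.1 q.1.2.2 q.2 :=
    computable_aDt (hm.comp Computable.fst) (hr.comp Computable.fst) (hn.comp Computable.fst)
      Computable.snd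
  have h := q_sum hf (c_succ hm)
  exact h

/-! ### The class of effective one-variable functions -/

/-- Smooth functions of one real variable with effectively computable derivatives at rational
points and computable global bounds. -/
def Eff1 (f : ℝ → ℝ) : Prop :=
  ContDiff ℝ ∞ f ∧ ∃ (A : ℕ × ℚ × ℕ → ℚ) (b : ℕ → ℕ), Computable A ∧ Computable b ∧
    (∀ m (r : ℚ) n, |iteratedDeriv m f (r:ℝ) - (A (m, r, n) : ℝ)| ≤ 1 / ((n:ℝ) + 1)) ∧
    (∀ m x, |iteratedDeriv m f x| ≤ (b m : ℝ))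

theorem eff1_G : Eff1 G :=
  ⟨G_contDiff, fun p => aD p.1 p.2.1 p.2.2, Gb, computable_aD,
    (c_Gb Computable.id), fun m r n => aD_spec m r n, fun m x => abs_iteratedDeriv_G_le m x⟩

theorem Eff1.contDiff {f : ℝ → ℝ} (h : Eff1 f) : ContDiff ℝ ∞ f := h.1

theorem contDiff_deriv_infty {f : ℝ → ℝ} (h : ContDiff ℝ ∞ f) : ContDiff ℝ ∞ (deriv f) :=
  (contDiff_infty_iff_deriv.1 h).2

theorem Eff1.deriv {f : ℝ → ℝ} (h : Eff1 f) : Eff1 (deriv f) := by
  obtain ⟨hc, A, b, hA, hb, h1, h2⟩ := h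
  refine ⟨contDiff_deriv_infty hc, fun p => A (p.1 + 1, p.2.1, p.2.2), fun m => b (m + 1), ?_, ?_, ?_, ?_⟩
  · exact hA.comp (c_pair (c_succ Computable.fst) Computable.snd)
  · exact hb.comp Computable.succ
  · intro m r n
    rw [← iteratedDeriv_succ']
    exact h1 (m + 1) r n
  · intro m x
    rw [← iteratedDeriv_succ']
    exact h2 (m + 1) x

theorem Eff1.add {f g : ℝ → ℝ} (hf : Eff1 f) (hg : Eff1 g) : Eff1 (fun x => f x + g x) := by
  obtain ⟨hc, A, b, hA, hb, h1, h2⟩ := hf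
  obtain ⟨hc', A', b', hA', hb', h1', h2'⟩ := hg
  have hm : ∀ m : ℕ, ((m : ℕ∞) : WithTop ℕ∞) ≤ ∞ := fun m => by exact_mod_cast le_top
  have hit : ∀ m x, iteratedDeriv m (fun x => f x + g x) x = iteratedDeriv m f x + iteratedDeriv m g x :=
    fun m x => iteratedDeriv_fun_add ((hc.of_le (hm m)).contDiffAt) ((hc'.of_le (hm m)).contDiffAt)
  refine ⟨hc.add hc', fun p => A (p.1, p.2.1, 2 * p.2.2 + 1) + A' (p.1, p.2.1, 2 * p.2.2 + 1),
    fun m => b m + b' m, ?_, ?_, ?_, ?_⟩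
  · have hp : Computable fun p : ℕ × ℚ × ℕ => (p.1, p.2.1, 2 * p.2.2 + 1) :=
      c_pair Computable.fst (c_pair (c_fst Computable.snd)
        (c_succ (c_mul (Computable.const 2) (c_snd Computable.snd))))
    exact q_add (hA.comp hp) (hA'.comp hp)
  · exact c_add hb hb'
  · intro m r n
    rw [hit]
    have e1 := h1 m r (2 * n + 1)
    have e2 := h1' m r (2 * n + 1)
    push_cast at e1 e2 ⊢
    have h3 : (1:ℝ) / (2 * (n:ℝ) + 1 + 1) + 1 / (2 * (n:ℝ) + 1 + 1) = 1 / ((n:ℝ) + 1) := by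
      field_simp
      ring
    have h4 := abs_add_le (iteratedDeriv m f (r:ℝ) - (A (m, r, 2 * n + 1) : ℝ))
      (iteratedDeriv m g (r:ℝ) - (A' (m, r, 2 * n + 1) : ℝ))
    have h5 : iteratedDeriv m f (r:ℝ) + iteratedDeriv m g (r:ℝ)
        - ((A (m, r, 2 * n + 1) : ℝ) + (A' (m, r, 2 * n + 1) : ℝ)) =
        (iteratedDeriv m f (r:ℝ) - (A (m, r, 2 * n + 1) : ℝ)) +
        (iteratedDeriv m g (r:ℝ) - (A' (m, r, 2 * n + 1) : ℝ)) := by ring
    rw [h5]
    linarith
  · intro m x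
    rw [hit]
    push_cast
    exact (abs_add_le _ _).trans (add_le_add (h2 m x) (h2' m x))

/-- A natural upper bound for `|c|`. -/
theorem abs_cast_le_natBd (c : ℚ) : |(c:ℝ)| ≤ (natBd c : ℝ) := by
  have := abs_le_natBd c
  exact_mod_cast this

theorem Eff1.smul {f : ℝ → ℝ} (hf : Eff1 f) (c : ℚ) : Eff1 (fun x => (c:ℝ) * f x) := by
  obtain ⟨hc, A, b, hA, hb, h1, h2⟩ := hf
  have hit : ∀ m x, iteratedDeriv m (fun x => (c:ℝ) * f x) x = (c:ℝ) * iteratedDeriv m f x := by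
    intro m x
    exact iteratedDeriv_const_mul_field (c:ℝ) f
  have hC : |(c:ℝ)| ≤ (natBd c : ℝ) := abs_cast_le_natBd c
  refine ⟨contDiff_const.mul hc, fun p => c * A (p.1, p.2.1, (p.2.2 + 1) * (natBd c + 1)),
    fun m => natBd c * b m, ?_, ?_, ?_, ?_⟩
  · have hp : Computable fun p : ℕ × ℚ × ℕ => (p.1, p.2.1, (p.2.2 + 1) * (natBd c + 1)) :=
      c_pair Computable.fst (c_pair (c_fst Computable.snd)
        (c_mul (c_succ (c_snd Computable.snd)) (Computable.const _)))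
    exact q_mul (Computable.const c) (hA.comp hp)
  · exact c_mul (Computable.const _) hb
  · intro m r n
    rw [hit]
    have e1 := h1 m r ((n + 1) * (natBd c + 1))
    push_cast at e1 ⊢
    rw [← mul_sub, abs_mul]
    have hn : (0:ℝ) < (n:ℝ) + 1 := by positivity
    have hB : (0:ℝ) ≤ (natBd c : ℝ) := Nat.cast_nonneg _
    calc |(c:ℝ)| * _ ≤ (natBd c : ℝ) * (1 / (((n:ℝ) + 1) * ((natBd c : ℝ) + 1) + 1)) := by
          gcongr
      _ ≤ 1 / ((n:ℝ) + 1) := by
          rw [mul_one_div, div_le_div_iff₀ (by positivity) hn]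
          nlinarith
  · intro m x
    rw [hit, abs_mul]
    push_cast
    exact mul_le_mul hC (h2 m x) (abs_nonneg _) (Nat.cast_nonneg _)

theorem Eff1.sub {f g : ℝ → ℝ} (hf : Eff1 f) (hg : Eff1 g) : Eff1 (fun x => f x - g x) := by
  have := hf.add (hg.smul (-1))
  convert this using 2
  push_cast
  ring

/-- Composition with a rational affine map. -/
theorem Eff1.affine {f : ℝ → ℝ} (hf : Eff1 f) (α γ : ℚ) :
    Eff1 (fun x => f ((α:ℝ) * x + (γ:ℝ))) := by
  obtain ⟨hc, A, b, hA, hb, h1, h2⟩ := hf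
  have hshift : ContDiff ℝ ∞ fun y => f (y + (γ:ℝ)) := hc.comp (contDiff_id.add contDiff_const)
  have hm : ∀ m : ℕ, ((m : ℕ∞) : WithTop ℕ∞) ≤ ∞ := fun m => by exact_mod_cast le_top
  have hit : ∀ m x, iteratedDeriv m (fun x => f ((α:ℝ) * x + (γ:ℝ))) x =
      (α:ℝ) ^ m * iteratedDeriv m f ((α:ℝ) * x + (γ:ℝ)) := by
    intro m x
    have h3 := iteratedDeriv_comp_const_mul (n := m) (hshift.of_le (hm m)) (α:ℝ)
    have h4 := congrFun h3 x
    rw [h4]
    congr 1
    exact congrFun (iteratedDeriv_comp_add_const m f (γ:ℝ)) _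
  have hC : |(α:ℝ)| ≤ (natBd α : ℝ) := abs_cast_le_natBd α
  refine ⟨hc.comp ((contDiff_const.mul contDiff_id).add contDiff_const),
    fun p => α ^ p.1 * A (p.1, α * p.2.1 + γ, (p.2.2 + 1) * (natBd α) ^ p.1),
    fun m => (natBd α) ^ m * b m, ?_, ?_, ?_, ?_⟩
  · have hp : Computable fun p : ℕ × ℚ × ℕ => (p.1, α * p.2.1 + γ, (p.2.2 + 1) * (natBd α) ^ p.1) :=
      c_pair Computable.fst (c_pair (q_add (q_mul (Computable.const α) (c_fst Computable.snd))
        (Computable.const γ))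
        (c_mul (c_succ (c_snd Computable.snd)) (c_pow (Computable.const _) Computable.fst)))
    exact q_mul (q_pow (Computable.const α) Computable.fst) (hA.comp hp)
  · exact c_mul (c_pow (Computable.const _) Computable.id) hb
  · intro m r n
    rw [hit]
    have e1 := h1 m (α * r + γ) ((n + 1) * (natBd α) ^ m)
    push_cast at e1 ⊢
    rw [← mul_sub, abs_mul, abs_pow]
    have hn : (0:ℝ) < (n:ℝ) + 1 := by positivity
    have hB : (0:ℝ) ≤ (natBd α : ℝ) ^ m := by positivity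
    calc |(α:ℝ)| ^ m * _ ≤ (natBd α : ℝ) ^ m * (1 / (((n:ℝ) + 1) * (natBd α : ℝ) ^ m + 1)) := by
          gcongr
      _ ≤ 1 / ((n:ℝ) + 1) := by
          rw [mul_one_div, div_le_div_iff₀ (by positivity) hn]
          nlinarith
  · intro m x
    rw [hit, abs_mul, abs_pow]
    push_cast
    exact mul_le_mul (pow_le_pow_left₀ (abs_nonneg _) hC m) (h2 m _) (abs_nonneg _) (by positivity)

/-- Derivatives vanish where the function locally vanishes. -/
theorem iteratedDeriv_eq_zero_of_far {f : ℝ → ℝ} {R : ℝ} (hf : ∀ x, R < |x| → f x = 0) (m : ℕ)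
    {x : ℝ} (hx : R < |x|) : iteratedDeriv m f x = 0 := by
  have hopen : IsOpen {y : ℝ | R < |y|} := isOpen_lt continuous_const continuous_abs
  have hev : f =ᶠ[𝓝 x] fun _ => 0 := by
    filter_upwards [hopen.mem_nhds hx] with y hy
    exact hf y hy
  rw [hev.iteratedDeriv_eq, iteratedDeriv_fun_const_zero]

theorem iteratedDeriv_id_mul {f : ℝ → ℝ} (hf : ContDiff ℝ ∞ f) (m : ℕ) :
    iteratedDeriv m (fun x => x * f x) =
      fun x => x * iteratedDeriv m f x + (m:ℝ) * iteratedDeriv (m - 1) f x := by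
  induction m with
  | zero => funext x; simp
  | succ m ih =>
    funext x
    rw [iteratedDeriv_succ, ih]
    have h1 := differentiable_iteratedDeriv' hf m
    have hd1 : HasDerivAt (fun x => x * iteratedDeriv m f x)
        (1 * iteratedDeriv m f x + x * iteratedDeriv (m + 1) f x) x := by
      refine (hasDerivAt_id' x).mul ?_
      rw [iteratedDeriv_succ]
      exact (h1 x).hasDerivAt
    cases m with
    | zero =>
      simp only [Nat.cast_zero, zero_mul, add_zero, zero_add, Nat.cast_one, one_mul,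
        Nat.sub_self, iteratedDeriv_zero]
      have := hd1.deriv
      simp only [iteratedDeriv_zero, zero_add] at this
      rw [this]
      simp only [one_mul]
      ring
    | succ k =>
      have h2 := differentiable_iteratedDeriv' hf k
      have hd2 : HasDerivAt (fun x => ((k + 1 : ℕ) : ℝ) * iteratedDeriv k f x)
          (((k + 1 : ℕ) : ℝ) * iteratedDeriv (k + 1) f x) x := by
        refine HasDerivAt.const_mul _ ?_
        rw [iteratedDeriv_succ]
        exact (h2 x).hasDerivAt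
      have hd := hd1.fun_add hd2
      simp only [Nat.add_sub_cancel]
      rw [hd.deriv]
      push_cast
      ring

/-- Multiplication by the coordinate, for functions vanishing outside a bounded set. -/
theorem Eff1.mul_id {f : ℝ → ℝ} (hf : Eff1 f) (R : ℕ) (hR : ∀ x, (R:ℝ) < |x| → f x = 0) :
    Eff1 (fun x => x * f x) := by
  obtain ⟨hc, A, b, hA, hb, h1, h2⟩ := hf
  refine ⟨contDiff_id.mul hc,
    fun p => p.2.1 * A (p.1, p.2.1, (p.2.2 + 1) * (natBd p.2.1 + p.1 + 1))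
      + (p.1 : ℚ) * A (p.1 - 1, p.2.1, (p.2.2 + 1) * (natBd p.2.1 + p.1 + 1)),
    fun m => R * b m + m * b (m - 1), ?_, ?_, ?_, ?_⟩
  · have hN : Computable fun p : ℕ × ℚ × ℕ => (p.2.2 + 1) * (natBd p.2.1 + p.1 + 1) :=
      c_mul (c_succ (c_snd Computable.snd))
        (c_succ (c_add (c_natBd (c_fst Computable.snd)) Computable.fst))
    exact q_add (q_mul (c_fst Computable.snd)
        (hA.comp (c_pair Computable.fst (c_pair (c_fst Computable.snd) hN))))
      (q_mul (q_natCast Computable.fst)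
        (hA.comp (c_pair (c_sub Computable.fst (Computable.const 1))
          (c_pair (c_fst Computable.snd) hN))))
  · exact c_add (c_mul (Computable.const _) hb)
      (c_mul Computable.id (hb.comp (c_sub Computable.id (Computable.const 1))))
  · intro m r n
    rw [iteratedDeriv_id_mul hc]
    set N : ℕ := (n + 1) * (natBd r + m + 1) with hNdef
    have e1 := h1 m r N
    have e2 := h1 (m - 1) r N
    push_cast
    have h5 : (r:ℝ) * iteratedDeriv m f (r:ℝ) + (m:ℝ) * iteratedDeriv (m - 1) f (r:ℝ)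
        - ((r:ℝ) * (A (m, r, N) : ℝ) + (m:ℝ) * (A (m - 1, r, N) : ℝ)) =
        (r:ℝ) * (iteratedDeriv m f (r:ℝ) - (A (m, r, N) : ℝ)) +
        (m:ℝ) * (iteratedDeriv (m - 1) f (r:ℝ) - (A (m - 1, r, N) : ℝ)) := by ring
    rw [h5]
    refine (abs_add_le _ _).trans ?_
    rw [abs_mul, abs_mul, Nat.abs_cast]
    have hrB := abs_cast_le_natBd r
    have hn : (0:ℝ) < (n:ℝ) + 1 := by positivity
    have hNR : (N:ℝ) + 1 = ((n:ℝ) + 1) * ((natBd r : ℝ) + m + 1) + 1 := by
      rw [hNdef]; push_cast; ring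
    have hB0 : (0:ℝ) ≤ natBd r := Nat.cast_nonneg _
    have hm0 : (0:ℝ) ≤ m := Nat.cast_nonneg _
    calc |(r:ℝ)| * _ + (m:ℝ) * _ ≤ (natBd r : ℝ) * (1 / ((N:ℝ) + 1)) + (m:ℝ) * (1 / ((N:ℝ) + 1)) := by
          gcongr
      _ ≤ 1 / ((n:ℝ) + 1) := by
          rw [← add_mul, mul_one_div, div_le_div_iff₀ (by positivity) hn, hNR]
          nlinarith [mul_nonneg hB0 hn.le, mul_nonneg hm0 hn.le]
  · intro m x
    rw [iteratedDeriv_id_mul hc]
    have h6 : |x * iteratedDeriv m f x| ≤ (R:ℝ) * (b m : ℝ) := by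
      by_cases hx : (R:ℝ) < |x|
      · rw [iteratedDeriv_eq_zero_of_far hR m hx]
        simp only [mul_zero, abs_zero]
        positivity
      · rw [abs_mul]
        exact mul_le_mul (not_lt.1 hx) (h2 m x) (abs_nonneg _) (Nat.cast_nonneg _)
    have h7 : |(m:ℝ) * iteratedDeriv (m - 1) f x| ≤ (m:ℝ) * (b (m - 1) : ℝ) := by
      rw [abs_mul, Nat.abs_cast]
      exact mul_le_mul_of_nonneg_left (h2 _ x) (Nat.cast_nonneg _)
    push_cast
    exact (abs_add_le _ _).trans (add_le_add h6 h7)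

end Crest.Agent.BoxFlowApprox
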