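/-
Tensor product fields, their mixed derivatives, and effectiveness.
-/
import Mathlib
import Crest.Prelude.Def_BoxFlow
import Crest.Agent.Lib.BoxFlowApprox

set_option autoImplicit false

namespace Crest.Agent.BoxFlowField

open Crest.AnalysisR.BoxFlow Crest.Agent.BoxFlowQ Crest.Agent.BoxFlowG Crest.Agent.BoxFlowApprox
open Real Set Filter Topology
open scoped Nat ContDiff

/-- Space-time. -/
abbrev ST : Type := ℝ × (Fin 3 → ℝ)

/-- The four coordinates of space-time as continuous linear maps. -/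
noncomputable def cL : Fin 4 → (ST →L[ℝ] ℝ) :=
  Fin.cons (ContinuousLinearMap.fst ℝ ℝ (Fin 3 → ℝ))
    (fun j => (ContinuousLinearMap.proj j).comp (ContinuousLinearMap.snd ℝ ℝ (Fin 3 → ℝ)))

@[simp] theorem cL_zero (p : ST) : cL 0 p = p.1 := rfl
@[simp] theorem cL_succ (j : Fin 3) (p : ST) : cL j.succ p = p.2 j := rfl
@[simp] theorem cL_one (p : ST) : cL 1 p = p.2 0 := rfl
@[simp] theorem cL_two (p : ST) : cL 2 p = p.2 1 := rfl
@[simp] theorem cL_three (p : ST) : cL 3 p = p.2 2 := rfl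

theorem direction_zero : direction 0 = (1, 0) := by simp [direction]

theorem direction_succ (j : Fin 3) : direction j.succ = (0, Pi.single j 1) := by
  simp [direction, Fin.succ_ne_zero]

theorem cL_direction (l d : Fin 4) : cL l (direction d) = if l = d then 1 else 0 := by
  refine Fin.cases ?_ (fun j => ?_) d
  · rw [direction_zero]
    refine Fin.cases ?_ (fun k => ?_) l
    · simp
    · simp [Fin.succ_ne_zero]
  · rw [direction_succ]
    refine Fin.cases ?_ (fun k => ?_) l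
    · simp [(Fin.succ_ne_zero j).symm]
    · simp only [cL_succ, Fin.succ_inj]
      simp [Pi.single_apply]

/-- Tensor products of four one-variable functions. -/
noncomputable def tens (f : Fin 4 → ℝ → ℝ) (p : ST) : ℝ := ∏ l, f l (cL l p)

theorem tens_eq (f : Fin 4 → ℝ → ℝ) (p : ST) :
    tens f p = f 0 p.1 * f 1 (p.2 0) * f 2 (p.2 1) * f 3 (p.2 2) := by
  simp [tens, Fin.prod_univ_four]

/-- The vector field with one nonzero component given by a tensor product. -/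
noncomputable def tfield (f : Fin 4 → ℝ → ℝ) (e : Fin 3) : Field :=
  fun p => tens f p • (Pi.single e 1 : Fin 3 → ℝ)

theorem contDiff_tens {f : Fin 4 → ℝ → ℝ} (hf : ∀ l, ContDiff ℝ ∞ (f l)) :
    ContDiff ℝ ∞ (tens f) := by
  have h : tens f = fun p => f 0 (cL 0 p) * f 1 (cL 1 p) * f 2 (cL 2 p) * f 3 (cL 3 p) := by
    funext p
    simp [tens, Fin.prod_univ_four]
  rw [h]
  have hl : ∀ l, ContDiff ℝ ∞ fun p => f l (cL l p) := fun l => (hf l).comp (cL l).contDiff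
  exact ((((hl 0).mul (hl 1))).mul (hl 2)).mul (hl 3)

theorem contDiff_tfield {f : Fin 4 → ℝ → ℝ} (hf : ∀ l, ContDiff ℝ ∞ (f l)) (e : Fin 3) :
    ContDiff ℝ ∞ (tfield f e) :=
  (contDiff_tens hf).smul contDiff_const

theorem hasFDerivAt_tens {f : Fin 4 → ℝ → ℝ} (hf : ∀ l, Differentiable ℝ (f l)) (p : ST) :
    HasFDerivAt (tens f)
      (∑ l, (∏ k ∈ Finset.univ.erase l, f k (cL k p)) • ((deriv (f l) (cL l p)) • cL l)) p := by
  have h : ∀ l ∈ (Finset.univ : Finset (Fin 4)),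
      HasFDerivAt (fun p => f l (cL l p)) ((deriv (f l) (cL l p)) • cL l) p := by
    intro l _
    exact ((hf l _).hasDerivAt).comp_hasFDerivAt p (cL l).hasFDerivAt
  exact HasFDerivAt.finsetProd h

theorem fderiv_tens_direction {f : Fin 4 → ℝ → ℝ} (hf : ∀ l, Differentiable ℝ (f l)) (p : ST)
    (d : Fin 4) :
    fderiv ℝ (tens f) p (direction d) = tens (fun l => if l = d then deriv (f l) else f l) p := by
  rw [(hasFDerivAt_tens hf p).fderiv]
  simp only [ContinuousLinearMap.sum_apply, ContinuousLinearMap.smul_apply, cL_direction, smul_eq_mul,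
    mul_ite, mul_one, mul_zero]
  rw [Finset.sum_ite_eq' Finset.univ d]
  simp only [Finset.mem_univ, if_true]
  rw [tens, ← Finset.mul_prod_erase Finset.univ _ (Finset.mem_univ d)]
  simp only [if_true]
  rw [mul_comm]
  congr 1
  refine Finset.prod_congr rfl ?_
  intro k hk
  rw [if_neg (Finset.ne_of_mem_erase hk)]

theorem fderiv_tfield {f : Fin 4 → ℝ → ℝ} (hf : ∀ l, Differentiable ℝ (f l)) (e : Fin 3) (p : ST)
    (d : Fin 4) :
    fderiv ℝ (tfield f e) p (direction d) =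
      tfield (fun l => if l = d then deriv (f l) else f l) e p := by
  have h := ((hasFDerivAt_tens hf p).smul_const (Pi.single e 1 : Fin 3 → ℝ))
  have h1 : fderiv ℝ (tfield f e) p = _ := h.fderiv
  rw [h1, ← (hasFDerivAt_tens hf p).fderiv]
  simp only [ContinuousLinearMap.smulRight_apply]
  rw [fderiv_tens_direction hf]
  rfl

theorem contDiff_iteratedDeriv_infty {f : ℝ → ℝ} (hf : ContDiff ℝ ∞ f) (m : ℕ) :
    ContDiff ℝ ∞ (iteratedDeriv m f) := by
  induction m with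
  | zero => simpa using hf
  | succ m ih =>
    rw [iteratedDeriv_succ]
    exact contDiff_deriv_infty ih

theorem mixedDeriv_tfield {f : Fin 4 → ℝ → ℝ} (hf : ∀ l, ContDiff ℝ ∞ (f l)) (e : Fin 3)
    (ds : List (Fin 4)) :
    mixedDeriv ds (tfield f e) = tfield (fun l => iteratedDeriv (ds.count l) (f l)) e := by
  induction ds with
  | nil =>
    funext p
    simp [mixedDeriv]
  | cons d ds ih =>
    funext p
    rw [mixedDeriv, ih]
    have hd : ∀ l, Differentiable ℝ (iteratedDeriv (ds.count l) (f l)) :=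
      fun l => differentiable_iteratedDeriv' (hf l) _
    beta_reduce
    rw [fderiv_tfield hd]
    congr 2
    funext l
    by_cases hl : l = d
    · subst hl
      simp [iteratedDeriv_succ]
    · rw [if_neg hl, List.count_cons_of_ne (Ne.symm hl)]

theorem abs_prod4_sub (a₀ a₁ a₂ a₃ c₀ c₁ c₂ c₃ B ε : ℝ)
    (h₀ : |a₀| ≤ B) (h₁ : |a₁| ≤ B) (h₂ : |a₂| ≤ B) (h₃ : |a₃| ≤ B)
    (k₀ : |c₀| ≤ B) (k₁ : |c₁| ≤ B) (k₂ : |c₂| ≤ B)
    (e₀ : |a₀ - c₀| ≤ ε) (e₁ : |a₁ - c₁| ≤ ε) (e₂ : |a₂ - c₂| ≤ ε) (e₃ : |a₃ - c₃| ≤ ε) :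
    |a₀ * a₁ * a₂ * a₃ - c₀ * c₁ * c₂ * c₃| ≤ 4 * B ^ 3 * ε := by
  have hB : 0 ≤ B := (abs_nonneg _).trans h₀
  have hε : 0 ≤ ε := (abs_nonneg _).trans e₀
  have h1 : a₀ * a₁ * a₂ * a₃ - c₀ * c₁ * c₂ * c₃ =
      (a₀ - c₀) * (a₁ * a₂ * a₃) + c₀ * (a₁ - c₁) * (a₂ * a₃) + c₀ * c₁ * (a₂ - c₂) * a₃
        + c₀ * c₁ * c₂ * (a₃ - c₃) := by ring
  rw [h1]
  have t1 : |(a₀ - c₀) * (a₁ * a₂ * a₃)| ≤ ε * (B * B * B) := by
    rw [abs_mul, abs_mul, abs_mul]
    gcongr
  have t2 : |c₀ * (a₁ - c₁) * (a₂ * a₃)| ≤ B * ε * (B * B) := by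
    rw [abs_mul, abs_mul, abs_mul]
    gcongr
  have t3 : |c₀ * c₁ * (a₂ - c₂) * a₃| ≤ B * B * ε * B := by
    rw [abs_mul, abs_mul, abs_mul]
    gcongr
  have t4 : |c₀ * c₁ * c₂ * (a₃ - c₃)| ≤ B * B * B * ε := by
    rw [abs_mul, abs_mul, abs_mul]
    gcongr
  have h2 := abs_add_le ((a₀ - c₀) * (a₁ * a₂ * a₃) + c₀ * (a₁ - c₁) * (a₂ * a₃) + c₀ * c₁ * (a₂ - c₂) * a₃)
    (c₀ * c₁ * c₂ * (a₃ - c₃))
  have h3 := abs_add_le ((a₀ - c₀) * (a₁ * a₂ * a₃) + c₀ * (a₁ - c₁) * (a₂ * a₃)) (c₀ * c₁ * (a₂ - c₂) * a₃)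
  have h4 := abs_add_le ((a₀ - c₀) * (a₁ * a₂ * a₃)) (c₀ * (a₁ - c₁) * (a₂ * a₃))
  have h5 : 4 * B ^ 3 * ε = ε * (B * B * B) + B * ε * (B * B) + B * B * ε * B + B * B * B * ε := by ring
  linarith

theorem tfield_apply (f : Fin 4 → ℝ → ℝ) (e j : Fin 3) (p : ST) :
    tfield f e p j = tens f p * (if j = e then 1 else 0) := by
  simp [tfield, Pi.single_apply]

/-- Tensor product fields with effective factors are effective. -/
theorem effective_tfield {f : Fin 4 → ℝ → ℝ} (hf : ∀ l, Eff1 (f l)) (e : Fin 3) :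
    Effective (tfield f e) := by
  choose hc A b hA hb h1 h2 using hf
  have hcnt := c_count
  -- the bound B and the precision N
  let Bd : List (Fin 4) → ℕ := fun ds =>
    b 0 (ds.count 0) + b 1 (ds.count 1) + b 2 (ds.count 2) + b 3 (ds.count 3) + 1
  have hBd : Computable Bd := by
    have hl : ∀ l, Computable fun ds : List (Fin 4) => b l (ds.count l) :=
      fun l => (hb l).comp (c_count l)
    exact c_succ (c_add (c_add (c_add (hl 0) (hl 1)) (hl 2)) (hl 3))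
  let Nn : List (Fin 4) × ℕ → ℕ := fun x => 4 * (Bd x.1) ^ 3 * (x.2 + 1)
  have hNn : Computable Nn :=
    c_mul (c_mul (Computable.const 4) (c_pow (hBd.comp Computable.fst) (Computable.const 3)))
      (c_succ Computable.snd)
  let val : List (Fin 4) × (ℚ × (Fin 3 → ℚ)) × ℕ → ℚ := fun x =>
    A 0 (x.1.count 0, x.2.1.1, Nn (x.1, x.2.2)) * A 1 (x.1.count 1, x.2.1.2 0, Nn (x.1, x.2.2)) *
    A 2 (x.1.count 2, x.2.1.2 1, Nn (x.1, x.2.2)) * A 3 (x.1.count 3, x.2.1.2 2, Nn (x.1, x.2.2))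
  have hval : Computable val := by
    have hds : Computable fun x : List (Fin 4) × (ℚ × (Fin 3 → ℚ)) × ℕ => x.1 := Computable.fst
    have ht : Computable fun x : List (Fin 4) × (ℚ × (Fin 3 → ℚ)) × ℕ => x.2.1.1 :=
      c_fst (c_fst Computable.snd)
    have hq : Computable fun x : List (Fin 4) × (ℚ × (Fin 3 → ℚ)) × ℕ => x.2.1.2 :=
      c_snd (c_fst Computable.snd)
    have hn : Computable fun x : List (Fin 4) × (ℚ × (Fin 3 → ℚ)) × ℕ => x.2.2 :=
      c_snd Computable.snd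
    have hN : Computable fun x : List (Fin 4) × (ℚ × (Fin 3 → ℚ)) × ℕ => Nn (x.1, x.2.2) :=
      hNn.comp (c_pair hds hn)
    have hc' : ∀ l, Computable fun x : List (Fin 4) × (ℚ × (Fin 3 → ℚ)) × ℕ => x.1.count l :=
      fun l => (c_count l).comp hds
    exact q_mul (q_mul (q_mul ((hA 0).comp (c_pair (hc' 0) (c_pair ht hN)))
      ((hA 1).comp (c_pair (hc' 1) (c_pair (c_finApp hq 0) hN))))
      ((hA 2).comp (c_pair (hc' 2) (c_pair (c_finApp hq 1) hN))))
      ((hA 3).comp (c_pair (hc' 3) (c_pair (c_finApp hq 2) hN)))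
  refine ⟨fun x j => if j = e then val x else 0,
    fun ds => b 0 (ds.count 0) * b 1 (ds.count 1) * b 2 (ds.count 2) * b 3 (ds.count 3), ?_, ?_, ?_, ?_⟩
  · refine c_finArrow ?_
    intro j
    by_cases hj : j = e
    · simp only [hj, if_true]
      exact hval
    · simp only [hj, if_false]
      exact Computable.const _
  · have hl : ∀ l, Computable fun ds : List (Fin 4) => b l (ds.count l) :=
      fun l => (hb l).comp (c_count l)
    exact c_mul (c_mul (c_mul (hl 0) (hl 1)) (hl 2)) (hl 3)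
  · intro ds t q n j
    rw [mixedDeriv_tfield hc, tfield_apply, tens_eq]
    by_cases hj : j = e
    · simp only [hj, if_true, mul_one]
      set N := Nn (ds, n) with hN
      have hB : ∀ l, ((b l (ds.count l) : ℕ) : ℝ) + 1 ≤ Bd ds := by
        intro l
        simp only [Bd]
        push_cast
        fin_cases l <;> simp <;> linarith [(Nat.cast_nonneg (b 0 (ds.count 0)) : (0:ℝ) ≤ _),
          (Nat.cast_nonneg (b 1 (ds.count 1)) : (0:ℝ) ≤ _),
          (Nat.cast_nonneg (b 2 (ds.count 2)) : (0:ℝ) ≤ _),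
          (Nat.cast_nonneg (b 3 (ds.count 3)) : (0:ℝ) ≤ _)]
      have hB1 : (1:ℝ) ≤ Bd ds := by
        have := hB 0
        linarith [(Nat.cast_nonneg (b 0 (ds.count 0)) : (0:ℝ) ≤ _)]
      have hNR : (N:ℝ) + 1 = 4 * (Bd ds : ℝ) ^ 3 * ((n:ℝ) + 1) + 1 := by
        rw [hN]; simp only [Nn]; push_cast; ring
      have hn : (0:ℝ) < (n:ℝ) + 1 := by positivity
      have hε1 : 1 / ((N:ℝ) + 1) ≤ 1 := by
        rw [div_le_one (by positivity)]
        linarith [(Nat.cast_nonneg N : (0:ℝ) ≤ _)]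
      have hval' : ((val (ds, (t, q), n) : ℚ) : ℝ) =
          (A 0 (ds.count 0, t, N) : ℝ) * (A 1 (ds.count 1, q 0, N) : ℝ) *
          (A 2 (ds.count 2, q 1, N) : ℝ) * (A 3 (ds.count 3, q 2, N) : ℝ) := by
        simp only [val]
        push_cast
        rfl
      rw [hval']
      have e0 := h1 0 (ds.count 0) t N
      have e1 := h1 1 (ds.count 1) (q 0) N
      have e2 := h1 2 (ds.count 2) (q 1) N
      have e3 := h1 3 (ds.count 3) (q 2) N
      have bd : ∀ (u v : ℝ) (l : Fin 4), |u| ≤ b l (ds.count l) → |u - v| ≤ 1 / ((N:ℝ) + 1) →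
          |v| ≤ Bd ds := by
        intro u v l hu huv
        have h3 : |v| ≤ |u| + |u - v| := by
          have := abs_sub_abs_le_abs_sub v u
          rw [abs_sub_comm v u] at this
          linarith
        have := hB l
        linarith
      have hu0 := h2 0 (ds.count 0) (t:ℝ)
      have hu1 := h2 1 (ds.count 1) (q 0 : ℝ)
      have hu2 := h2 2 (ds.count 2) (q 1 : ℝ)
      have hu3 := h2 3 (ds.count 3) (q 2 : ℝ)
      have hB' : ∀ l (u : ℝ), |u| ≤ b l (ds.count l) → |u| ≤ Bd ds := by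
        intro l u hu
        have := hB l
        linarith
      have key := abs_prod4_sub _ _ _ _ _ _ _ _ (Bd ds) (1 / ((N:ℝ) + 1))
        (hB' 0 _ hu0) (hB' 1 _ hu1) (hB' 2 _ hu2) (hB' 3 _ hu3)
        (bd _ _ 0 hu0 e0) (bd _ _ 1 hu1 e1) (bd _ _ 2 hu2 e2) e0 e1 e2 e3
      refine key.trans ?_
      rw [mul_one_div, div_le_div_iff₀ (by positivity) hn, hNR]
      nlinarith
    · simp only [hj, if_false, mul_zero, Rat.cast_zero, sub_zero, abs_zero]
      positivity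
  · intro ds p j
    rw [mixedDeriv_tfield hc, tfield_apply, tens_eq]
    have hle : ∀ l (u : ℝ), |iteratedDeriv (ds.count l) (f l) u| ≤ b l (ds.count l) :=
      fun l u => h2 l _ u
    have hprod : |iteratedDeriv (ds.count 0) (f 0) p.1 * iteratedDeriv (ds.count 1) (f 1) (p.2 0) *
        iteratedDeriv (ds.count 2) (f 2) (p.2 1) * iteratedDeriv (ds.count 3) (f 3) (p.2 2)| ≤
        (b 0 (ds.count 0) : ℝ) * b 1 (ds.count 1) * b 2 (ds.count 2) * b 3 (ds.count 3) := by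
      rw [abs_mul, abs_mul, abs_mul]
      have h0 := hle 0 p.1
      have h1 := hle 1 (p.2 0)
      have h2 := hle 2 (p.2 1)
      have h3 := hle 3 (p.2 2)
      gcongr
    push_cast
    by_cases hj : j = e
    · simp only [hj, if_true, mul_one]
      exact hprod
    · simp only [hj, if_false, mul_zero, abs_zero]
      positivity

/-! ### Sums of fields -/

theorem contDiff_mixedDeriv {U : Field} (hU : ContDiff ℝ ∞ U) (ds : List (Fin 4)) :
    ContDiff ℝ ∞ (mixedDeriv ds U) := by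
  induction ds with
  | nil => simpa [mixedDeriv] using hU
  | cons d ds ih =>
    have h1 : ContDiff ℝ ∞ (fderiv ℝ (mixedDeriv ds U)) := ih.fderiv_right (by simp)
    exact h1.clm_apply contDiff_const

theorem mixedDeriv_add {U V : Field} (hU : ContDiff ℝ ∞ U) (hV : ContDiff ℝ ∞ V) (ds : List (Fin 4)) :
    mixedDeriv ds (fun p => U p + V p) = fun p => mixedDeriv ds U p + mixedDeriv ds V p := by
  induction ds with
  | nil => rfl
  | cons d ds ih =>
    funext p
    rw [mixedDeriv, ih]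
    have h1 : DifferentiableAt ℝ (mixedDeriv ds U) p :=
      ((contDiff_mixedDeriv hU ds).differentiable (by simp)) p
    have h2 : DifferentiableAt ℝ (mixedDeriv ds V) p :=
      ((contDiff_mixedDeriv hV ds).differentiable (by simp)) p
    beta_reduce
    rw [fderiv_fun_add h1 h2]
    rfl

theorem Effective.add' {U V : Field} (hU : ContDiff ℝ ∞ U) (hV : ContDiff ℝ ∞ V)
    (hEU : Effective U) (hEV : Effective V) : Effective (fun p => U p + V p) := by
  obtain ⟨E₁, b₁, hE₁, hb₁, h1, h2⟩ := hEU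
  obtain ⟨E₂, b₂, hE₂, hb₂, h1', h2'⟩ := hEV
  refine ⟨fun x j => E₁ (x.1, x.2.1, 2 * x.2.2 + 1) j + E₂ (x.1, x.2.1, 2 * x.2.2 + 1) j,
    fun ds => b₁ ds + b₂ ds, ?_, c_add hb₁ hb₂, ?_, ?_⟩
  · refine c_finArrow ?_
    intro j
    have hp : Computable fun x : List (Fin 4) × (ℚ × (Fin 3 → ℚ)) × ℕ => (x.1, x.2.1, 2 * x.2.2 + 1) :=
      c_pair Computable.fst (c_pair (c_fst Computable.snd)
        (c_succ (c_mul (Computable.const 2) (c_snd Computable.snd))))
    exact q_add (c_finApp (hE₁.comp hp) j) (c_finApp (hE₂.comp hp) j)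
  · intro ds t q n j
    rw [mixedDeriv_add hU hV]
    have e1 := h1 ds t q (2 * n + 1) j
    have e2 := h1' ds t q (2 * n + 1) j
    push_cast at e1 e2 ⊢
    have h3 : (1:ℝ) / (2 * (n:ℝ) + 1 + 1) + 1 / (2 * (n:ℝ) + 1 + 1) = 1 / ((n:ℝ) + 1) := by
      field_simp
      ring
    have h5 : ∀ a b c d : ℝ, a + b - (c + d) = (a - c) + (b - d) := by intros; ring
    simp only [Pi.add_apply]
    rw [h5]
    exact (abs_add_le _ _).trans ((add_le_add e1 e2).trans h3.le)
  · intro ds p j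
    rw [mixedDeriv_add hU hV]
    push_cast
    exact (abs_add_le _ _).trans (add_le_add (h2 ds p j) (h2' ds p j))

theorem mixedDeriv_zero (ds : List (Fin 4)) : mixedDeriv ds (fun _ => 0) = fun _ => 0 := by
  induction ds with
  | nil => rfl
  | cons d ds ih =>
    funext p
    rw [mixedDeriv, ih]
    simp

theorem effective_zero : Effective (fun _ => 0) := by
  refine ⟨fun _ _ => 0, fun _ => 0, Computable.const _, Computable.const _, ?_, ?_⟩
  · intro ds t q n j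
    rw [mixedDeriv_zero]
    simp only [Pi.zero_apply, Rat.cast_zero, sub_self, abs_zero]
    positivity
  · intro ds p j
    rw [mixedDeriv_zero]
    simp

/-- A good field active in the open time slot. -/
structure Nice (t₀ t₁ : ℝ) (U : Field) : Prop where
  smooth : ContDiff ℝ ∞ U
  compact : HasCompactSupport U
  eff : Effective U
  time : ∀ p : ST, p.1 ∉ Ioo t₀ t₁ → U p = 0
  div : ∀ p : ST, spaceDiv U p = 0

theorem spaceDiv_add {U V : Field} (hU : ContDiff ℝ ∞ U) (hV : ContDiff ℝ ∞ V) (p : ST) :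
    spaceDiv (fun p => U p + V p) p = spaceDiv U p + spaceDiv V p := by
  have h1 : DifferentiableAt ℝ U p := (hU.differentiable (by simp)) p
  have h2 : DifferentiableAt ℝ V p := (hV.differentiable (by simp)) p
  simp only [spaceDiv]
  rw [fderiv_fun_add h1 h2, ← Finset.sum_add_distrib]
  rfl

theorem Nice.add {t₀ m t₁ : ℝ} {U V : Field} (hU : Nice t₀ m U) (hV : Nice m t₁ V)
    (h1 : t₀ ≤ m) (h2 : m ≤ t₁) : Nice t₀ t₁ (fun p => U p + V p) := by
  refine ⟨hU.smooth.add hV.smooth, hU.compact.add hV.compact,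
    Effective.add' hU.smooth hV.smooth hU.eff hV.eff, ?_, ?_⟩
  · intro p hp
    have e1 : p.1 ∉ Ioo t₀ m := fun h => hp ⟨h.1, h.2.trans_le h2⟩
    have e2 : p.1 ∉ Ioo m t₁ := fun h => hp ⟨h1.trans_lt h.1, h.2⟩
    rw [hU.time p e1, hV.time p e2, add_zero]
  · intro p
    rw [spaceDiv_add hU.smooth hV.smooth, hU.div, hV.div, add_zero]

theorem nice_zero (t₀ t₁ : ℝ) : Nice t₀ t₁ (fun _ => 0) := by
  refine ⟨contDiff_const, HasCompactSupport.zero, effective_zero, fun _ _ => rfl, ?_⟩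
  intro p
  simp [spaceDiv]

/-! ### Curves -/

/-- `U` carries `x` to `y` during the time slot `[t₀, t₁]`. -/
def Carries (U : Field) (t₀ t₁ : ℝ) (x y : Fin 3 → ℝ) : Prop :=
  ∃ γ : ℝ → (Fin 3 → ℝ), (∀ t, t ≤ t₀ → γ t = x) ∧ (∀ t, t₁ ≤ t → γ t = y) ∧
    ∀ t, HasDerivAt γ (U (t, γ t)) t

theorem Carries.trans {U V : Field} {t₀ m t₁ : ℝ} {x y z : Fin 3 → ℝ}
    (hU : ∀ p : ST, p.1 ∉ Ioo t₀ m → U p = 0) (hV : ∀ p : ST, p.1 ∉ Ioo m t₁ → V p = 0)
    (h1 : Carries U t₀ m x y) (h2 : Carries V m t₁ y z) (hm0 : t₀ ≤ m) (hm1 : m ≤ t₁) :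
    Carries (fun p => U p + V p) t₀ t₁ x z := by
  obtain ⟨γ₁, a1, b1, c1⟩ := h1
  obtain ⟨γ₂, a2, b2, c2⟩ := h2
  refine ⟨fun t => γ₁ t + (γ₂ t - y), ?_, ?_, ?_⟩
  · intro t ht
    simp only
    rw [a1 t ht, a2 t (ht.trans hm0)]
    simp
  · intro t ht
    simp only
    rw [b1 t (hm1.trans ht), b2 t ht]
    simp
  · intro t
    have h := (c1 t).fun_add ((c2 t).sub_const y)
    refine h.congr_deriv ?_
    simp only
    rcases le_total t m with hle | hge
    · rw [a2 t hle, sub_self, add_zero, hV (t, y) (fun h => absurd h.1 (not_lt.2 hle)),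
        hV (t, _) (fun h => absurd h.1 (not_lt.2 hle))]
    · rw [b1 t hge, hU (t, y) (fun h => absurd h.2 (not_lt.2 hge))]
      have e1 : y + (γ₂ t - y) = γ₂ t := by abel
      rw [e1, hU (t, _) (fun h => absurd h.2 (not_lt.2 hge)), zero_add]

theorem carries_refl (t₀ t₁ : ℝ) (x : Fin 3 → ℝ) : Carries (fun _ => 0) t₀ t₁ x x :=
  ⟨fun _ => x, fun _ _ => rfl, fun _ _ => rfl, fun _ => hasDerivAt_const _ _⟩

/-- A family of maps realized on a family of sets by good fields in each rational time slot. -/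
def Realizes {ι : Type*} (W : ι → Set (Fin 3 → ℝ)) (A : ι → (Fin 3 → ℝ) → (Fin 3 → ℝ)) : Prop :=
  ∀ t₀ t₁ : ℚ, t₀ < t₁ → ∃ U, Nice t₀ t₁ U ∧ ∀ i, ∀ x ∈ W i, Carries U t₀ t₁ x (A i x)

theorem Realizes.trans {ι : Type*} {W W' : ι → Set (Fin 3 → ℝ)}
    {A A' : ι → (Fin 3 → ℝ) → (Fin 3 → ℝ)} (h : Realizes W A) (h' : Realizes W' A')
    (hm : ∀ i, ∀ x ∈ W i, A i x ∈ W' i) : Realizes W (fun i x => A' i (A i x)) := by
  intro t₀ t₁ ht
  obtain ⟨U, hU, hU'⟩ := h t₀ ((t₀ + t₁) / 2) (by linarith)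
  obtain ⟨V, hV, hV'⟩ := h' ((t₀ + t₁) / 2) t₁ (by linarith)
  have ht' : (t₀:ℝ) < t₁ := by exact_mod_cast ht
  have e : (((t₀ + t₁) / 2 : ℚ) : ℝ) = ((t₀:ℝ) + t₁) / 2 := by push_cast; ring
  refine ⟨_, Nice.add hU hV ?_ ?_, ?_⟩
  · rw [e]; linarith
  · rw [e]; linarith
  · intro i x hx
    refine Carries.trans hU.time hV.time (hU' i x hx) (hV' i _ (hm i x hx)) ?_ ?_
    · rw [e]; linarith
    · rw [e]; linarith

theorem realizes_refl {ι : Type*} (W : ι → Set (Fin 3 → ℝ)) : Realizes W (fun _ x => x) := by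
  intro t₀ t₁ _
  exact ⟨_, nice_zero _ _, fun _ x _ => carries_refl _ _ x⟩

theorem Realizes.mono {ι : Type*} {W W' : ι → Set (Fin 3 → ℝ)}
    {A : ι → (Fin 3 → ℝ) → (Fin 3 → ℝ)} (h : Realizes W A) (hs : ∀ i, W' i ⊆ W i) :
    Realizes W' A := by
  intro t₀ t₁ ht
  obtain ⟨U, hU, hU'⟩ := h t₀ t₁ ht
  exact ⟨U, hU, fun i x hx => hU' i x (hs i hx)⟩

theorem Realizes.congr {ι : Type*} {W : ι → Set (Fin 3 → ℝ)}
    {A B : ι → (Fin 3 → ℝ) → (Fin 3 → ℝ)} (h : Realizes W A)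
    (hs : ∀ i, ∀ x ∈ W i, A i x = B i x) : Realizes W B := by
  intro t₀ t₁ ht
  obtain ⟨U, hU, hU'⟩ := h t₀ t₁ ht
  exact ⟨U, hU, fun i x hx => by rw [← hs i x hx]; exact hU' i x hx⟩

end Crest.Agent.BoxFlowField
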