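/-
The elementary moves: shears and translations localized in a box and a time slot.
-/
import Mathlib
import Crest.Prelude.Def_BoxFlow
import Crest.Agent.Lib.BoxFlowField

set_option autoImplicit false

namespace Crest.Agent.BoxFlowMove

open Crest.AnalysisR.BoxFlow Crest.Agent.BoxFlowQ Crest.Agent.BoxFlowG Crest.Agent.BoxFlowApprox
  Crest.Agent.BoxFlowField
open Real Set Filter Topology
open scoped Nat ContDiff

/-! ### derivative of `G` at the ends -/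

theorem differentiable_G : Differentiable ℝ G := G_contDiff.differentiable (by simp)

theorem deriv_G_of_nonpos {u : ℝ} (hu : u ≤ 0) : deriv G u = 0 := by
  rcases hu.lt_or_eq with h | h
  · have hev : G =ᶠ[𝓝 u] fun _ => 0 := by
      filter_upwards [Iio_mem_nhds h] with z hz
      exact G_of_nonpos hz.le
    rw [hev.deriv_eq]
    simp
  · subst h
    have : IsLocalMin G 0 := by
      refine Filter.Eventually.of_forall fun y => ?_
      rw [G_of_nonpos le_rfl]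
      exact G_nonneg y
    exact this.deriv_eq_zero

theorem deriv_G_of_one_le {u : ℝ} (hu : 1 ≤ u) : deriv G u = 0 := by
  rcases hu.lt_or_eq with h | h
  · have hev : G =ᶠ[𝓝 u] fun _ => 1 := by
      filter_upwards [Ioi_mem_nhds h] with z hz
      exact G_of_one_le hz.le
    rw [hev.deriv_eq]
    simp
  · subst h
    have : IsLocalMax G 1 := by
      refine Filter.Eventually.of_forall fun y => ?_
      rw [G_of_one_le le_rfl]
      exact G_le_one y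
    exact this.deriv_eq_zero

/-! ### bumps -/

/-- A plateau function: equal to `1` on `[lo, hi]`, vanishing outside `[lo - μ, hi + μ]`. -/
noncomputable def bump (lo hi μ : ℚ) (x : ℝ) : ℝ :=
  G (((μ⁻¹ : ℚ) : ℝ) * x + (((-(lo - μ)) * μ⁻¹ : ℚ) : ℝ)) - G (((μ⁻¹ : ℚ) : ℝ) * x + (((-hi) * μ⁻¹ : ℚ) : ℝ))

theorem eff1_bump (lo hi μ : ℚ) : Eff1 (bump lo hi μ) :=
  (eff1_G.affine _ _).sub (eff1_G.affine _ _)

theorem arg1_eq (lo μ : ℚ) (hμ : 0 < μ) (x : ℝ) :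
    ((μ⁻¹ : ℚ) : ℝ) * x + (((-(lo - μ)) * μ⁻¹ : ℚ) : ℝ) = (x - ((lo:ℝ) - μ)) / μ := by
  have : (μ:ℝ) ≠ 0 := by exact_mod_cast hμ.ne'
  push_cast
  field_simp
  ring

theorem arg2_eq (hi μ : ℚ) (hμ : 0 < μ) (x : ℝ) :
    ((μ⁻¹ : ℚ) : ℝ) * x + (((-hi) * μ⁻¹ : ℚ) : ℝ) = (x - hi) / μ := by
  have : (μ:ℝ) ≠ 0 := by exact_mod_cast hμ.ne'
  push_cast
  field_simp
  ring

theorem hasDerivAt_bump (lo hi μ : ℚ) (x : ℝ) :
    HasDerivAt (bump lo hi μ)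
      (deriv G (((μ⁻¹ : ℚ) : ℝ) * x + (((-(lo - μ)) * μ⁻¹ : ℚ) : ℝ)) * ((μ⁻¹ : ℚ) : ℝ)
        - deriv G (((μ⁻¹ : ℚ) : ℝ) * x + (((-hi) * μ⁻¹ : ℚ) : ℝ)) * ((μ⁻¹ : ℚ) : ℝ)) x := by
  have haff : ∀ γ : ℝ, HasDerivAt (fun x : ℝ => ((μ⁻¹ : ℚ) : ℝ) * x + γ) ((μ⁻¹ : ℚ) : ℝ) x := by
    intro γ
    simpa using ((hasDerivAt_id x).const_mul ((μ⁻¹ : ℚ) : ℝ)).add_const γ
  have h1 := (differentiable_G _).hasDerivAt.comp x (haff (((-(lo - μ)) * μ⁻¹ : ℚ) : ℝ))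
  have h2 := (differentiable_G _).hasDerivAt.comp x (haff (((-hi) * μ⁻¹ : ℚ) : ℝ))
  exact h1.sub h2

theorem bump_eq_one {lo hi μ : ℚ} (hμ : 0 < μ) {x : ℝ} (h1 : (lo:ℝ) ≤ x) (h2 : x ≤ hi) :
    bump lo hi μ x = 1 := by
  have hμR : (0:ℝ) < μ := by exact_mod_cast hμ
  unfold bump
  rw [arg1_eq lo μ hμ, arg2_eq hi μ hμ, G_of_one_le, G_of_nonpos]
  · simp
  · exact div_nonpos_of_nonpos_of_nonneg (by linarith) hμR.le
  · rw [one_le_div hμR]; linarith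

theorem bump_eq_zero {lo hi μ : ℚ} (hμ : 0 < μ) (hlh : lo ≤ hi) {x : ℝ}
    (h : x ≤ (lo:ℝ) - μ ∨ (hi:ℝ) + μ ≤ x) : bump lo hi μ x = 0 := by
  have hμR : (0:ℝ) < μ := by exact_mod_cast hμ
  have hlh' : (lo:ℝ) ≤ hi := by exact_mod_cast hlh
  unfold bump
  rw [arg1_eq lo μ hμ, arg2_eq hi μ hμ]
  rcases h with h | h
  · rw [G_of_nonpos, G_of_nonpos]
    · simp
    · exact div_nonpos_of_nonpos_of_nonneg (by linarith) hμR.le
    · exact div_nonpos_of_nonpos_of_nonneg (by linarith) hμR.le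
  · rw [G_of_one_le, G_of_one_le]
    · simp
    · rw [one_le_div hμR]; linarith
    · rw [one_le_div hμR]; linarith

theorem deriv_bump_eq_zero {lo hi μ : ℚ} (hμ : 0 < μ) {x : ℝ} (h1 : (lo:ℝ) ≤ x) (h2 : x ≤ hi) :
    deriv (bump lo hi μ) x = 0 := by
  have hμR : (0:ℝ) < μ := by exact_mod_cast hμ
  rw [(hasDerivAt_bump lo hi μ x).deriv, arg1_eq lo μ hμ, arg2_eq hi μ hμ, deriv_G_of_one_le,
    deriv_G_of_nonpos]
  · simp
  · exact div_nonpos_of_nonpos_of_nonneg (by linarith) hμR.le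
  · rw [one_le_div hμR]; linarith

/-- The complement of the closed support interval. -/
def Far (lo hi μ : ℚ) (x : ℝ) : Prop := x < (lo:ℝ) - μ ∨ (hi:ℝ) + μ < x

theorem isOpen_far (lo hi μ : ℚ) : IsOpen {x : ℝ | Far lo hi μ x} :=
  (isOpen_lt continuous_id continuous_const).union (isOpen_lt continuous_const continuous_id)

theorem eventually_far {lo hi μ : ℚ} {x : ℝ} (h : Far lo hi μ x) : ∀ᶠ y in 𝓝 x, Far lo hi μ y :=
  (isOpen_far lo hi μ).mem_nhds h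

theorem bump_far {lo hi μ : ℚ} (hμ : 0 < μ) (hlh : lo ≤ hi) {x : ℝ} (h : Far lo hi μ x) :
    bump lo hi μ x = 0 :=
  bump_eq_zero hμ hlh (h.imp le_of_lt le_of_lt)

/-- A function vanishing where `Far`. -/
def VanFar (lo hi μ : ℚ) (f : ℝ → ℝ) : Prop := ∀ x, Far lo hi μ x → f x = 0

theorem VanFar.deriv {lo hi μ : ℚ} {f : ℝ → ℝ} (h : VanFar lo hi μ f) : VanFar lo hi μ (deriv f) := by
  intro x hx
  have hev : f =ᶠ[𝓝 x] fun _ => 0 := by
    filter_upwards [eventually_far hx] with y hy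
    exact h y hy
  rw [hev.deriv_eq]
  simp

theorem VanFar.bounded {lo hi μ : ℚ} {f : ℝ → ℝ} (h : VanFar lo hi μ f) :
    ∃ R : ℕ, ∀ x, (R:ℝ) < |x| → f x = 0 := by
  refine ⟨natBd (lo - μ) + natBd (hi + μ), fun x hx => h x ?_⟩
  have h1 : |((lo - μ : ℚ) : ℝ)| ≤ natBd (lo - μ) := abs_cast_le_natBd _
  have h2 : |((hi + μ : ℚ) : ℝ)| ≤ natBd (hi + μ) := abs_cast_le_natBd _
  push_cast at h1 h2 hx
  have h3 : (0:ℝ) ≤ natBd (lo - μ) := Nat.cast_nonneg _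
  have h4 : (0:ℝ) ≤ natBd (hi + μ) := Nat.cast_nonneg _
  unfold Far
  rcases abs_cases x with ⟨hx1, _⟩ | ⟨hx1, _⟩
  · right
    rw [hx1] at hx
    have := le_abs_self ((hi:ℝ) + μ)
    linarith
  · left
    rw [hx1] at hx
    have := neg_abs_le ((lo:ℝ) - μ)
    linarith

/-! ### the primitive -/

/-- `(κ₀ x + κ₁ x² / 2) β(x)`. -/
noncomputable def prim (κ₀ κ₁ lo hi μ : ℚ) (x : ℝ) : ℝ :=
  (κ₀:ℝ) * (x * bump lo hi μ x) + ((κ₁ / 2 : ℚ) : ℝ) * (x * (x * bump lo hi μ x))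

theorem vanFar_bump {lo hi μ : ℚ} (hμ : 0 < μ) (hlh : lo ≤ hi) : VanFar lo hi μ (bump lo hi μ) :=
  fun _ hx => bump_far hμ hlh hx

theorem vanFar_prim {κ₀ κ₁ lo hi μ : ℚ} (hμ : 0 < μ) (hlh : lo ≤ hi) :
    VanFar lo hi μ (prim κ₀ κ₁ lo hi μ) := by
  intro x hx
  simp [prim, bump_far hμ hlh hx]

theorem eff1_prim (κ₀ κ₁ lo hi μ : ℚ) (hμ : 0 < μ) (hlh : lo ≤ hi) : Eff1 (prim κ₀ κ₁ lo hi μ) := by
  have h0 := eff1_bump lo hi μ
  obtain ⟨R, hR⟩ := (vanFar_bump hμ hlh).bounded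
  have h1 := h0.mul_id R hR
  have h1' : VanFar lo hi μ (fun x => x * bump lo hi μ x) := by
    intro x hx
    simp [bump_far hμ hlh hx]
  obtain ⟨R', hR'⟩ := h1'.bounded
  have h2 := h1.mul_id R' hR'
  exact (h1.smul κ₀).add (h2.smul (κ₁ / 2))

theorem hasDerivAt_prim (κ₀ κ₁ lo hi μ : ℚ) (x : ℝ) :
    HasDerivAt (prim κ₀ κ₁ lo hi μ)
      ((κ₀:ℝ) * (1 * bump lo hi μ x + x * deriv (bump lo hi μ) x)
        + ((κ₁ / 2 : ℚ) : ℝ) * (1 * (x * bump lo hi μ x) + x * (1 * bump lo hi μ x + x * deriv (bump lo hi μ) x))) x := by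
  have hb : HasDerivAt (bump lo hi μ) (deriv (bump lo hi μ) x) x :=
    (hasDerivAt_bump lo hi μ x).differentiableAt.hasDerivAt
  have h1 : HasDerivAt (fun x => x * bump lo hi μ x) (1 * bump lo hi μ x + x * deriv (bump lo hi μ) x) x :=
    (hasDerivAt_id' x).mul hb
  have h2 := (hasDerivAt_id' x).mul h1
  exact (h1.const_mul _).add (h2.const_mul _)

theorem deriv_prim_plateau {κ₀ κ₁ lo hi μ : ℚ} (hμ : 0 < μ) {x : ℝ} (h1 : (lo:ℝ) ≤ x) (h2 : x ≤ hi) :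
    deriv (prim κ₀ κ₁ lo hi μ) x = (κ₀:ℝ) + κ₁ * x := by
  rw [(hasDerivAt_prim κ₀ κ₁ lo hi μ x).deriv, bump_eq_one hμ h1 h2, deriv_bump_eq_zero hμ h1 h2]
  push_cast
  ring

/-! ### the time factor -/

/-- The time profile: `0` before `t₀`, `1` after `t₁`. -/
noncomputable def sT (t₀ t₁ : ℚ) (t : ℝ) : ℝ :=
  G ((((t₁ - t₀)⁻¹ : ℚ) : ℝ) * t + (((-t₀) * (t₁ - t₀)⁻¹ : ℚ) : ℝ))

/-- Its derivative. -/
noncomputable def tauT (t₀ t₁ : ℚ) : ℝ → ℝ := deriv (sT t₀ t₁)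

theorem eff1_sT (t₀ t₁ : ℚ) : Eff1 (sT t₀ t₁) := eff1_G.affine _ _

theorem eff1_tauT (t₀ t₁ : ℚ) : Eff1 (tauT t₀ t₁) := (eff1_sT t₀ t₁).deriv

theorem targ_eq {t₀ t₁ : ℚ} (ht : t₀ < t₁) (t : ℝ) :
    (((t₁ - t₀)⁻¹ : ℚ) : ℝ) * t + (((-t₀) * (t₁ - t₀)⁻¹ : ℚ) : ℝ) = (t - t₀) / ((t₁:ℝ) - t₀) := by
  have h : ((t₀:ℝ)) < t₁ := by exact_mod_cast ht
  have h' : ((t₁:ℝ) - t₀) ≠ 0 := by linarith
  push_cast
  field_simp
  ring

theorem sT_of_le {t₀ t₁ : ℚ} (ht : t₀ < t₁) {t : ℝ} (h : t ≤ t₀) : sT t₀ t₁ t = 0 := by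
  have h0 : ((t₀:ℝ)) < t₁ := by exact_mod_cast ht
  unfold sT
  rw [targ_eq ht, G_of_nonpos]
  exact div_nonpos_of_nonpos_of_nonneg (by linarith) (by linarith)

theorem sT_of_ge {t₀ t₁ : ℚ} (ht : t₀ < t₁) {t : ℝ} (h : (t₁:ℝ) ≤ t) : sT t₀ t₁ t = 1 := by
  have h0 : ((t₀:ℝ)) < t₁ := by exact_mod_cast ht
  unfold sT
  rw [targ_eq ht, G_of_one_le]
  rw [one_le_div (by linarith)]
  linarith

theorem sT_mem (t₀ t₁ : ℚ) (t : ℝ) : sT t₀ t₁ t ∈ Icc (0:ℝ) 1 := ⟨G_nonneg _, G_le_one _⟩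

theorem hasDerivAt_sT (t₀ t₁ : ℚ) (t : ℝ) : HasDerivAt (sT t₀ t₁) (tauT t₀ t₁ t) t :=
  (((eff1_sT t₀ t₁).contDiff.differentiable (by simp)) t).hasDerivAt

theorem tauT_far {t₀ t₁ : ℚ} (ht : t₀ < t₁) {t : ℝ} (h : t ∉ Ioo (t₀:ℝ) t₁) : tauT t₀ t₁ t = 0 := by
  have h0 : ((t₀:ℝ)) < t₁ := by exact_mod_cast ht
  unfold tauT
  have hh : deriv (sT t₀ t₁) t =
      deriv G (((t₁ - t₀)⁻¹ : ℚ) * t + (((-t₀) * (t₁ - t₀)⁻¹ : ℚ) : ℝ)) * (((t₁ - t₀)⁻¹ : ℚ) : ℝ) := by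
    have haff : HasDerivAt (fun x : ℝ => (((t₁ - t₀)⁻¹ : ℚ) : ℝ) * x + (((-t₀) * (t₁ - t₀)⁻¹ : ℚ) : ℝ))
        (((t₁ - t₀)⁻¹ : ℚ) : ℝ) t := by
      simpa using ((hasDerivAt_id t).const_mul (((t₁ - t₀)⁻¹ : ℚ) : ℝ)).add_const
        (((-t₀) * (t₁ - t₀)⁻¹ : ℚ) : ℝ)
    exact ((differentiable_G _).hasDerivAt.comp t haff).deriv
  rw [hh, targ_eq ht]
  by_cases h1 : t ≤ t₀
  · rw [deriv_G_of_nonpos]
    · simp
    · exact div_nonpos_of_nonpos_of_nonneg (by linarith) (by linarith)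
  · have h2 : (t₁:ℝ) ≤ t := by
      by_contra h3
      exact h ⟨not_le.1 h1, not_le.1 h3⟩
    rw [deriv_G_of_one_le]
    · simp
    · rw [one_le_div (by linarith)]
      linarith

/-! ### the move field -/

section MoveField

variable (a b : Fin 3) (κ₀ κ₁ : ℚ) (lo hi : Fin 3 → ℚ) (μ t₀ t₁ : ℚ)

/-- factors of the first component -/
noncomputable def fA : Fin 4 → ℝ → ℝ :=
  Fin.cons (tauT t₀ t₁) (fun s => if s = b then deriv (prim κ₀ κ₁ (lo b) (hi b) μ)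
    else bump (lo s) (hi s) μ)

/-- factors of the second component -/
noncomputable def fB : Fin 4 → ℝ → ℝ :=
  Fin.cons (tauT t₀ t₁) (fun s => if s = a then deriv (bump (lo a) (hi a) μ)
    else if s = b then (fun x => - prim κ₀ κ₁ (lo b) (hi b) μ x) else bump (lo s) (hi s) μ)

/-- The field of a move. -/
noncomputable def moveField : Field := fun p => tfield (fA b κ₀ κ₁ lo hi μ t₀ t₁) a p
  + tfield (fB a b κ₀ κ₁ lo hi μ t₀ t₁) b p

@[simp] theorem fA_zero : fA b κ₀ κ₁ lo hi μ t₀ t₁ 0 = tauT t₀ t₁ := rfl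
@[simp] theorem fB_zero : fB a b κ₀ κ₁ lo hi μ t₀ t₁ 0 = tauT t₀ t₁ := rfl
theorem fA_succ (s : Fin 3) : fA b κ₀ κ₁ lo hi μ t₀ t₁ s.succ =
    if s = b then deriv (prim κ₀ κ₁ (lo b) (hi b) μ) else bump (lo s) (hi s) μ := rfl
theorem fB_succ (s : Fin 3) : fB a b κ₀ κ₁ lo hi μ t₀ t₁ s.succ =
    if s = a then deriv (bump (lo a) (hi a) μ)
    else if s = b then (fun x => - prim κ₀ κ₁ (lo b) (hi b) μ x) else bump (lo s) (hi s) μ := rfl

variable {a b κ₀ κ₁ lo hi μ t₀ t₁}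
variable (hμ : 0 < μ) (hlh : ∀ l, lo l ≤ hi l) (ht : t₀ < t₁)
include hμ hlh

theorem eff1_fA (l : Fin 4) : Eff1 (fA b κ₀ κ₁ lo hi μ t₀ t₁ l) := by
  refine Fin.cases ?_ (fun s => ?_) l
  · exact eff1_tauT t₀ t₁
  · rw [fA_succ]
    split_ifs with h
    · exact (eff1_prim _ _ _ _ _ hμ (hlh b)).deriv
    · exact eff1_bump _ _ _

theorem eff1_fB (l : Fin 4) : Eff1 (fB a b κ₀ κ₁ lo hi μ t₀ t₁ l) := by
  refine Fin.cases ?_ (fun s => ?_) l
  · exact eff1_tauT t₀ t₁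
  · rw [fB_succ]
    split_ifs with h h'
    · exact (eff1_bump _ _ _).deriv
    · have := (eff1_prim κ₀ κ₁ (lo b) (hi b) μ hμ (hlh b)).smul (-1)
      convert this using 2
      push_cast
      ring
    · exact eff1_bump _ _ _

theorem vanFar_fA (s : Fin 3) :
    VanFar (lo s) (hi s) μ (fA b κ₀ κ₁ lo hi μ t₀ t₁ s.succ) := by
  rw [fA_succ]
  split_ifs with h
  · subst h
    exact (vanFar_prim hμ (hlh s)).deriv
  · exact vanFar_bump hμ (hlh s)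

theorem vanFar_fB (s : Fin 3) :
    VanFar (lo s) (hi s) μ (fB a b κ₀ κ₁ lo hi μ t₀ t₁ s.succ) := by
  rw [fB_succ]
  split_ifs with h h'
  · subst h
    exact (vanFar_bump hμ (hlh s)).deriv
  · subst h'
    intro x hx
    simp [vanFar_prim hμ (hlh s) x hx]
  · exact vanFar_bump hμ (hlh s)

end MoveField

theorem tens_eq_zero_of_factor {f : Fin 4 → ℝ → ℝ} {p : ST} (l : Fin 4) (h : f l (cL l p) = 0) :
    tens f p = 0 :=
  Finset.prod_eq_zero (Finset.mem_univ l) h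

theorem hasCompactSupport_tfield {f : Fin 4 → ℝ → ℝ} (hf : ∀ l, ∃ R : ℝ, ∀ x, R < |x| → f l x = 0)
    (e : Fin 3) : HasCompactSupport (tfield f e) := by
  choose R hR using hf
  set M : ℝ := ∑ l, |R l| with hM
  have hle : ∀ l, R l ≤ M := by
    intro l
    have h1 : |R l| ≤ M := Finset.single_le_sum (f := fun l => |R l|) (fun _ _ => abs_nonneg _)
      (Finset.mem_univ l)
    exact (le_abs_self _).trans h1
  have hM0 : 0 ≤ M := Finset.sum_nonneg (fun _ _ => abs_nonneg _)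
  refine HasCompactSupport.intro (isCompact_closedBall (0 : ST) M) ?_
  intro p hp
  have hp' : M < ‖p‖ := by
    simpa [Metric.mem_closedBall, dist_zero_right] using hp
  have hex : ∃ l, M < |cL l p| := by
    by_contra hcon
    push Not at hcon
    have h0 := hcon 0
    have h1 : ‖p.2‖ ≤ M := by
      refine (pi_norm_le_iff_of_nonneg hM0).2 ?_
      intro j
      have := hcon j.succ
      simpa using this
    have h2 : ‖p‖ ≤ M := by
      rw [Prod.norm_def]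
      refine max_le ?_ h1
      simpa using h0
    linarith
  obtain ⟨l, hl⟩ := hex
  simp only [tfield]
  rw [tens_eq_zero_of_factor l (hR l _ (lt_of_le_of_lt (hle l) hl)), zero_smul]

theorem tens_eq' (f : Fin 4 → ℝ → ℝ) (p : ST) :
    tens f p = f 0 p.1 * ∏ s : Fin 3, f s.succ (p.2 s) := by
  rw [tens, Fin.prod_univ_succ]
  rfl

section MoveField2

variable {a b : Fin 3} {κ₀ κ₁ : ℚ} {lo hi : Fin 3 → ℚ} {μ t₀ t₁ : ℚ}
variable (hμ : 0 < μ) (hlh : ∀ l, lo l ≤ hi l) (ht : t₀ < t₁) (hab : a ≠ b)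

include hμ hlh in
theorem contDiff_moveField : ContDiff ℝ ∞ (moveField a b κ₀ κ₁ lo hi μ t₀ t₁) :=
  (contDiff_tfield (fun l => (eff1_fA hμ hlh l).contDiff) a).add
    (contDiff_tfield (fun l => (eff1_fB hμ hlh l).contDiff) b)

include hμ hlh in
theorem effective_moveField : Effective (moveField a b κ₀ κ₁ lo hi μ t₀ t₁) :=
  Effective.add' (contDiff_tfield (fun l => (eff1_fA hμ hlh l).contDiff) a)
    (contDiff_tfield (fun l => (eff1_fB hμ hlh l).contDiff) b)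
    (effective_tfield (fun l => eff1_fA hμ hlh l) a)
    (effective_tfield (fun l => eff1_fB hμ hlh l) b)

include ht in
theorem tauT_bounded : ∃ R : ℝ, ∀ x, R < |x| → tauT t₀ t₁ x = 0 := by
  refine ⟨|(t₀:ℝ)| + |(t₁:ℝ)|, fun x hx => tauT_far ht ?_⟩
  rintro ⟨h1, h2⟩
  have h3 : |x| ≤ |(t₀:ℝ)| + |(t₁:ℝ)| := by
    rw [abs_le]
    constructor
    · have := neg_abs_le (t₀:ℝ)
      have := abs_nonneg (t₁:ℝ)
      linarith
    · have := le_abs_self (t₁:ℝ)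
      have := abs_nonneg (t₀:ℝ)
      linarith
  linarith

include hμ hlh ht in
theorem compact_moveField : HasCompactSupport (moveField a b κ₀ κ₁ lo hi μ t₀ t₁) := by
  refine HasCompactSupport.add ?_ ?_
  · refine hasCompactSupport_tfield (fun l => ?_) a
    refine Fin.cases ?_ (fun s => ?_) l
    · exact tauT_bounded ht
    · obtain ⟨R, hR⟩ := (vanFar_fA (b := b) (κ₀ := κ₀) (κ₁ := κ₁) (t₀ := t₀) (t₁ := t₁) hμ hlh s).bounded
      exact ⟨R, hR⟩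
  · refine hasCompactSupport_tfield (fun l => ?_) b
    refine Fin.cases ?_ (fun s => ?_) l
    · exact tauT_bounded ht
    · obtain ⟨R, hR⟩ := (vanFar_fB (a := a) (b := b) (κ₀ := κ₀) (κ₁ := κ₁) (t₀ := t₀) (t₁ := t₁) hμ hlh s).bounded
      exact ⟨R, hR⟩

include ht in
theorem time_moveField (p : ST) (hp : p.1 ∉ Ioo (t₀:ℝ) t₁) :
    moveField a b κ₀ κ₁ lo hi μ t₀ t₁ p = 0 := by
  simp only [moveField, tfield]
  rw [tens_eq_zero_of_factor 0 (by simpa using tauT_far ht hp),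
    tens_eq_zero_of_factor 0 (by simpa using tauT_far ht hp)]
  simp

include hμ hlh hab in
theorem div_moveField (p : ST) : spaceDiv (moveField a b κ₀ κ₁ lo hi μ t₀ t₁) p = 0 := by
  have hdA : ∀ l, Differentiable ℝ (fA b κ₀ κ₁ lo hi μ t₀ t₁ l) :=
    fun l => (eff1_fA hμ hlh l).contDiff.differentiable (by simp)
  have hdB : ∀ l, Differentiable ℝ (fB a b κ₀ κ₁ lo hi μ t₀ t₁ l) :=
    fun l => (eff1_fB hμ hlh l).contDiff.differentiable (by simp)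
  have h1 : DifferentiableAt ℝ (tfield (fA b κ₀ κ₁ lo hi μ t₀ t₁) a) p :=
    ((contDiff_tfield (fun l => (eff1_fA hμ hlh l).contDiff) a).differentiable (by simp)) p
  have h2 : DifferentiableAt ℝ (tfield (fB a b κ₀ κ₁ lo hi μ t₀ t₁) b) p :=
    ((contDiff_tfield (fun l => (eff1_fB hμ hlh l).contDiff) b).differentiable (by simp)) p
  have hfd : fderiv ℝ (moveField a b κ₀ κ₁ lo hi μ t₀ t₁) p =
      fderiv ℝ (tfield (fA b κ₀ κ₁ lo hi μ t₀ t₁) a) p + fderiv ℝ (tfield (fB a b κ₀ κ₁ lo hi μ t₀ t₁) b) p :=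
    fderiv_fun_add h1 h2
  simp only [spaceDiv, hfd, ContinuousLinearMap.add_apply, Pi.add_apply]
  have hdir : ∀ j : Fin 3, ((0:ℝ), (Pi.single j 1 : Fin 3 → ℝ)) = direction j.succ :=
    fun j => (direction_succ j).symm
  simp only [hdir, fderiv_tfield hdA, fderiv_tfield hdB, tfield_apply]
  rw [Finset.sum_add_distrib]
  simp only [mul_ite, mul_one, mul_zero]
  rw [Finset.sum_ite_eq' Finset.univ a, Finset.sum_ite_eq' Finset.univ b]
  simp only [Finset.mem_univ, if_true]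
  rw [tens_eq', tens_eq']
  have e0 : ∀ d : Fin 3, (0 : Fin 4) ≠ d.succ := fun d => (Fin.succ_ne_zero d).symm
  simp only [e0, if_false, fA_zero, fB_zero, Fin.succ_inj]
  have hP : ∀ x, deriv (fun x => - prim κ₀ κ₁ (lo b) (hi b) μ x) x = - deriv (prim κ₀ κ₁ (lo b) (hi b) μ) x := by
    intro x
    exact deriv.fun_neg
  have key : (∏ s : Fin 3, (if s = b then deriv (fB a b κ₀ κ₁ lo hi μ t₀ t₁ s.succ)
        else fB a b κ₀ κ₁ lo hi μ t₀ t₁ s.succ) (p.2 s)) =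
      - ∏ s : Fin 3, (if s = a then deriv (fA b κ₀ κ₁ lo hi μ t₀ t₁ s.succ)
        else fA b κ₀ κ₁ lo hi μ t₀ t₁ s.succ) (p.2 s) := by
    rw [← Finset.mul_prod_erase Finset.univ _ (Finset.mem_univ b),
      ← Finset.mul_prod_erase Finset.univ (fun s : Fin 3 => (if s = a then deriv (fA b κ₀ κ₁ lo hi μ t₀ t₁ s.succ)
        else fA b κ₀ κ₁ lo hi μ t₀ t₁ s.succ) (p.2 s)) (Finset.mem_univ b), neg_mul_eq_neg_mul]
    congr 1
    · simp only [if_true, if_neg hab.symm, fA_succ, fB_succ]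
      exact hP _
    · refine Finset.prod_congr rfl ?_
      intro s hs
      have hsb : s ≠ b := Finset.ne_of_mem_erase hs
      rw [if_neg hsb]
      by_cases hsa : s = a
      · subst hsa
        rw [if_pos rfl, fA_succ, fB_succ, if_neg hsb, if_pos rfl, if_neg hsb]
      · rw [if_neg hsa, fA_succ, fB_succ, if_neg hsa, if_neg hsb, if_neg hsb]
  rw [key]
  ring

include hμ hlh ht hab in
theorem nice_moveField : Nice t₀ t₁ (moveField a b κ₀ κ₁ lo hi μ t₀ t₁) :=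
  ⟨contDiff_moveField hμ hlh, compact_moveField hμ hlh ht, effective_moveField hμ hlh,
    time_moveField ht, div_moveField hμ hlh hab⟩

include hμ hlh in
theorem moveField_far {x : Fin 3 → ℝ} (l : Fin 3) (hl : Far (lo l) (hi l) μ (x l)) (t : ℝ) :
    moveField a b κ₀ κ₁ lo hi μ t₀ t₁ (t, x) = 0 := by
  simp only [moveField, tfield]
  rw [tens_eq_zero_of_factor l.succ (by simpa using vanFar_fA hμ hlh l _ hl),
    tens_eq_zero_of_factor l.succ (by simpa using vanFar_fB hμ hlh l _ hl)]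
  simp

include hμ in
theorem moveField_plateau {x : Fin 3 → ℝ} (hx : ∀ s, (lo s : ℝ) ≤ x s ∧ x s ≤ hi s) (t : ℝ) :
    moveField a b κ₀ κ₁ lo hi μ t₀ t₁ (t, x) =
      tauT t₀ t₁ t • (((κ₀:ℝ) + κ₁ * x b) • (Pi.single a 1 : Fin 3 → ℝ)) := by
  have h1 : tens (fB a b κ₀ κ₁ lo hi μ t₀ t₁) (t, x) = 0 := by
    refine tens_eq_zero_of_factor a.succ ?_
    simp only [cL_succ, fB_succ, if_true]
    exact deriv_bump_eq_zero hμ (hx a).1 (hx a).2
  have h2 : tens (fA b κ₀ κ₁ lo hi μ t₀ t₁) (t, x) = tauT t₀ t₁ t * ((κ₀:ℝ) + κ₁ * x b) := by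
    rw [tens_eq']
    congr 1
    rw [Finset.prod_eq_single b]
    · simp only [fA_succ, if_true]
      exact deriv_prim_plateau hμ (hx b).1 (hx b).2
    · intro s _ hs
      simp only [fA_succ, if_neg hs]
      exact bump_eq_one hμ (hx s).1 (hx s).2
    · simp
  simp only [moveField, tfield, h1, h2, zero_smul, add_zero, smul_smul]

end MoveField2

/-! ### shears and the move lemma -/

/-- The shear map effected by a move. -/
noncomputable def shear (a b : Fin 3) (κ₀ κ₁ : ℝ) (x : Fin 3 → ℝ) : Fin 3 → ℝ :=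
  x + (κ₀ + κ₁ * x b) • (Pi.single a 1 : Fin 3 → ℝ)

theorem carries_plateau {a b : Fin 3} {κ₀ κ₁ : ℚ} {lo hi : Fin 3 → ℚ} {μ t₀ t₁ : ℚ}
    (hμ : 0 < μ) (ht : t₀ < t₁) (hab : a ≠ b) {x : Fin 3 → ℝ}
    (hx : ∀ s, (lo s : ℝ) ≤ x s ∧ x s ≤ hi s)
    (hy : ∀ s, (lo s : ℝ) ≤ shear a b κ₀ κ₁ x s ∧ shear a b κ₀ κ₁ x s ≤ hi s) :
    Carries (moveField a b κ₀ κ₁ lo hi μ t₀ t₁) t₀ t₁ x (shear a b κ₀ κ₁ x) := by
  set v : Fin 3 → ℝ := ((κ₀:ℝ) + κ₁ * x b) • (Pi.single a 1 : Fin 3 → ℝ) with hv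
  refine ⟨fun t => x + sT t₀ t₁ t • v, ?_, ?_, ?_⟩
  · intro t ht'
    simp [sT_of_le ht ht']
  · intro t ht'
    simp [sT_of_ge ht ht', shear, hv]
  · intro t
    have hd : HasDerivAt (fun t => x + sT t₀ t₁ t • v) (tauT t₀ t₁ t • v) t :=
      ((hasDerivAt_sT t₀ t₁ t).smul_const v).const_add x
    have hmem : ∀ s, (lo s : ℝ) ≤ (x + sT t₀ t₁ t • v) s ∧ (x + sT t₀ t₁ t • v) s ≤ hi s := by
      intro s
      by_cases hs : s = a
      · subst hs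
        have h1 := hx s
        have h2 := hy s
        have hsm := sT_mem t₀ t₁ t
        simp only [shear, Pi.add_apply, Pi.smul_apply, Pi.single_eq_same, smul_eq_mul, mul_one, hv] at h2 ⊢
        set c := (κ₀:ℝ) + κ₁ * x b
        constructor
        · nlinarith [hsm.1, hsm.2]
        · nlinarith [hsm.1, hsm.2]
      · have h1 := hx s
        simpa [hv, hs] using h1
    have hb : (x + sT t₀ t₁ t • v) b = x b := by
      simp [hv, Ne.symm hab]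
    have := moveField_plateau (a := a) (b := b) (κ₀ := κ₀) (κ₁ := κ₁) (t₀ := t₀) (t₁ := t₁) hμ hmem t
    rw [hb] at this
    rw [this]
    exact hd

theorem carries_far {a b : Fin 3} {κ₀ κ₁ : ℚ} {lo hi : Fin 3 → ℚ} {μ t₀ t₁ : ℚ}
    (hμ : 0 < μ) (hlh : ∀ l, lo l ≤ hi l) {x : Fin 3 → ℝ} (l : Fin 3)
    (hl : Far (lo l) (hi l) μ (x l)) :
    Carries (moveField a b κ₀ κ₁ lo hi μ t₀ t₁) t₀ t₁ x x := by
  refine ⟨fun _ => x, fun _ _ => rfl, fun _ _ => rfl, fun t => ?_⟩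
  rw [moveField_far hμ hlh l hl t]
  exact hasDerivAt_const _ _

/-- The basic move lemma. -/
theorem realizes_move {ι : Type*} [DecidableEq ι] (W : ι → Set (Fin 3 → ℝ)) (i₀ : ι) (a b : Fin 3)
    (hab : a ≠ b) (κ₀ κ₁ : ℚ) (lo hi : Fin 3 → ℚ) (hlh : ∀ l, lo l ≤ hi l) (μ : ℚ) (hμ : 0 < μ)
    (h1 : ∀ x ∈ W i₀, ∀ s, (lo s : ℝ) ≤ x s ∧ x s ≤ hi s)
    (h1' : ∀ x ∈ W i₀, ∀ s, (lo s : ℝ) ≤ shear a b κ₀ κ₁ x s ∧ shear a b κ₀ κ₁ x s ≤ hi s)
    (h2 : ∀ j, j ≠ i₀ → ∀ x ∈ W j, ∃ l, Far (lo l) (hi l) μ (x l)) :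
    Realizes W (fun i x => if i = i₀ then shear a b κ₀ κ₁ x else x) := by
  intro t₀ t₁ ht
  refine ⟨_, nice_moveField (a := a) (b := b) (κ₀ := κ₀) (κ₁ := κ₁) hμ hlh ht hab, ?_⟩
  intro i x hx
  by_cases hi : i = i₀
  · subst hi
    simp only [if_true]
    exact carries_plateau hμ ht hab (h1 x hx) (h1' x hx)
  · simp only [if_neg hi]
    obtain ⟨l, hl⟩ := h2 i hi x hx
    exact carries_far hμ hlh l hl

end Crest.Agent.BoxFlowMove
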