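/-
Global flows of smooth compactly supported fields active in a time slot.
-/
import Mathlib
import Crest.Prelude.Def_BoxFlow
import Crest.Agent.Lib.BoxFlowField

set_option autoImplicit false

namespace Crest.Agent.BoxFlowODE

open Crest.AnalysisR.BoxFlow Crest.Agent.BoxFlowField
open Set Filter Topology Metric
open scoped ContDiff NNReal

theorem extend_hasDerivAt {E : Type*} [NormedAddCommGroup E] [NormedSpace ℝ E] (α v : ℝ → E)
    (hα : ∀ t ∈ Icc (0:ℝ) 1, HasDerivWithinAt α (v t) (Icc 0 1) t) (h0 : v 0 = 0) (h1 : v 1 = 0)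
    (t : ℝ) :
    HasDerivAt (fun s => α (max 0 (min s 1))) (if t ∈ Icc (0:ℝ) 1 then v t else 0) t := by
  have hc : ∀ s ∈ Icc (0:ℝ) 1, max 0 (min s 1) = s := by
    intro s hs
    rw [min_eq_left hs.2, max_eq_right hs.1]
  have hle0 : ∀ s : ℝ, s ≤ 0 → max 0 (min s 1) = 0 := by
    intro s hs
    rw [max_eq_left]
    exact (min_le_left _ _).trans hs
  have hge1 : ∀ s : ℝ, 1 ≤ s → max 0 (min s 1) = 1 := by
    intro s hs
    rw [min_eq_right hs, max_eq_right zero_le_one]
  rcases lt_trichotomy t 0 with ht | ht | ht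
  · rw [if_neg (fun h => absurd h.1 (not_le.2 ht))]
    have hev : (fun s => α (max 0 (min s 1))) =ᶠ[𝓝 t] fun _ => α 0 := by
      filter_upwards [Iio_mem_nhds ht] with s hs
      rw [hle0 s hs.le]
    exact (hasDerivAt_const t (α 0)).congr_of_eventuallyEq hev
  · subst ht
    rw [if_pos ⟨le_rfl, zero_le_one⟩, h0]
    have h2 : HasDerivWithinAt (fun s => α (max 0 (min s 1))) 0 (Iic 0) 0 := by
      have : HasDerivWithinAt (fun _ : ℝ => α 0) 0 (Iic 0) 0 := hasDerivWithinAt_const _ _ _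
      refine this.congr ?_ ?_
      · intro s hs
        rw [hle0 s hs]
      · rw [hle0 0 le_rfl]
    have h3 : HasDerivWithinAt (fun s => α (max 0 (min s 1))) 0 (Ici 0) 0 := by
      have h4 := hα 0 ⟨le_rfl, zero_le_one⟩
      rw [h0] at h4
      have h5 : HasDerivWithinAt α 0 (Ici 0) 0 :=
        h4.mono_of_mem_nhdsWithin (Icc_mem_nhdsGE zero_lt_one)
      refine h5.congr_of_eventuallyEq ?_ ?_
      · filter_upwards [Icc_mem_nhdsGE (zero_lt_one' ℝ)] with s hs
        rw [hc s hs]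
      · rw [hle0 0 le_rfl]
    have := h2.union h3
    rwa [Iic_union_Ici, hasDerivWithinAt_univ] at this
  · rcases lt_trichotomy t 1 with ht1 | ht1 | ht1
    · rw [if_pos ⟨ht.le, ht1.le⟩]
      have h4 := hα t ⟨ht.le, ht1.le⟩
      have h5 : HasDerivAt α (v t) t := h4.hasDerivAt (Icc_mem_nhds ht ht1)
      have hev : (fun s => α (max 0 (min s 1))) =ᶠ[𝓝 t] α := by
        filter_upwards [Icc_mem_nhds ht ht1] with s hs
        rw [hc s hs]
      exact h5.congr_of_eventuallyEq hev
    · subst ht1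
      rw [if_pos ⟨zero_le_one, le_rfl⟩, h1]
      have h2 : HasDerivWithinAt (fun s => α (max 0 (min s 1))) 0 (Ici 1) 1 := by
        have : HasDerivWithinAt (fun _ : ℝ => α 1) 0 (Ici 1) 1 := hasDerivWithinAt_const _ _ _
        refine this.congr ?_ ?_
        · intro s hs
          rw [hge1 s hs]
        · rw [hge1 1 le_rfl]
      have h3 : HasDerivWithinAt (fun s => α (max 0 (min s 1))) 0 (Iic 1) 1 := by
        have h4 := hα 1 ⟨zero_le_one, le_rfl⟩
        rw [h1] at h4
        have h5 : HasDerivWithinAt α 0 (Iic 1) 1 :=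
          h4.mono_of_mem_nhdsWithin (Icc_mem_nhdsLE zero_lt_one)
        refine h5.congr_of_eventuallyEq ?_ ?_
        · filter_upwards [Icc_mem_nhdsLE (zero_lt_one' ℝ)] with s hs
          rw [hc s hs]
        · rw [hge1 1 le_rfl]
      have := h3.union h2
      rwa [Iic_union_Ici, hasDerivWithinAt_univ] at this
    · rw [if_neg (fun h => absurd h.2 (not_le.2 ht1))]
      have hev : (fun s => α (max 0 (min s 1))) =ᶠ[𝓝 t] fun _ => α 1 := by
        filter_upwards [Ioi_mem_nhds ht1] with s hs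
        rw [hge1 s (le_of_lt hs)]
      exact (hasDerivAt_const t (α 1)).congr_of_eventuallyEq hev

theorem lipschitz_slice {U : Field} {K : ℝ≥0} (hK : LipschitzWith K U) (t : ℝ) :
    LipschitzWith K (fun x => U (t, x)) := by
  refine LipschitzWith.of_dist_le_mul ?_
  intro x y
  have h := hK.dist_le_mul (t, x) (t, y)
  have h2 : dist ((t, x) : ℝ × (Fin 3 → ℝ)) (t, y) = dist x y := by
    rw [Prod.dist_eq]
    simp
  rwa [h2] at h

/-- Existence of the global flow. -/
theorem exists_flow {U : Field} (hs : ContDiff ℝ ∞ U) (hc : HasCompactSupport U)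
    (ht : ∀ p : ST, p.1 ∉ Ioo (1/4 : ℝ) (3/4) → U p = 0) : ∃ Φ, IsFlow U Φ := by
  obtain ⟨C, hC⟩ := hc.exists_bound_of_continuous hs.continuous
  obtain ⟨K, hK⟩ := ContDiff.lipschitzWith_of_hasCompactSupport hc hs (by simp)
  have hLnn : 0 ≤ max C 0 := le_max_right _ _
  set L : ℝ≥0 := ⟨max C 0, hLnn⟩ with hL
  have hLe : (L:ℝ) = max C 0 := rfl
  have hsol : ∀ x : Fin 3 → ℝ, ∃ α : ℝ → (Fin 3 → ℝ), α 0 = x ∧
      ∀ t ∈ Icc (0:ℝ) 1, HasDerivWithinAt α (U (t, α t)) (Icc 0 1) t := by
    intro x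
    have hPL : IsPicardLindelof (fun t x => U (t, x)) (tmin := 0) (tmax := 1)
        ⟨0, left_mem_Icc.2 zero_le_one⟩ x L 0 L K := by
      refine ⟨?_, ?_, ?_, ?_⟩
      · intro t _
        exact (lipschitz_slice hK t).lipschitzOnWith
      · intro y _
        exact (hs.continuous.comp (continuous_id.prodMk continuous_const)).continuousOn
      · intro t _ y _
        rw [hLe]
        exact (hC _).trans (le_max_left _ _)
      · simp
    exact hPL.exists_eq_forall_mem_Icc_hasDerivWithinAt (by simp)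
  choose α hα0 hα using hsol
  refine ⟨fun t x => α x (max 0 (min t 1)), ?_, ?_⟩
  · intro x
    simp [hα0]
  · intro t x
    have hv0 : U (0, α x 0) = 0 := ht _ (by norm_num)
    have hv1 : U (1, α x 1) = 0 := ht _ (by norm_num)
    have := extend_hasDerivAt (α x) (fun t => U (t, α x t)) (hα x) hv0 hv1 t
    refine this.congr_deriv ?_
    by_cases hmem : t ∈ Icc (0:ℝ) 1
    · rw [if_pos hmem]
      show U (t, α x t) = U (t, α x (max 0 (min t 1)))
      rw [min_eq_left hmem.2, max_eq_right hmem.1]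
    · rw [if_neg hmem]
      symm
      apply ht
      intro h
      exact hmem ⟨by linarith [h.1], by linarith [h.2]⟩

/-- The flow follows every carrying curve. -/
theorem flow_eq_of_carries {U : Field} {Φ : ℝ → (Fin 3 → ℝ) → (Fin 3 → ℝ)} (hs : ContDiff ℝ ∞ U)
    (hc : HasCompactSupport U) (hΦ : IsFlow U Φ) {t₀ t₁ : ℝ} (h0 : 0 ≤ t₀) (h1 : t₁ ≤ 1)
    {x y : Fin 3 → ℝ} (h : Carries U t₀ t₁ x y) : Φ 1 x = y := by
  obtain ⟨K, hK⟩ := ContDiff.lipschitzWith_of_hasCompactSupport hc hs (by simp)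
  obtain ⟨γ, hγ0, hγ1, hγ⟩ := h
  have huniq := ODE_solution_unique_of_mem_Icc_right (v := fun t x => U (t, x)) (s := fun _ => univ)
    (K := K) (f := fun t => Φ t x) (g := γ) (a := 0) (b := 1)
    (fun t _ => (lipschitz_slice hK t).lipschitzOnWith)
    (fun t _ => (hΦ.2 t x).continuousAt.continuousWithinAt)
    (fun t _ => (hΦ.2 t x).hasDerivWithinAt)
    (fun _ _ => mem_univ _)
    (fun t _ => (hγ t).continuousAt.continuousWithinAt)
    (fun t _ => (hγ t).hasDerivWithinAt)
    (fun _ _ => mem_univ _)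
    (by rw [hΦ.1 x, hγ0 0 h0])
  have := huniq ⟨zero_le_one, le_rfl⟩
  simp only at this
  rw [this, hγ1 1 h1]

end Crest.Agent.BoxFlowODE
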