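/-
The geometric plan: extraction of boxes to parking lanes.
-/
import Mathlib
import Crest.Prelude.Def_BoxFlow
import Crest.Agent.Lib.BoxFlowMove

set_option autoImplicit false

namespace Crest.Agent.BoxFlowPlan

open Crest.AnalysisR.BoxFlow Crest.Agent.BoxFlowField Crest.Agent.BoxFlowMove
open Set Function

/-- Translation by a rational vector. -/
def tr (u : Fin 3 → ℚ) (x : Fin 3 → ℝ) : Fin 3 → ℝ := fun l => x l + (u l : ℝ)

theorem tr_mem_box {c c' w : Fin 3 → ℚ} {x : Fin 3 → ℝ} (hx : x ∈ box c w) :
    tr (c' - c) x ∈ box c' w := by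
  intro l
  have h := hx l
  have e : tr (c' - c) x l - (c' l : ℝ) = x l - (c l : ℝ) := by
    simp only [tr, Pi.sub_apply]
    push_cast
    ring
  rw [e]
  exact h

theorem tr_tr (u u' : Fin 3 → ℚ) (x : Fin 3 → ℝ) : tr u' (tr u x) = tr (u + u') x := by
  funext l
  simp only [tr, Pi.add_apply]
  push_cast
  ring

theorem tr_zero (x : Fin 3 → ℝ) : tr 0 x = x := by
  funext l
  simp [tr]

variable {ι : Type*}

/-- Translations realized in both directions. -/
def BiT (w p q : ι → Fin 3 → ℚ) : Prop :=
  Realizes (fun j => box (p j) (w j)) (fun j => tr (q j - p j)) ∧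
  Realizes (fun j => box (q j) (w j)) (fun j => tr (p j - q j))

theorem BiT.refl (w p : ι → Fin 3 → ℚ) : BiT w p p := by
  have h : Realizes (fun j => box (p j) (w j)) (fun j => tr (p j - p j)) := by
    refine (realizes_refl _).congr ?_
    intro i x _
    simp [tr_zero]
  exact ⟨h, h⟩

theorem BiT.trans {w p q r : ι → Fin 3 → ℚ} (h : BiT w p q) (h' : BiT w q r) : BiT w p r := by
  constructor
  · refine (h.1.trans h'.1 (fun i x hx => tr_mem_box hx)).congr ?_
    intro i x _
    rw [tr_tr]
    congr 1
    abel
  · refine (h'.2.trans h.2 (fun i x hx => tr_mem_box hx)).congr ?_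
    intro i x _
    rw [tr_tr]
    congr 1
    abel

/-- A common positive margin exists for finitely many strict conditions. -/
theorem exists_margin {κ : Type*} [Finite κ] (P : κ → ℚ → Prop)
    (hP : ∀ i, ∃ δ > 0, ∀ μ, 0 < μ → μ ≤ δ → P i μ) :
    ∃ μ > 0, ∀ i, P i μ := by
  classical
  cases nonempty_fintype κ
  choose δ hδ hδ' using hP
  by_cases hne : (Finset.univ : Finset κ).Nonempty
  · obtain ⟨i₀, -, hmin⟩ := Finset.exists_min_image Finset.univ δ hne
    exact ⟨δ i₀, hδ i₀, fun i => hδ' i _ (hδ i₀) (hmin i (Finset.mem_univ i))⟩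
  · refine ⟨1, one_pos, fun i => ?_⟩
    exact absurd ⟨i, Finset.mem_univ i⟩ hne

/-- One directional transit of one box along an axis. -/
theorem realizes_transit [Finite ι] [DecidableEq ι] (w : ι → Fin 3 → ℚ) (hw : ∀ j l, 0 ≤ w j l)
    (p : ι → Fin 3 → ℚ) (i : ι) (v v' : Fin 3 → ℚ) (a : Fin 3) (hvv : ∀ l, l ≠ a → v l = v' l)
    (hSep : ∀ j, j ≠ i → ∃ l, p j l + w j l < min (v l) (v' l) - w i l ∨
      max (v l) (v' l) + w i l < p j l - w j l) :
    Realizes (fun j => box (update p i v j) (w j))
      (fun j => tr (update p i v' j - update p i v j)) := by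
  -- the margin
  obtain ⟨μ, hμ, hμ'⟩ := exists_margin (κ := ι)
    (fun j μ => j ≠ i → ∃ l, p j l + w j l < min (v l) (v' l) - w i l - μ ∨
      max (v l) (v' l) + w i l + μ < p j l - w j l) (by
    intro j
    by_cases hj : j = i
    · exact ⟨1, one_pos, fun _ _ _ h => absurd hj h⟩
    · obtain ⟨l, hl⟩ := hSep j hj
      rcases hl with hl | hl
      · refine ⟨(min (v l) (v' l) - w i l - (p j l + w j l)) / 2, by linarith, ?_⟩
        intro μ _ hμ2 _
        exact ⟨l, Or.inl (by linarith)⟩
      · refine ⟨(p j l - w j l - (max (v l) (v' l) + w i l)) / 2, by linarith, ?_⟩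
        intro μ _ hμ2 _
        exact ⟨l, Or.inr (by linarith)⟩)
  obtain ⟨b, hab⟩ : ∃ b : Fin 3, a ≠ b := ⟨a + 1, (by decide : ∀ a : Fin 3, a ≠ a + 1) a⟩
  set lo : Fin 3 → ℚ := fun l => min (v l) (v' l) - w i l with hlo
  set hi : Fin 3 → ℚ := fun l => max (v l) (v' l) + w i l with hhi
  have hlh : ∀ l, lo l ≤ hi l := by
    intro l
    have h1 := min_le_max (a := v l) (b := v' l)
    have h2 := hw i l
    simp only [hlo, hhi]
    linarith
  have hmove := realizes_move (fun j => box (update p i v j) (w j)) i a b hab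
    (v' a - v a) 0 lo hi hlh μ hμ ?_ ?_ ?_
  · refine hmove.congr ?_
    intro j x _
    by_cases hj : j = i
    · subst hj
      simp only [if_true, update_self]
      funext l
      simp only [shear, tr, Pi.add_apply, Pi.smul_apply, smul_eq_mul, Pi.sub_apply]
      by_cases hl : l = a
      · subst hl
        simp
      · simp [hl, hvv l hl]
    · rw [if_neg hj]
      funext l
      simp [tr, update_of_ne hj]
  · intro x hx s
    simp only [update_self] at hx
    have h1 := abs_le.1 (hx s)
    have h2 : ((min (v s) (v' s) : ℚ) : ℝ) ≤ (v s : ℝ) := by exact_mod_cast min_le_left _ _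
    have h3 : (v s : ℝ) ≤ ((max (v s) (v' s) : ℚ) : ℝ) := by exact_mod_cast le_max_left _ _
    simp only [hlo, hhi]
    push_cast at h2 h3 ⊢
    constructor <;> linarith [h1.1, h1.2]
  · intro x hx s
    simp only [update_self] at hx
    have h1 := abs_le.1 (hx s)
    have h2 : ((min (v s) (v' s) : ℚ) : ℝ) ≤ (v' s : ℝ) := by exact_mod_cast min_le_right _ _
    have h3 : (v' s : ℝ) ≤ ((max (v s) (v' s) : ℚ) : ℝ) := by exact_mod_cast le_max_right _ _
    have h2' : ((min (v s) (v' s) : ℚ) : ℝ) ≤ (v s : ℝ) := by exact_mod_cast min_le_left _ _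
    have h3' : (v s : ℝ) ≤ ((max (v s) (v' s) : ℚ) : ℝ) := by exact_mod_cast le_max_left _ _
    simp only [hlo, hhi]
    push_cast at h2 h3 h2' h3' ⊢
    by_cases hs : s = a
    · subst hs
      simp only [shear, Pi.add_apply, Pi.smul_apply, smul_eq_mul, Pi.single_eq_same, mul_one]
      push_cast
      constructor <;> linarith [h1.1, h1.2]
    · simp only [shear, Pi.add_apply, Pi.smul_apply, smul_eq_mul, Pi.single_eq_of_ne hs, mul_zero,
        add_zero]
      constructor <;> linarith [h1.1, h1.2]
  · intro j hj x hx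
    obtain ⟨l, hl⟩ := hμ' j hj
    simp only [update_of_ne hj] at hx
    have h1 := abs_le.1 (hx l)
    refine ⟨l, ?_⟩
    unfold Far
    simp only [hlo, hhi]
    rcases hl with hl | hl
    · left
      have : ((p j l + w j l : ℚ) : ℝ) < ((min (v l) (v' l) - w i l - μ : ℚ) : ℝ) := by exact_mod_cast hl
      push_cast at this ⊢
      linarith [h1.2]
    · right
      have : ((max (v l) (v' l) + w i l + μ : ℚ) : ℝ) < ((p j l - w j l : ℚ) : ℝ) := by exact_mod_cast hl
      push_cast at this ⊢
      linarith [h1.1]

/-- Two-directional transit. -/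
theorem bit_transit [Finite ι] [DecidableEq ι] (w : ι → Fin 3 → ℚ) (hw : ∀ j l, 0 ≤ w j l)
    (p : ι → Fin 3 → ℚ) (i : ι) (v v' : Fin 3 → ℚ) (a : Fin 3) (hvv : ∀ l, l ≠ a → v l = v' l)
    (hSep : ∀ j, j ≠ i → ∃ l, p j l + w j l < min (v l) (v' l) - w i l ∨
      max (v l) (v' l) + w i l < p j l - w j l) :
    BiT w (update p i v) (update p i v') := by
  refine ⟨realizes_transit w hw p i v v' a hvv hSep,
    realizes_transit w hw p i v' v a (fun l hl => (hvv l hl).symm) ?_⟩
  intro j hj
  obtain ⟨l, hl⟩ := hSep j hj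
  refine ⟨l, ?_⟩
  rwa [min_comm, max_comm]

/-! ### extraction -/

section Extract

variable {n : ℕ} (c w : Fin n → Fin 3 → ℚ) (R W : ℚ) (Y : Fin n → ℚ)

/-- The parking position. -/
def park (j : Fin n) : Fin 3 → ℚ := ![R + 3 * W + 2, Y j, 0]

/-- The state when boxes in `S` are at their original position and others are parked. -/
def st (S : Finset (Fin n)) (j : Fin n) : Fin 3 → ℚ := if j ∈ S then c j else park R W Y j

theorem sep_cases {a b x y : ℚ} (h : x + y < |a - b|) : b + y < a - x ∨ a + x < b - y := by
  rcases lt_abs.1 h with h | h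
  · left; linarith
  · right; linarith

variable (hw : ∀ j l, 0 ≤ w j l) (hwW : ∀ j l, w j l ≤ W) (hR : ∀ j l, |c j l| + w j l ≤ R)
  (hsep : ∀ i j, i ≠ j → ∃ l, w i l + w j l < |c i l - c j l|)
  (hY : ∀ i j, i ≠ j → 2 * W + 1 ≤ |Y i - Y j|)

include hw hwW hR hsep hY in
theorem extract_step (S : Finset (Fin n)) (i : Fin n) (hi : i ∉ S)
    (hmax : ∀ j ∈ S, c j 0 + w j 0 ≤ c i 0 + w i 0) :
    BiT w (st c R W Y (insert i S)) (st c R W Y S) := by
  set q := st c R W Y S with hq
  have hq1 : ∀ j, j ∈ S → q j = c j := fun j hj => by simp [hq, st, hj]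
  have hq2 : ∀ j, j ∉ S → q j = park R W Y j := fun j hj => by simp [hq, st, hj]
  have e1 : st c R W Y (insert i S) = update q i (c i) := by
    funext j
    by_cases hj : j = i
    · subst hj
      simp [st]
    · rw [update_of_ne hj]
      simp [st, hq, hj]
  have e2 : q = update q i (park R W Y i) := by
    funext j
    by_cases hj : j = i
    · subst hj
      simp [hq2 _ hi]
    · rw [update_of_ne hj]
  rw [e1]
  nth_rw 2 [e2]
  set X₀ : ℚ := R + W + 1 with hX₀
  -- basic inequalities
  have hci : ∀ j l, c j l + w j l ≤ R := fun j l => by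
    have := le_abs_self (c j l)
    have := hR j l
    linarith
  have hci' : ∀ j l, - R ≤ c j l - w j l := fun j l => by
    have := neg_abs_le (c j l)
    have := hR j l
    linarith
  have hWp : ∀ j l, w j l ≤ W := hwW
  have hparkfar : ∀ j, j ≠ i → j ∉ S → ∀ z, z ≤ X₀ →
      z + w i 0 < q j 0 - w j 0 := by
    intro j _ hjS z hz
    rw [hq2 j hjS]
    simp only [park, Matrix.cons_val_zero]
    have := hwW i 0
    have := hwW j 0
    rw [hX₀] at hz
    linarith
  have horigfar : ∀ j, j ≠ i → j ∈ S → ∀ z, X₀ ≤ z →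
      q j 0 + w j 0 < z - w i 0 := by
    intro j _ hjS z hz
    rw [hq1 j hjS]
    have := hwW i 0
    have := hci j 0
    rw [hX₀] at hz
    linarith
  have hciX : c i 0 ≤ X₀ := by
    have := hci i 0
    have := hw i 0
    have := hw i 0
    have hW0 : 0 ≤ W := (hw i 0).trans (hwW i 0)
    rw [hX₀]
    linarith
  have hX₀X₁ : X₀ ≤ R + 3 * W + 2 := by
    have hW0 : 0 ≤ W := (hw i 0).trans (hwW i 0)
    rw [hX₀]
    linarith
  -- Move 1: along axis 0 to the column
  have m1 : BiT w (update q i (c i)) (update q i ![X₀, c i 1, c i 2]) := by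
    refine bit_transit w hw q i _ _ 0 ?_ ?_
    · intro l hl
      fin_cases l
      · exact absurd rfl hl
      · rfl
      · rfl
    · intro j hj
      by_cases hjS : j ∈ S
      · obtain ⟨l, hl⟩ := hsep i j (Ne.symm hj)
        have hcases := sep_cases hl
        rw [hq1 j hjS]
        fin_cases l
        · rcases hcases with h | h
          · refine ⟨0, Or.inl ?_⟩
            simp only [Matrix.cons_val_zero]
            rw [min_eq_left hciX]
            exact h
          · have h3 := hmax j hjS
            have h4 := hw j 0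
            have h5 := hw j 0
            simp only [Fin.zero_eta, Fin.isValue] at h
            linarith
        · refine ⟨1, ?_⟩
          simp only [Matrix.cons_val_one, Matrix.cons_val_zero, min_self, max_self]
          simpa using hcases
        · refine ⟨2, ?_⟩
          simp only [Matrix.cons_val_two, Matrix.tail_cons, Matrix.head_cons, Matrix.cons_val_one,
            Matrix.cons_val_zero, min_self, max_self]
          simpa using hcases
      · refine ⟨0, Or.inr ?_⟩
        simp only [Matrix.cons_val_zero]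
        rw [max_eq_right hciX]
        exact hparkfar j hj hjS X₀ le_rfl
  -- Move 2: along axis 1
  have m2 : BiT w (update q i ![X₀, c i 1, c i 2]) (update q i ![X₀, Y i, c i 2]) := by
    refine bit_transit w hw q i _ _ 1 ?_ ?_
    · intro l hl
      fin_cases l
      · rfl
      · exact absurd rfl hl
      · rfl
    · intro j hj
      refine ⟨0, ?_⟩
      simp only [Matrix.cons_val_zero, min_self, max_self]
      by_cases hjS : j ∈ S
      · exact Or.inl (horigfar j hj hjS X₀ le_rfl)
      · exact Or.inr (hparkfar j hj hjS X₀ le_rfl)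
  -- Move 3: along axis 2
  have m3 : BiT w (update q i ![X₀, Y i, c i 2]) (update q i ![X₀, Y i, 0]) := by
    refine bit_transit w hw q i _ _ 2 ?_ ?_
    · intro l hl
      fin_cases l
      · rfl
      · rfl
      · exact absurd rfl hl
    · intro j hj
      refine ⟨0, ?_⟩
      simp only [Matrix.cons_val_zero, min_self, max_self]
      by_cases hjS : j ∈ S
      · exact Or.inl (horigfar j hj hjS X₀ le_rfl)
      · exact Or.inr (hparkfar j hj hjS X₀ le_rfl)
  -- Move 4: along axis 0 within the lane
  have m4 : BiT w (update q i ![X₀, Y i, 0]) (update q i (park R W Y i)) := by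
    refine bit_transit w hw q i _ _ 0 ?_ ?_
    · intro l hl
      fin_cases l
      · exact absurd rfl hl
      · rfl
      · rfl
    · intro j hj
      by_cases hjS : j ∈ S
      · refine ⟨0, Or.inl ?_⟩
        simp only [Matrix.cons_val_zero, park]
        rw [min_eq_left hX₀X₁]
        exact horigfar j hj hjS X₀ le_rfl
      · refine ⟨1, ?_⟩
        rw [hq2 j hjS]
        simp only [park, Matrix.cons_val_one, Matrix.cons_val_zero, min_self, max_self]
        have h1 := hY i j (Ne.symm hj)
        have h2 := hwW i 1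
        have h3 := hwW j 1
        rcases le_abs'.1 h1 with h | h
        · right; linarith
        · left; linarith
  exact (m1.trans m2).trans (m3.trans m4)

include hw hwW hR hsep hY in
theorem extract_all (S : Finset (Fin n)) : BiT w (st c R W Y S) (st c R W Y ∅) := by
  induction S using Finset.induction_on_max_value (fun j => c j 0 + w j 0) with
  | empty => exact BiT.refl _ _
  | insert i S hi hmax ih =>
    exact (extract_step c w R W Y hw hwW hR hsep hY S i hi hmax).trans ih

include hw hwW hR hsep hY in
/-- All boxes can be moved to their parking positions (and back). -/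
theorem extract_univ : BiT w c (park R W Y) := by
  have h := extract_all c w R W Y hw hwW hR hsep hY Finset.univ
  have e1 : st c R W Y Finset.univ = c := by
    funext j
    simp [st]
  have e2 : st c R W Y ∅ = park R W Y := by
    funext j
    simp [st]
  rwa [e1, e2] at h

end Extract

end Crest.Agent.BoxFlowPlan
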