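/-
The scaling phase: positive diagonal maps of determinant one as compositions of localized shears.
-/
import Mathlib
import Crest.Prelude.Def_BoxFlow
import Crest.Agent.Lib.BoxFlowPlan

set_option autoImplicit false

namespace Crest.Agent.BoxFlowScale

open Crest.AnalysisR.BoxFlow Crest.Agent.BoxFlowField Crest.Agent.BoxFlowMove
  Crest.Agent.BoxFlowPlan
open Set Function

/-- The sup-norm cube. -/
def cube (C : Fin 3 → ℚ) (B : ℚ) : Set (Fin 3 → ℝ) := {x | ∀ l, |x l - (C l : ℝ)| ≤ (B : ℝ)}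

theorem cube_mono {C : Fin 3 → ℚ} {B B' : ℚ} (h : B ≤ B') : cube C B ⊆ cube C B' := by
  intro x hx l
  have : (B:ℝ) ≤ B' := by exact_mod_cast h
  exact (hx l).trans this

/-- A shear centred at `C`. -/
noncomputable def shearC (a b : Fin 3) (κ : ℚ) (C : Fin 3 → ℚ) : (Fin 3 → ℝ) → (Fin 3 → ℝ) :=
  shear a b ((-κ * C b : ℚ) : ℝ) (κ : ℝ)

theorem shearC_apply (a b : Fin 3) (κ : ℚ) (C : Fin 3 → ℚ) (x : Fin 3 → ℝ) (l : Fin 3) :
    shearC a b κ C x l = x l + (if l = a then (κ:ℝ) * (x b - (C b : ℝ)) else 0) := by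
  simp only [shearC, shear, Pi.add_apply, Pi.smul_apply, smul_eq_mul]
  by_cases hl : l = a
  · subst hl
    simp only [Pi.single_eq_same, if_true]
    push_cast
    ring
  · simp [hl, Pi.single_eq_of_ne hl]

theorem shearC_growth {a b : Fin 3} (κ : ℚ) {C : Fin 3 → ℚ} {B : ℚ} (hB : 0 ≤ B) {x : Fin 3 → ℝ}
    (hx : x ∈ cube C B) : shearC a b κ C x ∈ cube C ((1 + |κ|) * B) := by
  intro l
  rw [shearC_apply]
  have hBR : (0:ℝ) ≤ B := by exact_mod_cast hB
  have hκ : (0:ℝ) ≤ |(κ:ℝ)| := abs_nonneg _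
  have e : (((1 + |κ|) * B : ℚ) : ℝ) = (1 + |(κ:ℝ)|) * B := by push_cast; ring
  rw [e]
  by_cases hl : l = a
  · subst hl
    simp only [if_true]
    have h1 := hx l
    have h2 := hx b
    have e2 : x l + (κ:ℝ) * (x b - (C b : ℝ)) - (C l : ℝ) =
        (x l - (C l : ℝ)) + (κ:ℝ) * (x b - (C b : ℝ)) := by ring
    rw [e2]
    refine (abs_add_le _ _).trans ?_
    rw [abs_mul]
    nlinarith [abs_nonneg (x b - (C b : ℝ))]
  · simp only [hl, if_false, add_zero]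
    have h1 := hx l
    nlinarith

section Lane

variable {ι : Type*} [DecidableEq ι] (P : ι → Fin 3 → ℚ) (W : ℚ) (i₀ : ι)

/-- Realization of a map on the `i₀`-th set while the other lanes are fixed. -/
def Q (D : Set (Fin 3 → ℝ)) (A : (Fin 3 → ℝ) → (Fin 3 → ℝ)) : Prop :=
  Realizes (fun j => if j = i₀ then D else cube (P j) W) (fun j x => if j = i₀ then A x else x)

variable {P W i₀}

theorem Q.trans {D D' : Set (Fin 3 → ℝ)} {A A' : (Fin 3 → ℝ) → (Fin 3 → ℝ)}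
    (h : Q P W i₀ D A) (h' : Q P W i₀ D' A') (hm : ∀ x ∈ D, A x ∈ D') :
    Q P W i₀ D (fun x => A' (A x)) := by
  refine (Realizes.trans h h' ?_).congr ?_
  · intro j x hx
    by_cases hj : j = i₀
    · subst hj
      simp only [if_true] at hx ⊢
      exact hm x hx
    · simp only [if_neg hj] at hx ⊢
      exact hx
  · intro j x _
    by_cases hj : j = i₀
    · simp [hj]
    · simp [hj]

theorem Q.congr {D : Set (Fin 3 → ℝ)} {A A' : (Fin 3 → ℝ) → (Fin 3 → ℝ)}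
    (h : Q P W i₀ D A) (he : ∀ x ∈ D, A x = A' x) : Q P W i₀ D A' := by
  refine Realizes.congr h ?_
  intro j x hx
  by_cases hj : j = i₀
  · subst hj
    simp only [if_true] at hx ⊢
    exact he x hx
  · simp [hj]

theorem Q_shear (hW : 0 ≤ W) (hlane : ∀ j, j ≠ i₀ → 2 * W + 1 ≤ |P i₀ 1 - P j 1|)
    {a b : Fin 3} (hab : a ≠ b) (κ : ℚ) {D : Set (Fin 3 → ℝ)} (hD : D ⊆ cube (P i₀) W)
    (hD' : ∀ x ∈ D, shearC a b κ (P i₀) x ∈ cube (P i₀) W) :
    Q P W i₀ D (shearC a b κ (P i₀)) := by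
  have hcube : ∀ x ∈ cube (P i₀) W, ∀ s, (((P i₀ s - W : ℚ) : ℝ)) ≤ x s ∧ x s ≤ ((P i₀ s + W : ℚ) : ℝ) := by
    intro x hx s
    have := abs_le.1 (hx s)
    push_cast
    constructor <;> linarith [this.1, this.2]
  refine realizes_move _ i₀ a b hab (-κ * P i₀ b) κ (fun s => P i₀ s - W) (fun s => P i₀ s + W)
    (fun l => by linarith) (1/4) (by norm_num) ?_ ?_ ?_
  · intro x hx s
    simp only [if_true] at hx
    exact hcube x (hD hx) s
  · intro x hx s
    simp only [if_true] at hx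
    exact hcube _ (hD' x hx) s
  · intro j hj x hx
    simp only [if_neg hj] at hx
    refine ⟨1, ?_⟩
    have h1 := abs_le.1 (hx 1)
    have h2 := hlane j hj
    unfold Far
    have h3 : (((2 * W + 1 : ℚ)) : ℝ) ≤ |((P i₀ 1 - P j 1 : ℚ) : ℝ)| := by
      have := (Rat.cast_le (K := ℝ)).2 h2
      rwa [Rat.cast_abs] at this
    push_cast at h3 ⊢
    rcases le_abs'.1 h3 with h | h
    · right; linarith [h1.1, h1.2]
    · left; linarith [h1.1, h1.2]

/-- the growth factor of the four shears -/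
def gr (ρ : ℚ) : ℚ := (1 + |(1:ℚ)|) * ((1 + |ρ - 1|) * ((1 + |-ρ⁻¹|) * (1 + |-((ρ - 1) * ρ)|)))

theorem one_le_gr (ρ : ℚ) : 1 ≤ gr ρ := by
  have h1 : (1:ℚ) ≤ 1 + |(1:ℚ)| := by simp
  have h2 : (1:ℚ) ≤ 1 + |ρ - 1| := by have := abs_nonneg (ρ - 1); linarith
  have h3 : (1:ℚ) ≤ 1 + |-ρ⁻¹| := by have := abs_nonneg (-ρ⁻¹); linarith
  have h4 : (1:ℚ) ≤ 1 + |-((ρ - 1) * ρ)| := by have := abs_nonneg (-((ρ - 1) * ρ)); linarith
  unfold gr
  calc (1:ℚ) = 1 * (1 * (1 * 1)) := by norm_num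
    _ ≤ _ := by gcongr

/-- A planar scaling centred at `C`. -/
noncomputable def scaleP (u v : Fin 3) (ρ : ℚ) (C : Fin 3 → ℚ) (x : Fin 3 → ℝ) : Fin 3 → ℝ :=
  fun l => if l = u then (C u : ℝ) + (ρ : ℝ) * (x u - (C u : ℝ))
    else if l = v then (C v : ℝ) + ((ρ⁻¹ : ℚ) : ℝ) * (x v - (C v : ℝ)) else x l

theorem shears_eq_scaleP {u v : Fin 3} (huv : u ≠ v) {ρ : ℚ} (hρ : 0 < ρ) (C : Fin 3 → ℚ)
    (x : Fin 3 → ℝ) :
    shearC u v 1 C (shearC v u (ρ - 1) C (shearC u v (-ρ⁻¹) C (shearC v u (-((ρ - 1) * ρ)) C x))) =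
      scaleP u v ρ C x := by
  have hρR : (ρ:ℝ) ≠ 0 := by exact_mod_cast hρ.ne'
  funext l
  simp only [shearC_apply, scaleP, if_neg huv, if_neg huv.symm, if_true, add_zero]
  by_cases hlu : l = u
  · subst hlu
    simp only [if_true, if_neg huv, add_zero]
    push_cast
    field_simp
    ring
  · by_cases hlv : l = v
    · subst hlv
      simp only [if_neg hlu, if_true, add_zero]
      push_cast
      field_simp
      ring
    · simp [hlu, hlv]

theorem Q_planar (hW : 0 ≤ W) (hlane : ∀ j, j ≠ i₀ → 2 * W + 1 ≤ |P i₀ 1 - P j 1|)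
    {u v : Fin 3} (huv : u ≠ v) {ρ : ℚ} (hρ : 0 < ρ) {B : ℚ} (hB : 0 ≤ B) (hBW : gr ρ * B ≤ W) :
    Q P W i₀ (cube (P i₀) B) (scaleP u v ρ (P i₀)) ∧
      ∀ x ∈ cube (P i₀) B, scaleP u v ρ (P i₀) x ∈ cube (P i₀) (gr ρ * B) := by
  set C := P i₀ with hC
  set d : ℚ := -((ρ - 1) * ρ) with hd
  set c : ℚ := -ρ⁻¹ with hc
  set b : ℚ := ρ - 1 with hb
  set B₁ : ℚ := (1 + |d|) * B with hB₁
  set B₂ : ℚ := (1 + |c|) * B₁ with hB₂
  set B₃ : ℚ := (1 + |b|) * B₂ with hB₃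
  set B₄ : ℚ := (1 + |(1:ℚ)|) * B₃ with hB₄
  have hle : ∀ (κ X : ℚ), 0 ≤ X → X ≤ (1 + |κ|) * X := by
    intro κ X hX
    have := abs_nonneg κ
    nlinarith
  have h0₁ : 0 ≤ B₁ := by rw [hB₁]; positivity
  have h0₂ : 0 ≤ B₂ := by rw [hB₂]; positivity
  have h0₃ : 0 ≤ B₃ := by rw [hB₃]; positivity
  have hl₁ : B ≤ B₁ := hle _ _ hB
  have hl₂ : B₁ ≤ B₂ := hle _ _ h0₁
  have hl₃ : B₂ ≤ B₃ := hle _ _ h0₂
  have hl₄ : B₃ ≤ B₄ := hle _ _ h0₃
  have hB₄W : B₄ ≤ W := by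
    have : B₄ = gr ρ * B := by
      simp only [hB₄, hB₃, hB₂, hB₁, gr, hb, hc, hd]
      ring
    rw [this]
    exact hBW
  have hg₁ : ∀ x ∈ cube C B, shearC v u d C x ∈ cube C B₁ := fun x hx => shearC_growth d hB hx
  have hg₂ : ∀ x ∈ cube C B₁, shearC u v c C x ∈ cube C B₂ := fun x hx => shearC_growth c h0₁ hx
  have hg₃ : ∀ x ∈ cube C B₂, shearC v u b C x ∈ cube C B₃ := fun x hx => shearC_growth b h0₂ hx
  have hg₄ : ∀ x ∈ cube C B₃, shearC u v 1 C x ∈ cube C B₄ := fun x hx => shearC_growth 1 h0₃ hx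
  have q1 : Q P W i₀ (cube C B) (shearC v u d C) :=
    Q_shear hW hlane huv.symm d (cube_mono (by linarith)) (fun x hx => cube_mono (by linarith) (hg₁ x hx))
  have q2 : Q P W i₀ (cube C B₁) (shearC u v c C) :=
    Q_shear hW hlane huv c (cube_mono (by linarith)) (fun x hx => cube_mono (by linarith) (hg₂ x hx))
  have q3 : Q P W i₀ (cube C B₂) (shearC v u b C) :=
    Q_shear hW hlane huv.symm b (cube_mono (by linarith)) (fun x hx => cube_mono (by linarith) (hg₃ x hx))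
  have q4 : Q P W i₀ (cube C B₃) (shearC u v 1 C) :=
    Q_shear hW hlane huv 1 (cube_mono (by linarith)) (fun x hx => cube_mono (by linarith) (hg₄ x hx))
  constructor
  · have q := ((q1.trans q2 hg₁).trans q3 (fun x hx => hg₂ _ (hg₁ x hx))).trans q4
      (fun x hx => hg₃ _ (hg₂ _ (hg₁ x hx)))
    exact q.congr (fun x _ => shears_eq_scaleP huv hρ C x)
  · intro x hx
    have h4 := hg₄ _ (hg₃ _ (hg₂ _ (hg₁ x hx)))
    rw [shears_eq_scaleP huv hρ C x] at h4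
    have : B₄ = gr ρ * B := by
      simp only [hB₄, hB₃, hB₂, hB₁, gr, hb, hc, hd]
      ring
    rwa [this] at h4

/-- The diagonal scaling centred at `C`. -/
noncomputable def scale3 (r C : Fin 3 → ℚ) (x : Fin 3 → ℝ) : Fin 3 → ℝ :=
  fun l => (C l : ℝ) + (r l : ℝ) * (x l - (C l : ℝ))

theorem scaleP_scaleP {r C : Fin 3 → ℚ} (hr : ∀ l, 0 < r l) (hprod : r 0 * r 1 * r 2 = 1)
    (x : Fin 3 → ℝ) :
    scaleP 1 2 (r 0 * r 1) C (scaleP 0 1 (r 0) C x) = scale3 r C x := by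
  have h0 : (r 0 : ℝ) ≠ 0 := by exact_mod_cast (hr 0).ne'
  have h1 : (r 1 : ℝ) ≠ 0 := by exact_mod_cast (hr 1).ne'
  have h2 : (r 2 : ℝ) ≠ 0 := by exact_mod_cast (hr 2).ne'
  have hp : (r 0 : ℝ) * r 1 * r 2 = 1 := by exact_mod_cast hprod
  funext l
  fin_cases l
  · simp [scaleP, scale3]
  · simp only [scaleP, scale3]
    simp
    field_simp
  · simp only [scaleP, scale3]
    simp
    have : (r 2 : ℝ) = ((r 0 : ℝ) * r 1)⁻¹ := by
      field_simp
      linarith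
    rw [this]
    field_simp
    simp

theorem Q_scale (hW : 0 ≤ W) (hlane : ∀ j, j ≠ i₀ → 2 * W + 1 ≤ |P i₀ 1 - P j 1|)
    {r : Fin 3 → ℚ} (hr : ∀ l, 0 < r l) (hprod : r 0 * r 1 * r 2 = 1) {B : ℚ} (hB : 0 ≤ B)
    (hBW : gr (r 0 * r 1) * (gr (r 0) * B) ≤ W) :
    Q P W i₀ (cube (P i₀) B) (scale3 r (P i₀)) := by
  have h1 : gr (r 0) * B ≤ W := by
    have h2 := one_le_gr (r 0 * r 1)
    have h3 : 0 ≤ gr (r 0) * B := mul_nonneg (by linarith [one_le_gr (r 0)]) hB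
    nlinarith
  have h3 : 0 ≤ gr (r 0) * B := mul_nonneg (by linarith [one_le_gr (r 0)]) hB
  obtain ⟨q1, hm⟩ := Q_planar (i₀ := i₀) (P := P) (W := W) hW hlane (u := 0) (v := 1) (by decide) (hr 0) hB h1
  obtain ⟨q2, -⟩ := Q_planar (i₀ := i₀) (P := P) (W := W) hW hlane (u := 1) (v := 2) (by decide)
    (mul_pos (hr 0) (hr 1)) h3 hBW
  exact (q1.trans q2 hm).congr (fun x _ => scaleP_scaleP hr hprod x)

end Lane

theorem box_subset_cube {C w : Fin 3 → ℚ} {B : ℚ} (h : ∀ l, w l ≤ B) : box C w ⊆ cube C B := by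
  intro x hx l
  have h1 := hx l
  have h2 : (w l : ℝ) ≤ B := by exact_mod_cast h l
  exact h1.trans h2

theorem scale3_mem_box {r C u u' : Fin 3 → ℚ} (hr : ∀ l, 0 < r l) (hu : ∀ l, u' l = r l * u l)
    {x : Fin 3 → ℝ} (hx : x ∈ box C u) : scale3 r C x ∈ box C u' := by
  intro l
  simp only [scale3]
  have h1 := hx l
  have h2 : (0:ℝ) < r l := by exact_mod_cast hr l
  have e : (C l : ℝ) + (r l : ℝ) * (x l - (C l : ℝ)) - (C l : ℝ) = (r l : ℝ) * (x l - (C l : ℝ)) := by ring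
  rw [e, abs_mul, abs_of_pos h2, hu l]
  push_cast
  exact mul_le_mul_of_nonneg_left h1 h2.le

/-- All boxes are rescaled, one lane after the other. -/
theorem scale_all {n : ℕ} (P : Fin n → Fin 3 → ℚ) (W : ℚ) (u u' r : Fin n → Fin 3 → ℚ) (B : Fin n → ℚ)
    (hW0 : 0 ≤ W) (hr : ∀ i l, 0 < r i l) (hprod : ∀ i, r i 0 * r i 1 * r i 2 = 1)
    (hu' : ∀ i l, u' i l = r i l * u i l) (hB0 : ∀ i, 0 ≤ B i) (hB : ∀ i l, u i l ≤ B i)
    (hW : ∀ i, gr (r i 0 * r i 1) * (gr (r i 0) * B i) ≤ W)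
    (hW1 : ∀ i l, u i l ≤ W) (hW2 : ∀ i l, u' i l ≤ W)
    (hlane : ∀ i j, i ≠ j → 2 * W + 1 ≤ |P i 1 - P j 1|) :
    Realizes (fun j => box (P j) (u j)) (fun j => scale3 (r j) (P j)) := by
  classical
  have key : ∀ S : Finset (Fin n), Realizes (fun j => box (P j) (u j))
      (fun j x => if j ∈ S then scale3 (r j) (P j) x else x) := by
    intro S
    induction S using Finset.induction_on with
    | empty =>
      refine (realizes_refl _).congr ?_
      intro i x _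
      simp
    | insert i₀ S hi₀ ih =>
      have hq : Q P W i₀ (cube (P i₀) (B i₀)) (scale3 (r i₀) (P i₀)) :=
        Q_scale hW0 (fun j hj => hlane i₀ j (Ne.symm hj)) (hr i₀) (hprod i₀) (hB0 i₀) (hW i₀)
      refine (Realizes.trans ih hq ?_).congr ?_
      · intro j x hx
        by_cases hj : j = i₀
        · subst hj
          simp only [hi₀, if_false, if_true]
          exact box_subset_cube (hB j) hx
        · simp only [if_neg hj]
          by_cases hjS : j ∈ S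
          · simp only [hjS, if_true]
            exact box_subset_cube (hW2 j) (scale3_mem_box (hr j) (hu' j) hx)
          · simp only [hjS, if_false]
            exact box_subset_cube (hW1 j) hx
      · intro j x _
        by_cases hj : j = i₀
        · subst hj
          simp [hi₀]
        · simp [hj]
  have h := key Finset.univ
  refine h.congr ?_
  intro i x _
  simp

end Crest.Agent.BoxFlowScale
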