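import Crest.Agent.Lib.SnakyBkCore

/-!
Backup for S0047: a kernel-evaluated checker of strategy certificates.  Cells are numbered `x + 16 y`,
cell sets are bitmasks stored in `Nat`s.
-/

set_option autoImplicit false
set_option linter.unreachableTactic false
set_option linter.unusedTactic false
set_option linter.unnecessarySeqFocus false

namespace Crest.Agent.SnakyBk

open Crest.CombinatoricsR.PolyominoGame

/-- The board cell with number `i`. -/
def cell (i : ℕ) : Cell := (((i % 16 : ℕ) : ℤ), ((i / 16 : ℕ) : ℤ))

lemma cell_inj {i j : ℕ} (h : cell i = cell j) : i = j := by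
  simp only [cell, Prod.mk.injEq, Nat.cast_inj] at h
  omega

/-- The cells of a bitmask. -/
def cells (m : ℕ) : Finset Cell :=
  ((Finset.range m).filter (fun i => m.testBit i = true)).image cell

lemma mem_cells {m : ℕ} {p : Cell} : p ∈ cells m ↔ ∃ i, m.testBit i = true ∧ cell i = p := by
  simp only [cells, Finset.mem_image, Finset.mem_filter, Finset.mem_range]
  constructor
  · rintro ⟨i, ⟨_, h⟩, rfl⟩
    exact ⟨i, h, rfl⟩
  · rintro ⟨i, h, rfl⟩
    refine ⟨i, ⟨?_, h⟩, rfl⟩
    have h1 : m ≥ 2 ^ i := Nat.ge_two_pow_of_testBit h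
    have h2 : i < 2 ^ i := Nat.lt_two_pow_self
    omega

lemma cell_mem {m i : ℕ} : cell i ∈ cells m ↔ m.testBit i = true := by
  rw [mem_cells]
  constructor
  · rintro ⟨j, h, e⟩
    rw [← cell_inj e]; exact h
  · intro h; exact ⟨i, h, rfl⟩

lemma cells_zero : cells 0 = ∅ := by
  ext p; simp [mem_cells]

/-! Fast primitives. -/

/-- The single-bit mask of `c`. -/
@[inline] def bit (c : ℕ) : ℕ := Nat.shiftLeft 1 c

/-- Bit test. -/
@[inline] def tb (m i : ℕ) : Bool := Nat.beq (Nat.land (Nat.shiftRight m i) 1) 1

/-- `a ⊆ m` on bitmasks. -/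
@[inline] def sb (a m : ℕ) : Bool := Nat.beq (Nat.lor a m) m

lemma tb_eq (m i : ℕ) : tb m i = m.testBit i := by
  have h : (Nat.land (Nat.shiftRight m i) 1) = (m >>> i) % 2 := by
    change (m >>> i) &&& 1 = (m >>> i) % 2
    exact Nat.and_one_is_mod _
  unfold tb
  rw [h, Nat.testBit]
  by_cases h2 : (m >>> i) % 2 = 1
  · rw [h2]
    have : (1 &&& m >>> i) = 1 := by
      rw [Nat.and_comm, Nat.and_one_is_mod, h2]
    simp [this]
  · have h3 : (m >>> i) % 2 = 0 := by omega
    rw [h3]
    have : (1 &&& m >>> i) = 0 := by
      rw [Nat.and_comm, Nat.and_one_is_mod, h3]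
    simp [this]
    rfl

lemma testBit_bit (c i : ℕ) : (bit c).testBit i = true ↔ i = c := by
  have : bit c = 2 ^ c := by
    change 1 <<< c = 2 ^ c
    exact Nat.one_shiftLeft c
  rw [this, Nat.testBit_two_pow]
  simp [eq_comm]

lemma testBit_lor (a b i : ℕ) : (Nat.lor a b).testBit i = (a.testBit i || b.testBit i) :=
  Nat.testBit_or a b i

lemma testBit_land (a b i : ℕ) : (Nat.land a b).testBit i = (a.testBit i && b.testBit i) :=
  Nat.testBit_and a b i

lemma sb_spec {a m : ℕ} (h : sb a m = true) {i : ℕ} (hi : a.testBit i = true) :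
    m.testBit i = true := by
  have h1 : Nat.lor a m = m := Nat.eq_of_beq_eq_true h
  rw [← h1, testBit_lor, hi]
  rfl

lemma cells_or_bit (m c : ℕ) : cells (Nat.lor m (bit c)) = insert (cell c) (cells m) := by
  ext p
  simp only [mem_cells, Finset.mem_insert, testBit_lor, Bool.or_eq_true, testBit_bit]
  constructor
  · rintro ⟨i, h | rfl, rfl⟩
    · exact Or.inr ⟨i, h, rfl⟩
    · exact Or.inl rfl
  · rintro (rfl | ⟨i, h, rfl⟩)
    · exact ⟨c, Or.inr rfl, rfl⟩
    · exact ⟨i, Or.inl h, rfl⟩

/-- Force the evaluation of a number. -/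
@[inline] def frc {α : Type} (n : ℕ) (k : ℕ → α) : α :=
  Nat.rec (motive := fun _ => α) (k 0) (fun m _ => k (Nat.succ m)) n

lemma frc_eq {α : Type} (n : ℕ) (k : ℕ → α) : frc n k = k n := by
  cases n <;> rfl

/-! Placements of the target. -/

/-- Bitmasks of the eight orientations, anchored at the corner of the bounding box. -/
def baseMask (o : ℕ) : ℕ :=
  match o with
  | 0 => 1572879
  | 1 => 196638
  | 2 => 983064
  | 3 => 1966083
  | 4 => 36894332576644268033
  | 5 => 18447588507229749250
  | 6 => 18447025552981426178
  | _ => 36894051105962655745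

/-- Width minus one of an orientation. -/
@[inline] def baseW (o : ℕ) : ℕ := Nat.add 1 (Nat.mul 3 (Nat.sub 1 (Nat.div o 4)))

/-- Does `m` contain the orientation `o` anchored at cell `t`? -/
def placed (o t m : ℕ) : Bool :=
  bif Nat.ble (Nat.add (Nat.land t 15) (baseW o)) 15 then
    sb (Nat.shiftLeft (baseMask o) t) m
  else false

lemma mem_of_bit {m t : ℕ} (qx qy : ℕ) (hw : t % 16 + qx < 16)
    (hb : m.testBit (t + (qx + 16 * qy)) = true) {a b : ℤ}
    (ha : a = ((t % 16 : ℕ) : ℤ) + qx) (hbb : b = ((t / 16 : ℕ) : ℤ) + qy) :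
    (a, b) ∈ (cells m : Set Cell) := by
  have h : cell (t + (qx + 16 * qy)) = (a, b) := by
    simp only [cell, ha, hbb, Prod.mk.injEq]
    constructor
    · omega
    · omega
  rw [Finset.mem_coe, ← h]
  exact cell_mem.mpr hb

lemma placed_bits {o t m : ℕ} (h : placed o t m = true) :
    t % 16 + baseW o ≤ 15 ∧ ∀ q, (baseMask o).testBit q = true → m.testBit (t + q) = true := by
  unfold placed at h
  cases hle : Nat.ble (Nat.add (Nat.land t 15) (baseW o)) 15 with
  | false => rw [hle] at h; simp at h
  | true =>
    rw [hle] at h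
    simp only [cond_true] at h
    constructor
    · have h1 : Nat.add (Nat.land t 15) (baseW o) ≤ 15 := Nat.le_of_ble_eq_true hle
      have h2 : Nat.land t 15 = t % 16 := by
        change t &&& 15 = t % 16
        exact Nat.and_two_pow_sub_one_eq_mod t 4
      rw [h2] at h1
      exact h1
    · intro q hq
      apply sb_spec h
      change ((baseMask o) <<< t).testBit (t + q) = true
      rw [Nat.testBit_shiftLeft]
      simp [hq]

lemma placed_copy {o t m : ℕ} (ho : o < 8) (h : placed o t m = true) :
    ContainsCopy (cells m : Set Cell) := by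
  obtain ⟨hw, hb⟩ := placed_bits h
  have hb' : ∀ qx qy, (baseMask o).testBit (qx + 16 * qy) = true →
      m.testBit (t + (qx + 16 * qy)) = true := fun qx qy hq => hb _ hq
  set tx : ℤ := ((t % 16 : ℕ) : ℤ) with htx
  set ty : ℤ := ((t / 16 : ℕ) : ℤ) with hty
  by_cases ho0 : o = 0
  · subst ho0
    have hw' : t % 16 + 4 ≤ 15 := hw
    refine ⟨(tx, ty), 1, 1, Or.inl rfl, Or.inl rfl, Or.inl ?_⟩
    intro p hp
    simp only [snaky, Finset.mem_insert, Finset.mem_singleton] at hp
    rcases hp with rfl | rfl | rfl | rfl | rfl | rfl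
    · exact mem_of_bit 0 0 (by omega) (hb' _ _ (by decide)) (by simp [htx]) (by simp [hty])
    · exact mem_of_bit 1 0 (by omega) (hb' _ _ (by decide)) (by simp [htx]) (by simp [hty])
    · exact mem_of_bit 2 0 (by omega) (hb' _ _ (by decide)) (by simp [htx]) (by simp [hty])
    · exact mem_of_bit 3 0 (by omega) (hb' _ _ (by decide)) (by simp [htx]) (by simp [hty])
    · exact mem_of_bit 3 1 (by omega) (hb' _ _ (by decide)) (by simp [htx]) (by simp [hty])
    · exact mem_of_bit 4 1 (by omega) (hb' _ _ (by decide)) (by simp [htx]) (by simp [hty])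
  by_cases ho1 : o = 1
  · subst ho1
    have hw' : t % 16 + 4 ≤ 15 := hw
    refine ⟨(tx + 4, ty), -1, 1, Or.inr rfl, Or.inl rfl, Or.inl ?_⟩
    intro p hp
    simp only [snaky, Finset.mem_insert, Finset.mem_singleton] at hp
    rcases hp with rfl | rfl | rfl | rfl | rfl | rfl
    · exact mem_of_bit 4 0 (by omega) (hb' _ _ (by decide)) (by simp [htx]) (by simp [hty])
    · exact mem_of_bit 3 0 (by omega) (hb' _ _ (by decide)) (by simp [htx] <;> ring) (by simp [hty])
    · exact mem_of_bit 2 0 (by omega) (hb' _ _ (by decide)) (by simp [htx] <;> ring) (by simp [hty])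
    · exact mem_of_bit 1 0 (by omega) (hb' _ _ (by decide)) (by simp [htx] <;> ring) (by simp [hty])
    · exact mem_of_bit 1 1 (by omega) (hb' _ _ (by decide)) (by simp [htx] <;> ring) (by simp [hty])
    · exact mem_of_bit 0 1 (by omega) (hb' _ _ (by decide)) (by simp [htx] <;> ring) (by simp [hty])
  by_cases ho2 : o = 2
  · subst ho2
    have hw' : t % 16 + 4 ≤ 15 := hw
    refine ⟨(tx, ty + 1), 1, -1, Or.inl rfl, Or.inr rfl, Or.inl ?_⟩
    intro p hp
    simp only [snaky, Finset.mem_insert, Finset.mem_singleton] at hp
    rcases hp with rfl | rfl | rfl | rfl | rfl | rfl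
    · exact mem_of_bit 0 1 (by omega) (hb' _ _ (by decide)) (by simp [htx]) (by simp [hty])
    · exact mem_of_bit 1 1 (by omega) (hb' _ _ (by decide)) (by simp [htx]) (by simp [hty])
    · exact mem_of_bit 2 1 (by omega) (hb' _ _ (by decide)) (by simp [htx]) (by simp [hty])
    · exact mem_of_bit 3 1 (by omega) (hb' _ _ (by decide)) (by simp [htx]) (by simp [hty])
    · exact mem_of_bit 3 0 (by omega) (hb' _ _ (by decide)) (by simp [htx]) (by simp [hty] <;> ring)
    · exact mem_of_bit 4 0 (by omega) (hb' _ _ (by decide)) (by simp [htx]) (by simp [hty] <;> ring)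
  by_cases ho3 : o = 3
  · subst ho3
    have hw' : t % 16 + 4 ≤ 15 := hw
    refine ⟨(tx + 4, ty + 1), -1, -1, Or.inr rfl, Or.inr rfl, Or.inl ?_⟩
    intro p hp
    simp only [snaky, Finset.mem_insert, Finset.mem_singleton] at hp
    rcases hp with rfl | rfl | rfl | rfl | rfl | rfl
    · exact mem_of_bit 4 1 (by omega) (hb' _ _ (by decide)) (by simp [htx]) (by simp [hty])
    · exact mem_of_bit 3 1 (by omega) (hb' _ _ (by decide)) (by simp [htx] <;> ring) (by simp [hty])
    · exact mem_of_bit 2 1 (by omega) (hb' _ _ (by decide)) (by simp [htx] <;> ring) (by simp [hty])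
    · exact mem_of_bit 1 1 (by omega) (hb' _ _ (by decide)) (by simp [htx] <;> ring) (by simp [hty])
    · exact mem_of_bit 1 0 (by omega) (hb' _ _ (by decide)) (by simp [htx] <;> ring) (by simp [hty] <;> ring)
    · exact mem_of_bit 0 0 (by omega) (hb' _ _ (by decide)) (by simp [htx] <;> ring) (by simp [hty] <;> ring)
  by_cases ho4 : o = 4
  · subst ho4
    have hw' : t % 16 + 1 ≤ 15 := hw
    refine ⟨(tx, ty), 1, 1, Or.inl rfl, Or.inl rfl, Or.inr ?_⟩
    intro p hp
    simp only [snaky, Finset.mem_insert, Finset.mem_singleton] at hp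
    rcases hp with rfl | rfl | rfl | rfl | rfl | rfl
    · exact mem_of_bit 0 0 (by omega) (hb' _ _ (by decide)) (by simp [htx]) (by simp [hty])
    · exact mem_of_bit 0 1 (by omega) (hb' _ _ (by decide)) (by simp [htx]) (by simp [hty])
    · exact mem_of_bit 0 2 (by omega) (hb' _ _ (by decide)) (by simp [htx]) (by simp [hty])
    · exact mem_of_bit 0 3 (by omega) (hb' _ _ (by decide)) (by simp [htx]) (by simp [hty])
    · exact mem_of_bit 1 3 (by omega) (hb' _ _ (by decide)) (by simp [htx]) (by simp [hty])
    · exact mem_of_bit 1 4 (by omega) (hb' _ _ (by decide)) (by simp [htx]) (by simp [hty])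
  by_cases ho5 : o = 5
  · subst ho5
    have hw' : t % 16 + 1 ≤ 15 := hw
    refine ⟨(tx + 1, ty), -1, 1, Or.inr rfl, Or.inl rfl, Or.inr ?_⟩
    intro p hp
    simp only [snaky, Finset.mem_insert, Finset.mem_singleton] at hp
    rcases hp with rfl | rfl | rfl | rfl | rfl | rfl
    · exact mem_of_bit 1 0 (by omega) (hb' _ _ (by decide)) (by simp [htx]) (by simp [hty])
    · exact mem_of_bit 1 1 (by omega) (hb' _ _ (by decide)) (by simp [htx]) (by simp [hty])
    · exact mem_of_bit 1 2 (by omega) (hb' _ _ (by decide)) (by simp [htx]) (by simp [hty])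
    · exact mem_of_bit 1 3 (by omega) (hb' _ _ (by decide)) (by simp [htx]) (by simp [hty])
    · exact mem_of_bit 0 3 (by omega) (hb' _ _ (by decide)) (by simp [htx] <;> ring) (by simp [hty])
    · exact mem_of_bit 0 4 (by omega) (hb' _ _ (by decide)) (by simp [htx] <;> ring) (by simp [hty])
  by_cases ho6 : o = 6
  · subst ho6
    have hw' : t % 16 + 1 ≤ 15 := hw
    refine ⟨(tx, ty + 4), 1, -1, Or.inl rfl, Or.inr rfl, Or.inr ?_⟩
    intro p hp
    simp only [snaky, Finset.mem_insert, Finset.mem_singleton] at hp
    rcases hp with rfl | rfl | rfl | rfl | rfl | rfl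
    · exact mem_of_bit 0 4 (by omega) (hb' _ _ (by decide)) (by simp [htx]) (by simp [hty])
    · exact mem_of_bit 0 3 (by omega) (hb' _ _ (by decide)) (by simp [htx]) (by simp [hty] <;> ring)
    · exact mem_of_bit 0 2 (by omega) (hb' _ _ (by decide)) (by simp [htx]) (by simp [hty] <;> ring)
    · exact mem_of_bit 0 1 (by omega) (hb' _ _ (by decide)) (by simp [htx]) (by simp [hty] <;> ring)
    · exact mem_of_bit 1 1 (by omega) (hb' _ _ (by decide)) (by simp [htx]) (by simp [hty] <;> ring)
    · exact mem_of_bit 1 0 (by omega) (hb' _ _ (by decide)) (by simp [htx]) (by simp [hty] <;> ring)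
  · obtain rfl : o = 7 := by omega
    have hw' : t % 16 + 1 ≤ 15 := hw
    refine ⟨(tx + 1, ty + 4), -1, -1, Or.inr rfl, Or.inr rfl, Or.inr ?_⟩
    intro p hp
    simp only [snaky, Finset.mem_insert, Finset.mem_singleton] at hp
    rcases hp with rfl | rfl | rfl | rfl | rfl | rfl
    · exact mem_of_bit 1 4 (by omega) (hb' _ _ (by decide)) (by simp [htx]) (by simp [hty])
    · exact mem_of_bit 1 3 (by omega) (hb' _ _ (by decide)) (by simp [htx]) (by simp [hty] <;> ring)
    · exact mem_of_bit 1 2 (by omega) (hb' _ _ (by decide)) (by simp [htx]) (by simp [hty] <;> ring)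
    · exact mem_of_bit 1 1 (by omega) (hb' _ _ (by decide)) (by simp [htx]) (by simp [hty] <;> ring)
    · exact mem_of_bit 0 1 (by omega) (hb' _ _ (by decide)) (by simp [htx] <;> ring) (by simp [hty] <;> ring)
    · exact mem_of_bit 0 0 (by omega) (hb' _ _ (by decide)) (by simp [htx] <;> ring) (by simp [hty] <;> ring)

noncomputable section

/-! The memo table of proved positions. -/

/-- A binary tree of proved positions. -/
inductive Memo
  | nil
  | leaf (n M B S : ℕ)
  | node (l r : Memo)

/-- Walk down to the entry of `id`. -/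
def Memo.find : Memo → ℕ → Memo
  | .node l r, id =>
    bif Nat.beq (Nat.land id 1) 0 then Memo.find l (Nat.shiftRight id 1)
    else Memo.find r (Nat.shiftRight id 1)
  | m, _ => m

/-- Evaluate a memo to head form, then continue. -/
def Memo.str (m : Memo) (k : Memo → Memo) : Memo :=
  match m with
  | .nil => k .nil
  | .leaf a b c d => k (.leaf a b c d)
  | .node l r => k (.node l r)

lemma Memo.str_eq (m : Memo) (k : Memo → Memo) : Memo.str m k = k m := by
  cases m <;> rfl

/-- Insert an entry at path `id` of length `d`. -/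
def Memo.ins : ℕ → Memo → ℕ → Memo → Memo
  | 0, _, _, e => e
  | d+1, .node l r, id, e =>
    bif Nat.beq (Nat.land id 1) 0 then
      Memo.str (Memo.ins d l (Nat.shiftRight id 1) e) (fun l' => .node l' r)
    else
      Memo.str (Memo.ins d r (Nat.shiftRight id 1) e) (fun r' => .node l r')
  | d+1, _, id, e =>
    bif Nat.beq (Nat.land id 1) 0 then
      Memo.str (Memo.ins d .nil (Nat.shiftRight id 1) e) (fun l' => .node l' .nil)
    else
      Memo.str (Memo.ins d .nil (Nat.shiftRight id 1) e) (fun r' => .node .nil r')

/-- `Good n M B S`: Maker wins with `n` claims from `(M, B)` even with extra Breaker cells off `S`. -/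
def Good (n M B S : ℕ) : Prop :=
  ∀ X : Finset Cell, (∀ x ∈ X, x ∉ cells S) → W n (cells M) (cells B ∪ X)

/-- All entries of a memo are proved. -/
def AllGood : Memo → Prop
  | .nil => True
  | .leaf n M B S => Good n M B S
  | .node l r => AllGood l ∧ AllGood r

lemma AllGood.find : ∀ {m : Memo} (_ : AllGood m) (id : ℕ), AllGood (Memo.find m id)
  | .nil, _, _ => trivial
  | .leaf _ _ _ _, h, _ => h
  | .node l r, h, id => by
    unfold Memo.find
    cases Nat.beq (Nat.land id 1) 0
    · exact AllGood.find h.2 _
    · exact AllGood.find h.1 _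

lemma AllGood.ins : ∀ (d : ℕ) {m e : Memo} (_ : AllGood m) (_ : AllGood e) (id : ℕ),
    AllGood (Memo.ins d m id e)
  | 0, _, _, _, he, _ => he
  | d+1, .nil, e, _, he, id => by
    unfold Memo.ins
    cases Nat.beq (Nat.land id 1) 0 <;> simp only [cond_true, cond_false, Memo.str_eq]
    · exact ⟨trivial, AllGood.ins d (m := .nil) trivial he _⟩
    · exact ⟨AllGood.ins d (m := .nil) trivial he _, trivial⟩
  | d+1, .leaf _ _ _ _, e, _, he, id => by
    unfold Memo.ins
    cases Nat.beq (Nat.land id 1) 0 <;> simp only [cond_true, cond_false, Memo.str_eq]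
    · exact ⟨trivial, AllGood.ins d (m := .nil) trivial he _⟩
    · exact ⟨AllGood.ins d (m := .nil) trivial he _, trivial⟩
  | d+1, .node l r, e, hm, he, id => by
    unfold Memo.ins
    cases Nat.beq (Nat.land id 1) 0 <;> simp only [cond_true, cond_false, Memo.str_eq]
    · exact ⟨hm.1, AllGood.ins d hm.2 he _⟩
    · exact ⟨AllGood.ins d hm.1 he _, hm.2⟩

/-! The certificate is a stream of byte tokens; what is read has no influence on soundness. -/

/-- Read one byte token from the stream; a chunk carries a sentinel top byte `1`. -/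
@[inline] def rdK {α : Type} (buf : ℕ) (rest : List ℕ) (k : ℕ → ℕ → List ℕ → α) : α :=
  bif Nat.ble buf 1 then
    List.rec (motive := fun _ => α) (k 255 1 [])
      (fun h t _ => frc (Nat.shiftRight h 8) fun b => k (Nat.land h 255) b t) rest
  else
    frc (Nat.shiftRight buf 8) fun b => k (Nat.land buf 255) b rest

lemma rdK_elim {α : Type} {P : α → Prop} {buf : ℕ} {rest : List ℕ} {k : ℕ → ℕ → List ℕ → α}
    (h : ∀ t b r, P (k t b r)) : P (rdK buf rest k) := by
  unfold rdK
  cases Nat.ble buf 1
  · simp only [cond_false, frc_eq]; exact h _ _ _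
  · cases rest with
    | nil => exact h _ _ _
    | cons a t => simp only [cond_true, frc_eq]; exact h _ _ _

/-- Read a three-byte little-endian number. -/
@[inline] def rd3 {α : Type} (buf : ℕ) (rest : List ℕ) (k : ℕ → ℕ → List ℕ → α) : α :=
  rdK buf rest fun a buf rest => rdK buf rest fun b buf rest => rdK buf rest fun c buf rest =>
    k (Nat.add a (Nat.add (Nat.mul b 256) (Nat.mul c 65536))) buf rest

lemma rd3_elim {α : Type} {P : α → Prop} {buf : ℕ} {rest : List ℕ} {k : ℕ → ℕ → List ℕ → α}
    (h : ∀ t b r, P (k t b r)) : P (rd3 buf rest k) :=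
  rdK_elim fun _ _ _ => rdK_elim fun _ _ _ => rdK_elim fun _ _ _ => h _ _ _

/-- The outcome of a check. -/
inductive Res
  | fail
  | ok (S buf : ℕ) (rest : List ℕ) (memo : Memo)

/-- Sequencing of checks. -/
@[inline] def Res.thn (r : Res) (k : ℕ → ℕ → List ℕ → Memo → Res) : Res :=
  Res.rec (motive := fun _ => Res) .fail k r

/-- The reply loop: `self B buf rest memo` checks a child at Breaker set `B`. -/
def kidsLoop (self : ℕ → ℕ → List ℕ → Memo → Res) (M' B sd : ℕ) :
    ℕ → ℕ → ℕ → ℕ → List ℕ → Memo → Res
  | 0, _, _, _, _, _ => .fail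
  | f+1, keys, acc, buf, rest, memo =>
    rdK buf rest fun r buf rest =>
      bif Nat.beq r 255 then
        bif sb sd (Nat.lor M' (Nat.lor B keys)) then .ok acc buf rest memo else .fail
      else
        Res.thn (self (Nat.lor B (bit r)) buf rest memo) fun s buf rest memo =>
          frc (Nat.lor acc s) fun acc =>
          frc (Nat.lor keys (bit r)) fun keys =>
            kidsLoop self M' B sd f keys acc buf rest memo

/-- A Maker move `c` followed by its sub-certificate. -/
def body (self : ℕ → ℕ → ℕ → List ℕ → Memo → Res) (M B c buf : ℕ) (rest : List ℕ) (memo : Memo) :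
    Res :=
  bif tb M c then .fail else bif tb B c then .fail else
  frc (Nat.lor M (bit c)) fun M' =>
  rdK buf rest fun w buf rest =>
    bif Nat.ble w 7 then
      rdK buf rest fun t buf rest =>
        bif placed w t M' then .ok (bit c) buf rest memo else .fail
    else
      Res.thn (self M' B buf rest memo) fun sd buf rest memo =>
        kidsLoop (self M') M' B sd 64 0 (Nat.lor (bit c) sd) buf rest memo

/-- One level of the checker. Tokens: a cell `< 253`, `253` (define a memo entry), `254` (use one). -/
def chkStep (n : ℕ) (self : ℕ → ℕ → ℕ → List ℕ → Memo → Res)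
    (M B buf : ℕ) (rest : List ℕ) (memo : Memo) : Res :=
  rdK buf rest fun c buf rest =>
    bif Nat.ble c 252 then body self M B c buf rest memo
    else bif Nat.beq c 253 then
      rd3 buf rest fun id buf rest =>
      rdK buf rest fun c buf rest =>
        Res.thn (body self M B c buf rest memo) fun S buf rest memo =>
          frc M fun M => frc B fun B => frc S fun S =>
            .ok S buf rest (Memo.ins 24 memo id (.leaf (Nat.succ n) M B S))
    else bif Nat.beq c 254 then
      rd3 buf rest fun id buf rest =>
        Memo.rec (motive := fun _ => Res) .fail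
          (fun n' M' B' S' =>
            bif Nat.ble n' (Nat.succ n) then
              bif sb M' M then
                bif sb (Nat.land B S') B' then .ok S' buf rest memo else .fail
              else .fail
            else .fail)
          (fun _ _ _ _ => .fail) (Memo.find memo id)
    else .fail

/-- The checker: `chk n M B buf rest memo` reads a certificate for `(n, M, B)`. -/
def chk (n : ℕ) : ℕ → ℕ → ℕ → List ℕ → Memo → Res :=
  Nat.rec (motive := fun _ => ℕ → ℕ → ℕ → List ℕ → Memo → Res)
    (fun _ _ _ _ _ => .fail) (fun n ih => chkStep n ih) n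

/-- What a check result promises. -/
def ResOK (n M B : ℕ) : Res → Prop
  | .fail => True
  | .ok S _ _ m => Good n M B S ∧ AllGood m

lemma ResOK_thn {P : Res → Prop} {r : Res} {k : ℕ → ℕ → List ℕ → Memo → Res} (hf : P .fail)
    (h : ∀ S b t m, r = .ok S b t m → P (k S b t m)) : P (Res.thn r k) := by
  cases r with
  | fail => exact hf
  | ok S b t m => exact h S b t m rfl

lemma cells_mono {a b : ℕ} (h : ∀ i, a.testBit i = true → b.testBit i = true) :
    cells a ⊆ cells b := by
  intro x hx
  obtain ⟨i, hi, rfl⟩ := mem_cells.1 hx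
  exact cell_mem.2 (h i hi)

/-- What the reply loop promises. -/
def KidsPost (n M' B sd acc : ℕ) : Res → Prop
  | .fail => True
  | .ok S _ _ m => AllGood m ∧ (∀ i, acc.testBit i = true → S.testBit i = true) ∧
      ∀ i, sd.testBit i = true → M'.testBit i = true ∨ B.testBit i = true ∨
        ∀ X : Finset Cell, (∀ x ∈ X, x ∉ cells S) →
          W n (cells M') (cells (Nat.lor B (bit i)) ∪ X)

lemma KidsPost.weaken {n M' B sd acc acc' : ℕ} {r : Res}
    (h : ∀ i, acc.testBit i = true → acc'.testBit i = true) (hr : KidsPost n M' B sd acc' r) :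
    KidsPost n M' B sd acc r := by
  cases r with
  | fail => trivial
  | ok S b t m => exact ⟨hr.1, fun i hi => hr.2.1 i (h i hi), hr.2.2⟩

lemma disj_of_mono {X : Finset Cell} {a b : ℕ} (h : ∀ i, a.testBit i = true → b.testBit i = true)
    (hX : ∀ x ∈ X, x ∉ cells b) : ∀ x ∈ X, x ∉ cells a :=
  fun x hx hxa => hX x hx (cells_mono h hxa)

lemma kidsLoop_sound {n : ℕ} {self : ℕ → ℕ → List ℕ → Memo → Res} {M' B sd : ℕ}
    (hself : ∀ B' buf rest memo, AllGood memo → ResOK n M' B' (self B' buf rest memo)) :
    ∀ (f keys acc buf : ℕ) (rest : List ℕ) (memo : Memo), AllGood memo →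
    (∀ i, keys.testBit i = true → ∀ X : Finset Cell, (∀ x ∈ X, x ∉ cells acc) →
      W n (cells M') (cells (Nat.lor B (bit i)) ∪ X)) →
    KidsPost n M' B sd acc (kidsLoop self M' B sd f keys acc buf rest memo) := by
  intro f
  induction f with
  | zero => intro _ _ _ _ _ _ _; trivial
  | succ f ih =>
    intro keys acc buf rest memo hm hk
    unfold kidsLoop
    refine rdK_elim (P := KidsPost n M' B sd acc) ?_
    intro r buf rest
    cases h255 : Nat.beq r 255
    · simp only [cond_false]
      refine ResOK_thn (P := KidsPost n M' B sd acc) trivial ?_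
      intro s buf' rest' memo' hs
      have hres := hself (Nat.lor B (bit r)) buf rest memo hm
      rw [hs] at hres
      simp only [frc_eq]
      have hacc : ∀ i, acc.testBit i = true → (Nat.lor acc s).testBit i = true := by
        intro i hi; rw [testBit_lor, hi]; rfl
      have hacc2 : ∀ i, s.testBit i = true → (Nat.lor acc s).testBit i = true := by
        intro i hi; rw [testBit_lor, hi, Bool.or_true]
      refine KidsPost.weaken hacc (ih _ _ _ _ _ hres.2 ?_)
      intro i hi X hX
      rw [testBit_lor, Bool.or_eq_true] at hi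
      rcases hi with hi | hi
      · exact hk i hi X (disj_of_mono hacc hX)
      · have : i = r := (testBit_bit _ _).1 hi
        subst this
        exact hres.1 X (disj_of_mono hacc2 hX)
    · simp only [cond_true]
      cases hsb : sb sd (Nat.lor M' (Nat.lor B keys))
      · exact trivial
      · refine ⟨hm, fun _ h => h, ?_⟩
        intro i hi
        have h1 := sb_spec hsb hi
        rw [testBit_lor, testBit_lor, Bool.or_eq_true, Bool.or_eq_true] at h1
        rcases h1 with h1 | h1 | h1
        · exact Or.inl h1
        · exact Or.inr (Or.inl h1)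
        · exact Or.inr (Or.inr (hk i h1))

lemma tb_false {m c : ℕ} (h : tb m c = false) : cell c ∉ cells m := by
  rw [cell_mem, ← tb_eq, h]
  simp

lemma body_sound {n : ℕ} {self : ℕ → ℕ → ℕ → List ℕ → Memo → Res}
    (hself : ∀ M B buf rest memo, AllGood memo → ResOK n M B (self M B buf rest memo))
    (M B c buf : ℕ) (rest : List ℕ) (memo : Memo) (hm : AllGood memo) :
    ResOK (n+1) M B (body self M B c buf rest memo) := by
  unfold body
  cases h1 : tb M c
  swap
  · exact trivial
  cases h2 : tb B c
  swap
  · exact trivial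
  simp only [cond_false, frc_eq]
  have hc1 := tb_false h1
  have hc2 := tb_false h2
  refine rdK_elim (P := ResOK (n+1) M B) ?_
  intro w buf rest
  cases h3 : Nat.ble w 7
  · simp only [cond_false]
    refine ResOK_thn (P := ResOK (n+1) M B) trivial ?_
    intro sd buf' rest' memo' hs
    have hres := hself (Nat.lor M (bit c)) B buf rest memo hm
    rw [hs] at hres
    have hk := kidsLoop_sound (n := n) (self := self (Nat.lor M (bit c))) (M' := Nat.lor M (bit c))
      (B := B) (sd := sd) (fun B' b t m hm => hself _ B' b t m hm) 64 0 (Nat.lor (bit c) sd)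
      buf' rest' memo' hres.2 (by intro i hi; simp at hi)
    revert hk
    generalize kidsLoop (self (Nat.lor M (bit c))) (Nat.lor M (bit c)) B sd 64 0 (Nat.lor (bit c) sd)
      buf' rest' memo' = R
    intro hk
    cases R with
    | fail => trivial
    | ok S b t m =>
      obtain ⟨hmm, hsup, hcov⟩ := hk
      refine ⟨?_, hmm⟩
      intro X hX
      have hcS : S.testBit c = true := by
        apply hsup
        rw [testBit_lor, (testBit_bit c c).2 rfl]
        rfl
      have hsdS : ∀ i, sd.testBit i = true → S.testBit i = true := by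
        intro i hi
        apply hsup
        rw [testBit_lor, hi, Bool.or_true]
      refine Or.inr ⟨cell c, hc1, ?_, ?_⟩
      · intro hmem
        rcases Finset.mem_union.1 hmem with hmem | hmem
        · exact hc2 hmem
        · exact hX _ hmem (cell_mem.2 hcS)
      · intro r hr hrB
        rw [← cells_or_bit]
        by_cases hrs : r ∈ cells sd
        · obtain ⟨i, hi, rfl⟩ := mem_cells.1 hrs
          rcases hcov i hi with hi2 | hi2 | hi2
          · exact absurd (by rw [← cells_or_bit]; exact cell_mem.2 hi2) hr
          · exact absurd (Finset.mem_union_left _ (cell_mem.2 hi2)) hrB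
          · have := hi2 X hX
            rw [cells_or_bit B i] at this
            rwa [Finset.insert_union] at this
        · have := hres.1 (insert r X) (by
            intro x hx
            rcases Finset.mem_insert.1 hx with rfl | hx
            · exact hrs
            · exact fun h => hX x hx (cells_mono hsdS h))
          rwa [Finset.union_insert] at this
  · simp only [cond_true]
    refine rdK_elim (P := ResOK (n+1) M B) ?_
    intro t buf rest
    cases h4 : placed w t (Nat.lor M (bit c))
    · exact trivial
    · simp only [cond_true]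
      refine ⟨?_, hm⟩
      intro X hX
      have hcopy := placed_copy (Nat.lt_succ_of_le (Nat.le_of_ble_eq_true h3)) h4
      refine Or.inr ⟨cell c, hc1, ?_, ?_⟩
      · intro hmem
        rcases Finset.mem_union.1 hmem with hmem | hmem
        · exact hc2 hmem
        · exact hX _ hmem (cell_mem.2 ((testBit_bit c c).2 rfl))
      · intro r _ _
        rw [← cells_or_bit]
        exact W_of_copy hcopy

lemma good_of_ref {n' M' B' S' n M B : ℕ} (h : Good n' M' B' S') (h1 : n' ≤ n)
    (h2 : sb M' M = true) (h3 : sb (Nat.land B S') B' = true) : Good n M B S' := by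
  intro X hX
  have hW := h ((cells B ∪ X) \ cells B') (by
    intro x hx hxS
    rw [Finset.mem_sdiff, Finset.mem_union] at hx
    rcases hx.1 with hB | hX'
    · obtain ⟨i, hi, rfl⟩ := mem_cells.1 hB
      refine hx.2 (cell_mem.2 (sb_spec h3 ?_))
      rw [testBit_land, hi, cell_mem.1 hxS]
      rfl
    · exact hX x hX' hxS)
  refine W_mono hW h1 (cells_mono (fun i hi => sb_spec h2 hi)) ?_
  intro x hx
  by_cases hxB : x ∈ cells B'
  · exact Finset.mem_union_left _ hxB
  · exact Finset.mem_union_right _ (Finset.mem_sdiff.2 ⟨hx, hxB⟩)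

theorem chk_sound : ∀ (n M B buf : ℕ) (rest : List ℕ) (memo : Memo), AllGood memo →
    ResOK n M B (chk n M B buf rest memo) := by
  intro n
  induction n with
  | zero => intro _ _ _ _ _ _; trivial
  | succ n ih =>
    intro M B buf rest memo hm
    change ResOK (n+1) M B (chkStep n (chk n) M B buf rest memo)
    unfold chkStep
    refine rdK_elim (P := ResOK (n+1) M B) ?_
    intro c buf rest
    cases h1 : Nat.ble c 252
    swap
    · simp only [cond_true]
      exact body_sound ih M B c buf rest memo hm
    simp only [cond_false]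
    cases h2 : Nat.beq c 253
    swap
    · simp only [cond_true]
      refine rd3_elim (P := ResOK (n+1) M B) ?_
      intro id buf rest
      refine rdK_elim (P := ResOK (n+1) M B) ?_
      intro c buf rest
      refine ResOK_thn (P := ResOK (n+1) M B) trivial ?_
      intro S buf' rest' memo' hs
      have hres := body_sound ih M B c buf rest memo hm
      rw [hs] at hres
      simp only [frc_eq]
      refine ⟨hres.1, AllGood.ins _ hres.2 ?_ _⟩
      exact hres.1
    simp only [cond_false]
    cases h3 : Nat.beq c 254
    swap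
    · simp only [cond_true]
      refine rd3_elim (P := ResOK (n+1) M B) ?_
      intro id buf rest
      have hf := AllGood.find hm id
      revert hf
      generalize Memo.find memo id = e
      intro hf
      cases e with
      | nil => trivial
      | node l r => trivial
      | leaf n' M' B' S' =>
        cases h4 : Nat.ble n' (Nat.succ n)
        · simp only [h4, cond_false]; trivial
        cases h5 : sb M' M
        · simp only [h4, h5, cond_true, cond_false]; trivial
        cases h6 : sb (Nat.land B S') B'
        · simp only [h4, h5, h6, cond_true, cond_false]; trivial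
        simp only [h4, h5, h6, cond_true]
        exact ⟨good_of_ref hf (Nat.le_of_ble_eq_true h4) h5 h6, hm⟩
    · simp only [cond_false]
      trivial

/-- A successful run from the empty memo proves the position. -/
theorem good_of_chk {n M B S buf : ℕ} {rest : List ℕ}
    (h : (match chk n M B buf rest .nil with
          | .fail => false
          | .ok S' _ _ _ => sb S' S) = true) : Good n M B S := by
  have hs := chk_sound n M B buf rest .nil trivial
  revert h hs
  generalize chk n M B buf rest .nil = R
  intro h hs
  cases R with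
  | fail => simp at h
  | ok S' b t m =>
    intro X hX
    exact hs.1 X (disj_of_mono (fun i hi => sb_spec h hi) hX)

/-- A successful run from a given memo. -/
theorem good_of_chk_memo {memo : Memo} (hm : AllGood memo) {n M B S buf : ℕ} {rest : List ℕ}
    (h : (match chk n M B buf rest memo with
          | .fail => false
          | .ok S' _ _ _ => sb S' S) = true) : Good n M B S := by
  have hs := chk_sound n M B buf rest memo hm
  revert h hs
  generalize chk n M B buf rest memo = R
  intro h hs
  cases R with
  | fail => simp at h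
  | ok S' b t m =>
    intro X hX
    exact hs.1 X (disj_of_mono (fun i hi => sb_spec h hi) hX)

end

end Crest.Agent.SnakyBk
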