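import Crest.Prelude.Def_PolyominoGame

/-!
Backup for S0047: the abstract game value `W`, its monotonicity, symmetry invariance and the extraction
of a policy from `W 21 ∅ ∅`.
-/

set_option autoImplicit false

namespace Crest.Agent.SnakyBk

open Crest.CombinatoricsR.PolyominoGame

abbrev Cell := ℤ × ℤ

lemma copy_mono {X Y : Set Cell} (h : X ⊆ Y) (hX : ContainsCopy X) : ContainsCopy Y := by
  obtain ⟨t, e1, e2, h1, h2, h3⟩ := hX
  refine ⟨t, e1, e2, h1, h2, ?_⟩
  rcases h3 with h3 | h3
  · exact Or.inl (fun p hp => h (h3 p hp))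
  · exact Or.inr (fun p hp => h (h3 p hp))

/-- `W n M B`: with at most `n` further Maker claims (Maker to move), Maker forces a copy. -/
def W : ℕ → Finset Cell → Finset Cell → Prop
  | 0, M, _ => ContainsCopy (M : Set Cell)
  | n+1, M, B => ContainsCopy (M : Set Cell) ∨
      ∃ c, c ∉ M ∧ c ∉ B ∧ ∀ r, r ∉ insert c M → r ∉ B → W n (insert c M) (insert r B)

lemma W_of_copy {n : ℕ} {M B : Finset Cell} (h : ContainsCopy (M : Set Cell)) : W n M B := by
  cases n with
  | zero => exact h
  | succ n => exact Or.inl h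

lemma exists_fresh (s : Finset Cell) : ∃ x, x ∉ s := Infinite.exists_notMem_finset s

/-- Monotonicity of the game value: more Maker cells, fewer Breaker cells, more moves. -/
lemma W_mono : ∀ {n : ℕ} {M B : Finset Cell}, W n M B → ∀ {n' : ℕ} {M' B' : Finset Cell},
    n ≤ n' → M ⊆ M' → B' ⊆ B → W n' M' B' := by
  intro n
  induction n with
  | zero =>
    intro M B h n' M' B' _ hM _
    exact W_of_copy (copy_mono (by exact_mod_cast hM) h)
  | succ n ih =>
    intro M B h n' M' B' hn hM hB
    rcases h with h | ⟨c, hcM, hcB, h⟩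
    · exact W_of_copy (copy_mono (by exact_mod_cast hM) h)
    · obtain ⟨n'', rfl⟩ : ∃ m, n' = m + 1 := ⟨n' - 1, by omega⟩
      have hn' : n ≤ n'' := by omega
      refine Or.inr ?_
      -- a reply inside `B` is handled through a fresh reply
      have key : ∀ c' : Cell, c' ∉ M' → c' ∉ B' → (c ∈ insert c' M') →
          ∀ r, r ∉ insert c' M' → r ∉ B' → W n'' (insert c' M') (insert r B') := by
        intro c' _ _ hc r hr hrB
        have hsub : insert c M ⊆ insert c' M' := by
          intro x hx
          rcases Finset.mem_insert.mp hx with rfl | hx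
          · exact hc
          · exact Finset.mem_insert_of_mem (hM hx)
        by_cases hrB' : r ∈ B
        · obtain ⟨r₀, hr₀⟩ := exists_fresh (insert c M ∪ B)
          have h1 : r₀ ∉ insert c M := fun h => hr₀ (Finset.mem_union_left _ h)
          have h2 : r₀ ∉ B := fun h => hr₀ (Finset.mem_union_right _ h)
          refine ih (h r₀ h1 h2) hn' hsub ?_
          intro x hx
          rcases Finset.mem_insert.mp hx with rfl | hx
          · exact Finset.mem_insert_of_mem hrB'
          · exact Finset.mem_insert_of_mem (hB hx)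
        · have h1 : r ∉ insert c M := fun hx => hr (hsub hx)
          refine ih (h r h1 hrB') hn' hsub ?_
          intro x hx
          rcases Finset.mem_insert.mp hx with rfl | hx
          · exact Finset.mem_insert_self _ _
          · exact Finset.mem_insert_of_mem (hB hx)
      by_cases hc : c ∈ M'
      · obtain ⟨c', hc'⟩ := exists_fresh (M' ∪ B')
        have h1 : c' ∉ M' := fun h => hc' (Finset.mem_union_left _ h)
        have h2 : c' ∉ B' := fun h => hc' (Finset.mem_union_right _ h)
        exact ⟨c', h1, h2, key c' h1 h2 (Finset.mem_insert_of_mem hc)⟩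
      · have h2 : c ∉ B' := fun h => hcB (hB h)
        exact ⟨c, hc, h2, key c hc h2 (Finset.mem_insert_self _ _)⟩

lemma W_step {n : ℕ} {M B : Finset Cell} (h : W (n+1) M B) :
    ∃ c, c ∉ M ∧ c ∉ B ∧ ∀ r, r ∉ insert c M → r ∉ B → W n (insert c M) (insert r B) := by
  rcases h with h | h
  · obtain ⟨c, hc⟩ := exists_fresh (M ∪ B)
    refine ⟨c, fun h => hc (Finset.mem_union_left _ h), fun h => hc (Finset.mem_union_right _ h), ?_⟩
    intro r _ _
    refine W_of_copy (copy_mono ?_ h)
    intro x hx
    simp only [Finset.coe_insert]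
    exact Set.mem_insert_of_mem _ hx
  · exact h

section policy
open Classical

/-- The policy's move at a state. -/
noncomputable def mv (n : ℕ) (M B : Finset Cell) : Cell :=
  if h : W (n+1) M B then (W_step h).choose else (exists_fresh (M ∪ B)).choose

lemma mv_legal (n : ℕ) (M B : Finset Cell) : mv n M B ∉ M ∧ mv n M B ∉ B := by
  unfold mv
  split_ifs with h
  · exact ⟨(W_step h).choose_spec.1, (W_step h).choose_spec.2.1⟩
  · have := (exists_fresh (M ∪ B)).choose_spec
    exact ⟨fun h => this (Finset.mem_union_left _ h), fun h => this (Finset.mem_union_right _ h)⟩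

lemma mv_next {n : ℕ} {M B : Finset Cell} (h : W (n+1) M B) (r : Cell)
    (h1 : r ∉ insert (mv n M B) M) (h2 : r ∉ B) :
    W n (insert (mv n M B) M) (insert r B) := by
  have e : mv n M B = (W_step h).choose := by unfold mv; rw [dif_pos h]
  rw [e] at h1 ⊢
  exact (W_step h).choose_spec.2.2 r h1 h2

/-- State after some replies: number of replies, Maker's cells, Breaker's cells. -/
noncomputable def nxt (s : ℕ × Finset Cell × Finset Cell) (r : Cell) : ℕ × Finset Cell × Finset Cell :=
  (s.1 + 1, insert (mv (20 - s.1) s.2.1 s.2.2) s.2.1, insert r s.2.2)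

noncomputable def runS (l : List Cell) : ℕ × Finset Cell × Finset Cell :=
  l.foldl nxt (0, ∅, ∅)

noncomputable def pol (l : List Cell) : Cell :=
  mv (20 - (runS l).1) (runS l).2.1 (runS l).2.2

theorem policy_of_W (h : W 21 ∅ ∅) :
    ∃ σ : List (ℤ × ℤ) → ℤ × ℤ, ∀ b : ℕ → ℤ × ℤ,
      (∀ k : ℕ, k < 20 →
        (∀ j : ℕ, j ≤ k → b k ≠ makerClaim σ b j) ∧
        (∀ j : ℕ, j < k → b k ≠ b j)) →
      (∀ k : ℕ, k ≤ 20 →
        (∀ j : ℕ, j < k → makerClaim σ b k ≠ makerClaim σ b j) ∧
        (∀ j : ℕ, j < k → makerClaim σ b k ≠ b j)) ∧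
      ContainsCopy {c | ∃ j : ℕ, j ≤ 20 ∧ c = makerClaim σ b j} := by
  refine ⟨pol, fun b hb => ?_⟩
  set S : ℕ → ℕ × Finset Cell × Finset Cell := fun k => runS ((List.range k).map b) with hS
  have hS0 : S 0 = (0, ∅, ∅) := by simp [hS, runS]
  have hSs : ∀ k, S (k+1) = nxt (S k) (b k) := by
    intro k
    simp [hS, runS, List.range_succ, List.foldl_append]
  have hS1 : ∀ k, (S k).1 = k := by
    intro k
    induction k with
    | zero => rw [hS0]
    | succ k ih => rw [hSs]; simp [nxt, ih]
  have hclaim : ∀ k, makerClaim pol b k = mv (20 - k) (S k).2.1 (S k).2.2 := by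
    intro k
    have := hS1 k
    simp only [hS] at this
    simp only [makerClaim, pol, hS, this]
  have hM : ∀ k x, x ∈ (S k).2.1 ↔ ∃ j, j < k ∧ x = makerClaim pol b j := by
    intro k
    induction k with
    | zero => intro x; rw [hS0]; simp
    | succ k ih =>
      intro x
      rw [hSs]
      simp only [nxt, hS1, Finset.mem_insert, ih, ← hclaim]
      constructor
      · rintro (rfl | ⟨j, hj, rfl⟩)
        · exact ⟨k, by omega, rfl⟩
        · exact ⟨j, by omega, rfl⟩
      · rintro ⟨j, hj, rfl⟩
        by_cases hjk : j = k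
        · subst hjk; exact Or.inl rfl
        · exact Or.inr ⟨j, by omega, rfl⟩
  have hB : ∀ k x, x ∈ (S k).2.2 ↔ ∃ j, j < k ∧ x = b j := by
    intro k
    induction k with
    | zero => intro x; rw [hS0]; simp
    | succ k ih =>
      intro x
      rw [hSs]
      simp only [nxt, Finset.mem_insert, ih]
      constructor
      · rintro (rfl | ⟨j, hj, rfl⟩)
        · exact ⟨k, by omega, rfl⟩
        · exact ⟨j, by omega, rfl⟩
      · rintro ⟨j, hj, rfl⟩
        by_cases hjk : j = k
        · subst hjk; exact Or.inl rfl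
        · exact Or.inr ⟨j, by omega, rfl⟩
  have hW : ∀ k, k ≤ 20 → W (21 - k) (S k).2.1 (S k).2.2 := by
    intro k
    induction k with
    | zero => intro _; rw [hS0]; exact h
    | succ k ih =>
      intro hk
      have h1 := ih (by omega)
      have e : 21 - k = (20 - k) + 1 := by omega
      rw [e] at h1
      have e2 : 21 - (k+1) = 20 - k := by omega
      rw [e2, hSs]
      simp only [nxt, hS1]
      apply mv_next h1
      · intro hmem
        rw [Finset.mem_insert] at hmem
        rcases hmem with hmem | hmem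
        · rw [← hclaim] at hmem
          exact (hb k (by omega)).1 k (le_refl _) hmem
        · obtain ⟨j, hj, hx⟩ := (hM k _).1 hmem
          exact (hb k (by omega)).1 j (by omega) hx
      · intro hmem
        obtain ⟨j, hj, hx⟩ := (hB k _).1 hmem
        exact (hb k (by omega)).2 j hj hx
  refine ⟨?_, ?_⟩
  · intro k _
    have hl := mv_legal (20 - k) (S k).2.1 (S k).2.2
    rw [← hclaim] at hl
    refine ⟨fun j hj e => hl.1 ((hM k _).2 ⟨j, hj, e⟩), fun j hj e => hl.2 ((hB k _).2 ⟨j, hj, e⟩)⟩
  · have h20 := hW 20 (le_refl _)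
    obtain ⟨r, hr⟩ := exists_fresh (insert (mv 0 (S 20).2.1 (S 20).2.2) (S 20).2.1 ∪ (S 20).2.2)
    have h0 := mv_next (n := 0) h20 r (fun h => hr (Finset.mem_union_left _ h))
      (fun h => hr (Finset.mem_union_right _ h))
    have hc : ContainsCopy
        ((insert (mv 0 (S 20).2.1 (S 20).2.2) (S 20).2.1 : Finset Cell) : Set Cell) := h0
    refine copy_mono ?_ hc
    intro x hx
    have hx' : x ∈ insert (mv 0 (S 20).2.1 (S 20).2.2) (S 20).2.1 := by exact_mod_cast hx
    rcases Finset.mem_insert.mp hx' with rfl | hx'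
    · exact ⟨20, le_refl _, (hclaim 20).symm⟩
    · obtain ⟨j, hj, e⟩ := (hM 20 _).1 hx'
      exact ⟨j, by omega, e⟩

end policy

/-! ### Symmetry -/

/-- A bijection of the board preserving copies. -/
def Pres (g : Cell ≃ Cell) : Prop := ∀ X : Set Cell, ContainsCopy X → ContainsCopy (g '' X)

lemma W_image {g : Cell ≃ Cell} (hg : Pres g) : ∀ (n : ℕ) (M B : Finset Cell), W n M B →
    W n (M.image g) (B.image g) := by
  intro n
  induction n with
  | zero =>
    intro M B h
    have := hg _ h
    simpa [W] using this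
  | succ n ih =>
    intro M B h
    rcases h with h | ⟨c, hcM, hcB, h⟩
    · exact W_of_copy (by simpa using hg _ h)
    · refine Or.inr ⟨g c, ?_, ?_, ?_⟩
      · simpa using hcM
      · simpa using hcB
      · intro r hr hrB
        have h1 : g.symm r ∉ insert c M := by
          intro hx
          apply hr
          rcases Finset.mem_insert.mp hx with hx | hx
          · rw [← hx]; simp
          · refine Finset.mem_insert_of_mem (Finset.mem_image.mpr ⟨_, hx, by simp⟩)
        have h2 : g.symm r ∉ B := by
          intro hx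
          exact hrB (Finset.mem_image.mpr ⟨_, hx, by simp⟩)
        have := ih _ _ (h _ h1 h2)
        simpa [Finset.image_insert] using this

/-- `(x, y) ↦ (a - x, y)`. -/
def reflX (a : ℤ) : Cell ≃ Cell where
  toFun p := (a - p.1, p.2)
  invFun p := (a - p.1, p.2)
  left_inv p := by ext <;> simp
  right_inv p := by ext <;> simp

/-- `(x, y) ↦ (x, a - y)`. -/
def reflY (a : ℤ) : Cell ≃ Cell where
  toFun p := (p.1, a - p.2)
  invFun p := (p.1, a - p.2)
  left_inv p := by ext <;> simp
  right_inv p := by ext <;> simp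

/-- `(x, y) ↦ (y, x)`. -/
def swapXY : Cell ≃ Cell where
  toFun p := (p.2, p.1)
  invFun p := (p.2, p.1)
  left_inv _ := rfl
  right_inv _ := rfl

lemma neg_sign {e : ℤ} (h : e = 1 ∨ e = -1) : -e = 1 ∨ -e = -1 := by
  rcases h with rfl | rfl <;> simp

lemma pres_reflX (a : ℤ) : Pres (reflX a) := by
  rintro X ⟨t, e1, e2, h1, h2, h3⟩
  refine ⟨(a - t.1, t.2), -e1, e2, neg_sign h1, h2, ?_⟩
  rcases h3 with h3 | h3
  · refine Or.inl fun p hp => ⟨_, h3 p hp, ?_⟩
    simp [reflX]; ring
  · refine Or.inr fun p hp => ⟨_, h3 p hp, ?_⟩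
    simp [reflX]; ring

lemma pres_reflY (a : ℤ) : Pres (reflY a) := by
  rintro X ⟨t, e1, e2, h1, h2, h3⟩
  refine ⟨(t.1, a - t.2), e1, -e2, h1, neg_sign h2, ?_⟩
  rcases h3 with h3 | h3
  · refine Or.inl fun p hp => ⟨_, h3 p hp, ?_⟩
    simp [reflY]; ring
  · refine Or.inr fun p hp => ⟨_, h3 p hp, ?_⟩
    simp [reflY]; ring

lemma pres_swapXY : Pres swapXY := by
  rintro X ⟨t, e1, e2, h1, h2, h3⟩
  refine ⟨(t.2, t.1), e2, e1, h2, h1, ?_⟩
  rcases h3 with h3 | h3
  · refine Or.inr fun p hp => ⟨_, h3 p hp, ?_⟩
    simp [swapXY]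
  · refine Or.inl fun p hp => ⟨_, h3 p hp, ?_⟩
    simp [swapXY]

/-- The centre used by certificates. -/
def c0 : Cell := (7, 7)

lemma sym_of_W (n : ℕ) {g : Cell ≃ Cell} (hg : Pres g) (h0 : g c0 = c0)
    (hinv : ∀ x, g (g x) = x) {r : Cell} (h : W n {c0} {g r}) : W n {c0} {r} := by
  have := W_image hg n _ _ h
  simpa [h0, hinv] using this

/-- Reduce a reply to the sector `7 ≤ y ≤ x`. -/
lemma sector_reduce (n : ℕ)
    (hsec : ∀ r : Cell, r ≠ c0 → 7 ≤ r.2 → r.2 ≤ r.1 → W n {c0} {r}) :
    ∀ r : Cell, r ≠ c0 → W n {c0} {r} := by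
  have hX : ∀ r : Cell, r ≠ c0 → 7 ≤ r.2 → W n {c0} {r} := by
    intro r hr h2
    by_cases h3 : r.2 ≤ r.1
    · exact hsec r hr h2 h3
    · by_cases h1 : 7 ≤ r.1
      · apply sym_of_W n pres_swapXY (by simp [swapXY, c0]) (fun _ => rfl)
        apply hsec
        · intro e; apply hr
          have : r = swapXY c0 := by rw [← e]; rfl
          rw [this]; simp [swapXY, c0]
        · exact h1
        · simp only [swapXY, Equiv.coe_fn_mk]; omega
      · -- x < 7, reflect in x first
        apply sym_of_W n (pres_reflX 14) (by simp [reflX, c0]) (fun x => (reflX 14).left_inv x)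
        by_cases h4 : r.2 ≤ 14 - r.1
        · apply hsec
          · intro e; apply hr
            have e1 := congrArg Prod.fst e
            have e2 := congrArg Prod.snd e
            simp only [reflX, c0, Equiv.coe_fn_mk] at e1 e2
            ext <;> simp only [c0] <;> omega
          · exact h2
          · simpa [reflX] using h4
        · apply sym_of_W n pres_swapXY (by simp [swapXY, c0]) (fun _ => rfl)
          apply hsec
          · intro e; apply hr
            have e1 := congrArg Prod.fst e
            have e2 := congrArg Prod.snd e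
            simp only [reflX, swapXY, c0, Equiv.coe_fn_mk] at e1 e2
            ext <;> simp only [c0] <;> omega
          · simp only [reflX, swapXY, Equiv.coe_fn_mk]; omega
          · simp only [reflX, swapXY, Equiv.coe_fn_mk]; omega
  intro r hr
  by_cases h2 : 7 ≤ r.2
  · exact hX r hr h2
  · apply sym_of_W n (pres_reflY 14) (by simp [reflY, c0]) (fun x => (reflY 14).left_inv x)
    apply hX
    · intro e; apply hr
      have e1 := congrArg Prod.fst e
      have e2 := congrArg Prod.snd e
      simp only [reflY, c0, Equiv.coe_fn_mk] at e1 e2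
      ext <;> simp only [c0] <;> omega
    · simp only [reflY, Equiv.coe_fn_mk]; omega

end Crest.Agent.SnakyBk
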