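import Crest.Agent.Lib.SnakyBkCheck

/-!
Backup for S0047: an optimised certificate checker (small top-level steps, so that the kernel rebuilds
little at each step), with forced-reply nodes.
-/

set_option autoImplicit false

namespace Crest.Agent.SnakyBk

open Crest.CombinatoricsR.PolyominoGame

noncomputable section

/-- Packed masks, 72 bits each. -/
def maskLit : ℕ :=
  nat_lit 0x200020002000300010100010001000300020100030002000200020200030001000100010000000000001e00030000000000000f001800000000000003001e00000000000018000f

/-- The mask of an orientation. -/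
def maskF (o : ℕ) : ℕ :=
  Nat.land (Nat.shiftRight maskLit (Nat.mul o (nat_lit 72))) (nat_lit 0xffffffffffffffffff)

lemma maskF_eq {o : ℕ} (ho : o < 8) : maskF o = baseMask o := by
  interval_cases o <;> decide +kernel

/-- Placement test. -/
def placedF (o t m : ℕ) : Bool :=
  Bool.rec (motive := fun _ => Bool) false
    (Nat.beq (Nat.lor (Nat.shiftLeft (maskF o) t) m) m)
    (Nat.ble (Nat.add (Nat.land t (nat_lit 15))
      (Nat.add (nat_lit 1) (Nat.mul (nat_lit 3) (Nat.sub (nat_lit 1) (Nat.div o (nat_lit 4))))))
      (nat_lit 15))

lemma boolrec_false_eq (x a : Bool) : Bool.rec (motive := fun _ => Bool) false a x = cond x a false := by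
  cases x <;> rfl

lemma placedF_eq {o t m : ℕ} (ho : o < 8) : placedF o t m = placed o t m := by
  unfold placedF placed
  rw [maskF_eq ho]
  exact boolrec_false_eq _ _

/-- Win after the move `c`. -/
def leafF (c M' o t buf : ℕ) (rest : List ℕ) (memo : Memo) : Res :=
  Bool.rec (motive := fun _ => Res) Res.fail
    (Res.ok (Nat.shiftLeft (nat_lit 1) c) buf rest memo) (placedF o t M')

/-- End of the reply list: every cell in all the default and alternative trees is taken or has a
reply tree. -/
def kidsEnd (M' B sd keys acc buf : ℕ) (rest : List ℕ) (memo : Memo) : Res :=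
  Bool.rec (motive := fun _ => Res) Res.fail (Res.ok acc buf rest memo)
    (Nat.beq (Nat.lor sd (Nat.lor M' (Nat.lor B keys))) (Nat.lor M' (Nat.lor B keys)))

/-- One reply. -/
def kids2 (ih : ℕ → ℕ → ℕ → ℕ → List ℕ → Memo → Res) (self' : ℕ → ℕ → List ℕ → Memo → Res)
    (B sd keys acc r buf : ℕ) (rest : List ℕ) (memo : Memo) : Res :=
  Res.rec (motive := fun _ => Res) Res.fail
    (fun s buf rest memo =>
      ih sd (Nat.lor keys (Nat.shiftLeft (nat_lit 1) r)) (Nat.lor acc s) buf rest memo)
    (self' (Nat.lor B (Nat.shiftLeft (nat_lit 1) r)) buf rest memo)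

/-- One alternative tree: it works against every reply outside its support. -/
def kidsAlt (ih : ℕ → ℕ → ℕ → ℕ → List ℕ → Memo → Res) (self' : ℕ → ℕ → List ℕ → Memo → Res)
    (B sd keys acc buf : ℕ) (rest : List ℕ) (memo : Memo) : Res :=
  Res.rec (motive := fun _ => Res) Res.fail
    (fun s buf rest memo => ih (Nat.land sd s) keys (Nat.lor acc s) buf rest memo)
    (self' B buf rest memo)

/-- Dispatch on the reply token. -/
def kids1 (ih : ℕ → ℕ → ℕ → ℕ → List ℕ → Memo → Res) (self' : ℕ → ℕ → List ℕ → Memo → Res)
    (M' B sd keys acc r buf : ℕ) (rest : List ℕ) (memo : Memo) : Res :=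
  Bool.rec (motive := fun _ => Res)
    (Bool.rec (motive := fun _ => Res) (kids2 ih self' B sd keys acc r buf rest memo)
      (kidsAlt ih self' B sd keys acc buf rest memo) (Nat.beq r (nat_lit 254)))
    (kidsEnd M' B sd keys acc buf rest memo) (Nat.beq r (nat_lit 255))

/-- Read a reply token. -/
def kidsStep (ih : ℕ → ℕ → ℕ → ℕ → List ℕ → Memo → Res) (self' : ℕ → ℕ → List ℕ → Memo → Res)
    (M' B sd keys acc buf : ℕ) (rest : List ℕ) (memo : Memo) : Res :=
  Bool.rec (motive := fun _ => Res)
    (kids1 ih self' M' B sd keys acc (Nat.land buf (nat_lit 255)) (Nat.shiftRight buf (nat_lit 8)) rest memo)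
    (List.rec (motive := fun _ => Res) Res.fail
      (fun h t _ => kids1 ih self' M' B sd keys acc (Nat.land h (nat_lit 255))
        (Nat.shiftRight h (nat_lit 8)) t memo) rest)
    (Nat.ble buf (nat_lit 1))

/-- The reply loop. -/
def kidsF (self' : ℕ → ℕ → List ℕ → Memo → Res) (M' B f : ℕ) :
    ℕ → ℕ → ℕ → ℕ → List ℕ → Memo → Res :=
  Nat.rec (motive := fun _ => ℕ → ℕ → ℕ → ℕ → List ℕ → Memo → Res)
    (fun _ _ _ _ _ _ => Res.fail) (fun _ ih sd => kidsStep ih self' M' B sd) f

/-- General interior node. -/
def generalF (self : ℕ → ℕ → ℕ → List ℕ → Memo → Res) (B c M' buf : ℕ) (rest : List ℕ)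
    (memo : Memo) : Res :=
  Res.rec (motive := fun _ => Res) Res.fail
    (fun sd buf rest memo => kidsF (self M') M' B (nat_lit 260) sd (nat_lit 0)
      (Nat.lor (Nat.shiftLeft (nat_lit 1) c) sd) buf rest memo)
    (self M' B buf rest memo)

/-- Forced reply node: after `c`, placement `(o, t)` lacks only `z`. -/
def threatF (self : ℕ → ℕ → ℕ → List ℕ → Memo → Res) (B c M' o t z buf : ℕ) (rest : List ℕ)
    (memo : Memo) : Res :=
  Bool.rec (motive := fun _ => Res) Res.fail
    (Res.rec (motive := fun _ => Res) Res.fail
      (fun s buf rest memo =>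
        Res.ok (Nat.lor (Nat.lor (Nat.shiftLeft (nat_lit 1) c) (Nat.shiftLeft (nat_lit 1) z)) s)
          buf rest memo)
      (self M' (Nat.lor B (Nat.shiftLeft (nat_lit 1) z)) buf rest memo))
    (Bool.rec (motive := fun _ => Bool) false
      (placedF o t (Nat.lor M' (Nat.shiftLeft (nat_lit 1) z)))
      (Nat.beq (Nat.land (Nat.shiftRight (Nat.lor M' B) z) (nat_lit 1)) (nat_lit 0)))

/-- After reading the move: dispatch on the node type. -/
def interiorF (self : ℕ → ℕ → ℕ → List ℕ → Memo → Res) (B c M' w buf : ℕ) (rest : List ℕ)
    (memo : Memo) : Res :=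
  Bool.rec (motive := fun _ => Res)
    (Bool.rec (motive := fun _ => Res) Res.fail
      (threatF self B c M' (Nat.sub w (nat_lit 16)) (Nat.land buf (nat_lit 255))
        (Nat.land (Nat.shiftRight buf (nat_lit 8)) (nat_lit 255))
        (Nat.shiftRight buf (nat_lit 16)) rest memo)
      (Nat.ble w (nat_lit 23)))
    (generalF self B c M' buf rest memo)
    (Nat.ble w (nat_lit 8))

/-- Read the node type. -/
def plain2F (self : ℕ → ℕ → ℕ → List ℕ → Memo → Res) (B c M' buf : ℕ) (rest : List ℕ)
    (memo : Memo) : Res :=
  Bool.rec (motive := fun _ => Res)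
    (interiorF self B c M' (Nat.land buf (nat_lit 255)) (Nat.shiftRight buf (nat_lit 8)) rest memo)
    (leafF c M' (Nat.land buf (nat_lit 255))
      (Nat.land (Nat.shiftRight buf (nat_lit 8)) (nat_lit 255)) (Nat.shiftRight buf (nat_lit 16)) rest memo)
    (Nat.ble (Nat.land buf (nat_lit 255)) (nat_lit 7))

/-- A Maker move. -/
def plainF (self : ℕ → ℕ → ℕ → List ℕ → Memo → Res) (M B c buf : ℕ) (rest : List ℕ)
    (memo : Memo) : Res :=
  Bool.rec (motive := fun _ => Res) Res.fail
    (plain2F self B c (Nat.lor M (Nat.shiftLeft (nat_lit 1) c)) buf rest memo)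
    (Nat.beq (Nat.land (Nat.shiftRight (Nat.lor M B) c) (nat_lit 1)) (nat_lit 0))

/-- Memo definitions and uses. -/
def specialF (n : ℕ) (self : ℕ → ℕ → ℕ → List ℕ → Memo → Res) (M B c buf : ℕ) (rest : List ℕ)
    (memo : Memo) : Res :=
  bif Nat.beq c 253 then
      rd3 buf rest fun id buf rest =>
      rdK buf rest fun c buf rest =>
        Res.thn (plainF self M B c buf rest memo) fun S buf rest memo =>
          frc M fun M => frc B fun B => frc S fun S =>
            .ok S buf rest (Memo.ins 24 memo id (.leaf (Nat.succ n) M B S))
  else bif Nat.beq c 254 then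
      rd3 buf rest fun id buf rest =>
        Memo.rec (motive := fun _ => Res) .fail
          (fun n' M' B' S' =>
            bif Nat.ble n' (Nat.succ n) then
              bif sb M' M then
                bif sb (Nat.land B S') B' then .ok S' buf rest memo else .fail
              else .fail
            else .fail)
          (fun _ _ _ _ => .fail) (Memo.find memo id)
  else .fail

/-- Dispatch on the first token of a tree. -/
def dispatchF (n : ℕ) (self : ℕ → ℕ → ℕ → List ℕ → Memo → Res) (M B c buf : ℕ) (rest : List ℕ)
    (memo : Memo) : Res :=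
  Bool.rec (motive := fun _ => Res) (specialF n self M B c buf rest memo)
    (plainF self M B c buf rest memo) (Nat.ble c (nat_lit 252))

/-- Entry of a tree. -/
def entF (n : ℕ) (self : ℕ → ℕ → ℕ → List ℕ → Memo → Res) (M B buf : ℕ) (rest : List ℕ)
    (memo : Memo) : Res :=
  Bool.rec (motive := fun _ => Res)
    (dispatchF n self M B (Nat.land buf (nat_lit 255)) (Nat.shiftRight buf (nat_lit 8)) rest memo)
    (List.rec (motive := fun _ => Res) Res.fail
      (fun h t _ => dispatchF n self M B (Nat.land h (nat_lit 255)) (Nat.shiftRight h (nat_lit 8)) t memo)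
      rest)
    (Nat.ble buf (nat_lit 1))

/-- The fast checker. -/
def chkF (n : ℕ) : ℕ → ℕ → ℕ → List ℕ → Memo → Res :=
  Nat.rec (motive := fun _ => ℕ → ℕ → ℕ → List ℕ → Memo → Res)
    (fun _ _ _ _ _ => Res.fail) (fun n ih => entF n ih) n

/-! ### Soundness -/

section Sound

variable {n : ℕ} {self : ℕ → ℕ → ℕ → List ℕ → Memo → Res}

lemma bit_eq (c : ℕ) : Nat.shiftLeft (nat_lit 1) c = bit c := rfl

/-- What the reply loop promises. -/
def AltPost (n M' B acc : ℕ) : Res → Prop
  | .fail => True
  | .ok S _ _ m => AllGood m ∧ (∀ i, acc.testBit i = true → S.testBit i = true) ∧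
      ∀ r : Cell, r ∉ cells M' → r ∉ cells B → ∀ X : Finset Cell, (∀ x ∈ X, x ∉ cells S) →
        W n (cells M') (insert r (cells B ∪ X))

lemma AltPost.weaken {n M' B acc acc' : ℕ} {r : Res}
    (h : ∀ i, acc.testBit i = true → acc'.testBit i = true) (hr : AltPost n M' B acc' r) :
    AltPost n M' B acc r := by
  cases r with
  | fail => trivial
  | ok S b t m => exact ⟨hr.1, fun i hi => hr.2.1 i (h i hi), hr.2.2⟩

lemma kidsF_sound {self' : ℕ → ℕ → List ℕ → Memo → Res} {M' B : ℕ}
    (hself : ∀ B' buf rest memo, AllGood memo → ResOK n M' B' (self' B' buf rest memo)) :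
    ∀ (f sd keys acc buf : ℕ) (rest : List ℕ) (memo : Memo), AllGood memo →
    (∀ i, keys.testBit i = true → ∀ X : Finset Cell, (∀ x ∈ X, x ∉ cells acc) →
      W n (cells M') (cells (Nat.lor B (bit i)) ∪ X)) →
    (∀ r : Cell, r ∉ cells sd → ∀ X : Finset Cell, (∀ x ∈ X, x ∉ cells acc) →
      W n (cells M') (insert r (cells B ∪ X))) →
    AltPost n M' B acc (kidsF self' M' B f sd keys acc buf rest memo) := by
  intro f
  induction f with
  | zero => intro _ _ _ _ _ _ _ _ _; trivial
  | succ f ih =>
    intro sd keys acc buf rest memo hm hk ha
    change AltPost n M' B acc (kidsStep (kidsF self' M' B f) self' M' B sd keys acc buf rest memo)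
    have main : ∀ (r buf : ℕ) (rest : List ℕ),
        AltPost n M' B acc (kids1 (kidsF self' M' B f) self' M' B sd keys acc r buf rest memo) := by
      intro r buf rest
      unfold kids1
      cases h255 : Nat.beq r (nat_lit 255)
      · cases h254 : Nat.beq r (nat_lit 254)
        · change AltPost n M' B acc (kids2 _ self' B sd keys acc r buf rest memo)
          unfold kids2
          have hres := hself (Nat.lor B (Nat.shiftLeft (nat_lit 1) r)) buf rest memo hm
          revert hres
          cases self' (Nat.lor B (Nat.shiftLeft (nat_lit 1) r)) buf rest memo with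
          | fail => intro _; trivial
          | ok s buf' rest' memo' =>
            intro hres
            have hacc : ∀ i, acc.testBit i = true → (Nat.lor acc s).testBit i = true := by
              intro i hi; rw [testBit_lor, hi]; rfl
            have hacc2 : ∀ i, s.testBit i = true → (Nat.lor acc s).testBit i = true := by
              intro i hi; rw [testBit_lor, hi, Bool.or_true]
            refine AltPost.weaken hacc (ih _ _ _ _ _ _ hres.2 ?_ ?_)
            · intro i hi X hX
              rw [testBit_lor, Bool.or_eq_true] at hi
              rcases hi with hi | hi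
              · exact hk i hi X (disj_of_mono hacc hX)
              · have : i = r := (testBit_bit _ _).1 hi
                subst this
                exact hres.1 X (disj_of_mono hacc2 hX)
            · intro r' hr' X hX
              exact ha r' hr' X (disj_of_mono hacc hX)
        · change AltPost n M' B acc (kidsAlt _ self' B sd keys acc buf rest memo)
          unfold kidsAlt
          have hres := hself B buf rest memo hm
          revert hres
          cases self' B buf rest memo with
          | fail => intro _; trivial
          | ok s buf' rest' memo' =>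
            intro hres
            have hacc : ∀ i, acc.testBit i = true → (Nat.lor acc s).testBit i = true := by
              intro i hi; rw [testBit_lor, hi]; rfl
            have hacc2 : ∀ i, s.testBit i = true → (Nat.lor acc s).testBit i = true := by
              intro i hi; rw [testBit_lor, hi, Bool.or_true]
            refine AltPost.weaken hacc (ih _ _ _ _ _ _ hres.2 ?_ ?_)
            · intro i hi X hX
              exact hk i hi X (disj_of_mono hacc hX)
            · intro r' hr' X hX
              by_cases h1 : r' ∈ cells sd
              · have h2 : r' ∉ cells s := by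
                  intro h2
                  apply hr'
                  obtain ⟨i, hi, rfl⟩ := mem_cells.1 h1
                  have h3 : s.testBit i = true := cell_mem.1 h2
                  apply cell_mem.2
                  rw [testBit_land, hi, h3]
                  rfl
                have := hres.1 (insert r' X) (by
                  intro x hx
                  rcases Finset.mem_insert.1 hx with rfl | hx
                  · exact h2
                  · exact fun h => hX x hx (cells_mono hacc2 h))
                rwa [Finset.union_insert] at this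
              · exact ha r' h1 X (disj_of_mono hacc hX)
      · change AltPost n M' B acc (kidsEnd M' B sd keys acc buf rest memo)
        unfold kidsEnd
        cases hsb : Nat.beq (Nat.lor sd (Nat.lor M' (Nat.lor B keys))) (Nat.lor M' (Nat.lor B keys))
        · exact trivial
        · refine ⟨hm, fun _ h => h, ?_⟩
          intro r hrM hrB X hX
          by_cases hrs : r ∈ cells sd
          · obtain ⟨i, hi, rfl⟩ := mem_cells.1 hrs
            have h1 := sb_spec (a := sd) (m := Nat.lor M' (Nat.lor B keys)) hsb hi
            rw [testBit_lor, testBit_lor, Bool.or_eq_true, Bool.or_eq_true] at h1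
            rcases h1 with h1 | h1 | h1
            · exact absurd (cell_mem.2 h1) hrM
            · exact absurd (cell_mem.2 h1) hrB
            · have := hk i h1 X hX
              rw [cells_or_bit B i] at this
              rwa [Finset.insert_union] at this
          · exact ha r hrs X hX
    unfold kidsStep
    cases Nat.ble buf (nat_lit 1)
    · exact main _ _ _
    · cases rest with
      | nil => trivial
      | cons h t => exact main _ _ _

lemma generalF_sound
    (hself : ∀ M B buf rest memo, AllGood memo → ResOK n M B (self M B buf rest memo))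
    {M B c M' buf : ℕ} {rest : List ℕ} {memo : Memo} (hM' : M' = Nat.lor M (bit c))
    (h1 : tb M c = false) (h2 : tb B c = false) (hm : AllGood memo) :
    ResOK (n+1) M B (generalF self B c M' buf rest memo) := by
  subst hM'
  have hc1 := tb_false h1
  have hc2 := tb_false h2
  unfold generalF
  have hres := hself (Nat.lor M (bit c)) B buf rest memo hm
  revert hres
  cases self (Nat.lor M (bit c)) B buf rest memo with
  | fail => intro _; trivial
  | ok sd buf' rest' memo' =>
    intro hres
    have hsdacc : ∀ i, sd.testBit i = true → (Nat.lor (bit c) sd).testBit i = true := by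
      intro i hi
      rw [testBit_lor, hi, Bool.or_true]
    have hk := kidsF_sound (n := n) (self' := self (Nat.lor M (bit c))) (M' := Nat.lor M (bit c))
      (B := B) (fun B' b t m hm => hself _ B' b t m hm) 260 sd 0 (Nat.lor (bit c) sd)
      buf' rest' memo' hres.2 (by intro i hi; simp at hi)
      (by
        intro r hr X hX
        have := hres.1 (insert r X) (by
          intro x hx
          rcases Finset.mem_insert.1 hx with rfl | hx
          · exact hr
          · exact fun h => hX x hx (cells_mono hsdacc h))
        rwa [Finset.union_insert] at this)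
    change ResOK (n+1) M B (kidsF (self (Nat.lor M (bit c))) (Nat.lor M (bit c)) B 260 sd 0
      (Nat.lor (bit c) sd) buf' rest' memo')
    revert hk
    generalize kidsF (self (Nat.lor M (bit c))) (Nat.lor M (bit c)) B 260 sd 0 (Nat.lor (bit c) sd)
      buf' rest' memo' = R
    intro hk
    cases R with
    | fail => trivial
    | ok S b t m =>
      obtain ⟨hmm, hsup, hcov⟩ := hk
      refine ⟨?_, hmm⟩
      intro X hX
      have hcS : S.testBit c = true := by
        apply hsup
        rw [testBit_lor, (testBit_bit c c).2 rfl]
        rfl
      refine Or.inr ⟨cell c, hc1, ?_, ?_⟩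
      · intro hmem
        rcases Finset.mem_union.1 hmem with hmem | hmem
        · exact hc2 hmem
        · exact hX _ hmem (cell_mem.2 hcS)
      · intro r hr hrB
        rw [← cells_or_bit]
        refine hcov r ?_ ?_ X hX
        · rw [cells_or_bit]; exact hr
        · exact fun h => hrB (Finset.mem_union_left _ h)

lemma tb_or_false {M B c : ℕ}
    (h : Nat.beq (Nat.land (Nat.shiftRight (Nat.lor M B) c) (nat_lit 1)) (nat_lit 0) = true) :
    tb M c = false ∧ tb B c = false := by
  have h1 : Nat.land (Nat.shiftRight (Nat.lor M B) c) 1 = 0 := Nat.eq_of_beq_eq_true h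
  have h2 : tb (Nat.lor M B) c = false := by
    unfold tb
    rw [h1]
    rfl
  rw [tb_eq, testBit_lor, Bool.or_eq_false_iff] at h2
  rw [tb_eq, tb_eq]
  exact h2

lemma threatF_sound
    (hself : ∀ M B buf rest memo, AllGood memo → ResOK n M B (self M B buf rest memo))
    {M B c M' o t z buf : ℕ} {rest : List ℕ} {memo : Memo} (hM' : M' = Nat.lor M (bit c))
    (ho : o < 8)
    (h1 : tb M c = false) (h2 : tb B c = false) (hm : AllGood memo) :
    ResOK (n+1) M B (threatF self B c M' o t z buf rest memo) := by
  subst hM'
  have hc1 := tb_false h1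
  have hc2 := tb_false h2
  unfold threatF
  cases hchk : (Bool.rec (motive := fun _ => Bool) false
      (placedF o t (Nat.lor (Nat.lor M (bit c)) (Nat.shiftLeft (nat_lit 1) z)))
      (Nat.beq (Nat.land (Nat.shiftRight (Nat.lor (Nat.lor M (bit c)) B) z) (nat_lit 1)) (nat_lit 0)) : Bool)
  · trivial
  cases hz : Nat.beq (Nat.land (Nat.shiftRight (Nat.lor (Nat.lor M (bit c)) B) z) (nat_lit 1)) (nat_lit 0)
  · rw [hz] at hchk; exact absurd hchk (by simp)
  rw [hz] at hchk
  obtain ⟨hz1, hz2⟩ := tb_or_false hz
  have hp : placed o t (Nat.lor (Nat.lor M (bit c)) (bit z)) = true := by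
    rw [← placedF_eq ho]; exact hchk
  have hcopy := placed_copy ho hp
  have hzM := tb_false hz1
  have hzB := tb_false hz2
  have hres := hself (Nat.lor M (bit c)) (Nat.lor B (bit z)) buf rest memo hm
  change ResOK (n+1) M B (Res.rec (motive := fun _ => Res) Res.fail
      (fun s buf rest memo => Res.ok (Nat.lor (Nat.lor (bit c) (bit z)) s) buf rest memo)
      (self (Nat.lor M (bit c)) (Nat.lor B (bit z)) buf rest memo))
  revert hres
  cases self (Nat.lor M (bit c)) (Nat.lor B (bit z)) buf rest memo with
  | fail => intro _; trivial
  | ok s buf' rest' memo' =>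
    intro hres
    refine ⟨?_, hres.2⟩
    intro X hX
    have hcS : (Nat.lor (Nat.lor (bit c) (bit z)) s).testBit c = true := by
      rw [testBit_lor, testBit_lor, (testBit_bit c c).2 rfl]; rfl
    have hzS : (Nat.lor (Nat.lor (bit c) (bit z)) s).testBit z = true := by
      rw [testBit_lor, testBit_lor, (testBit_bit z z).2 rfl, Bool.or_true]; rfl
    have hsS : ∀ i, s.testBit i = true → (Nat.lor (Nat.lor (bit c) (bit z)) s).testBit i = true := by
      intro i hi
      rw [testBit_lor, hi, Bool.or_true]
    refine Or.inr ⟨cell c, hc1, ?_, ?_⟩
    · intro hmem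
      rcases Finset.mem_union.1 hmem with hmem | hmem
      · exact hc2 hmem
      · exact hX _ hmem (cell_mem.2 hcS)
    · intro r hr hrB
      rw [← cells_or_bit]
      by_cases hrz : r = cell z
      · subst hrz
        have := hres.1 X (disj_of_mono hsS hX)
        rw [cells_or_bit B z] at this
        rwa [Finset.insert_union] at this
      · -- Maker completes at `z`
        cases n with
        | zero =>
          have := hres.1 ∅ (by simp)
          exact this
        | succ n' =>
          refine Or.inr ⟨cell z, hzM, ?_, ?_⟩
          · intro hmem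
            rcases Finset.mem_insert.1 hmem with h0 | h0
            · exact hrz h0.symm
            · rcases Finset.mem_union.1 h0 with h0 | h0
              · exact hzB h0
              · exact hX _ h0 (cell_mem.2 hzS)
          · intro r' _ _
            rw [← cells_or_bit]
            exact W_of_copy hcopy

lemma plainF_sound
    (hself : ∀ M B buf rest memo, AllGood memo → ResOK n M B (self M B buf rest memo))
    (M B c buf : ℕ) (rest : List ℕ) (memo : Memo) (hm : AllGood memo) :
    ResOK (n+1) M B (plainF self M B c buf rest memo) := by
  unfold plainF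
  cases hf : Nat.beq (Nat.land (Nat.shiftRight (Nat.lor M B) c) (nat_lit 1)) (nat_lit 0)
  · trivial
  obtain ⟨h1, h2⟩ := tb_or_false hf
  change ResOK (n+1) M B (plain2F self B c (Nat.lor M (bit c)) buf rest memo)
  unfold plain2F
  cases hw : Nat.ble (Nat.land buf (nat_lit 255)) (nat_lit 7)
  · change ResOK (n+1) M B (interiorF self B c (Nat.lor M (bit c)) (Nat.land buf (nat_lit 255))
      (Nat.shiftRight buf (nat_lit 8)) rest memo)
    unfold interiorF
    cases hw8 : Nat.ble (Nat.land buf (nat_lit 255)) (nat_lit 8)
    · cases hw23 : Nat.ble (Nat.land buf (nat_lit 255)) (nat_lit 23)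
      · trivial
      · have hle : Nat.land buf 255 ≤ 23 := Nat.le_of_ble_eq_true hw23
        exact threatF_sound hself rfl (by
          change Nat.land buf 255 - 16 < 8
          omega) h1 h2 hm
    · exact generalF_sound hself rfl h1 h2 hm
  · change ResOK (n+1) M B (leafF c (Nat.lor M (bit c)) (Nat.land buf (nat_lit 255))
      (Nat.land (Nat.shiftRight buf (nat_lit 8)) (nat_lit 255)) (Nat.shiftRight buf (nat_lit 16)) rest memo)
    unfold leafF
    have ho : Nat.land buf (nat_lit 255) < 8 := Nat.lt_succ_of_le (Nat.le_of_ble_eq_true hw)
    cases hpl : placedF (Nat.land buf (nat_lit 255)) (Nat.land (Nat.shiftRight buf (nat_lit 8)) (nat_lit 255))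
        (Nat.lor M (bit c))
    · trivial
    · refine ⟨?_, hm⟩
      intro X hX
      rw [placedF_eq ho] at hpl
      have hcopy := placed_copy ho hpl
      refine Or.inr ⟨cell c, tb_false h1, ?_, ?_⟩
      · intro hmem
        rcases Finset.mem_union.1 hmem with hmem | hmem
        · exact tb_false h2 hmem
        · exact hX _ hmem (cell_mem.2 ((testBit_bit c c).2 rfl))
      · intro r _ _
        rw [← cells_or_bit]
        exact W_of_copy hcopy

lemma specialF_sound
    (hself : ∀ M B buf rest memo, AllGood memo → ResOK n M B (self M B buf rest memo))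
    (M B c buf : ℕ) (rest : List ℕ) (memo : Memo) (hm : AllGood memo) :
    ResOK (n+1) M B (specialF n self M B c buf rest memo) := by
  unfold specialF
  cases h2 : Nat.beq c 253
  swap
  · simp only [cond_true]
    refine rd3_elim (P := ResOK (n+1) M B) ?_
    intro id buf rest
    refine rdK_elim (P := ResOK (n+1) M B) ?_
    intro c buf rest
    refine ResOK_thn (P := ResOK (n+1) M B) trivial ?_
    intro S buf' rest' memo' hs
    have hres := plainF_sound hself M B c buf rest memo hm
    rw [hs] at hres
    simp only [frc_eq]
    refine ⟨hres.1, AllGood.ins _ hres.2 ?_ _⟩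
    exact hres.1
  simp only [cond_false]
  cases h3 : Nat.beq c 254
  swap
  · simp only [cond_true]
    refine rd3_elim (P := ResOK (n+1) M B) ?_
    intro id buf rest
    have hf := AllGood.find hm id
    revert hf
    generalize Memo.find memo id = e
    intro hf
    cases e with
    | nil => trivial
    | node l r => trivial
    | leaf n' M' B' S' =>
      cases h4 : Nat.ble n' (Nat.succ n)
      · simp only [h4, cond_false]; trivial
      cases h5 : sb M' M
      · simp only [h4, h5, cond_true, cond_false]; trivial
      cases h6 : sb (Nat.land B S') B'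
      · simp only [h4, h5, h6, cond_true, cond_false]; trivial
      simp only [h4, h5, h6, cond_true]
      exact ⟨good_of_ref hf (Nat.le_of_ble_eq_true h4) h5 h6, hm⟩
  · simp only [cond_false]
    trivial

end Sound

theorem chkF_sound : ∀ (n M B buf : ℕ) (rest : List ℕ) (memo : Memo), AllGood memo →
    ResOK n M B (chkF n M B buf rest memo) := by
  intro n
  induction n with
  | zero => intro _ _ _ _ _ _; trivial
  | succ n ih =>
    intro M B buf rest memo hm
    change ResOK (n+1) M B (entF n (chkF n) M B buf rest memo)
    have main : ∀ (c buf : ℕ) (rest : List ℕ),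
        ResOK (n+1) M B (dispatchF n (chkF n) M B c buf rest memo) := by
      intro c buf rest
      unfold dispatchF
      cases Nat.ble c (nat_lit 252)
      · exact specialF_sound ih M B c buf rest memo hm
      · exact plainF_sound ih M B c buf rest memo hm
    unfold entF
    cases Nat.ble buf (nat_lit 1)
    · exact main _ _ _
    · cases rest with
      | nil => trivial
      | cons h t => exact main _ _ _

/-- A successful run from a proved memo proves the position. -/
theorem good_of_chkF {memo : Memo} (hm : AllGood memo) {n M B S buf : ℕ} {rest : List ℕ}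
    (h : (match chkF n M B buf rest memo with
          | .fail => false
          | .ok S' _ _ _ => sb S' S) = true) : Good n M B S := by
  have hs := chkF_sound n M B buf rest memo hm
  revert h hs
  generalize chkF n M B buf rest memo = R
  intro h hs
  cases R with
  | fail => simp at h
  | ok S' b t m =>
    intro X hX
    exact hs.1 X (disj_of_mono (fun i hi => sb_spec h hi) hX)

end

end Crest.Agent.SnakyBk
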