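import Crest.Agent.Lib.SnakyBkFast

/-! Backup for S0047: from class certificates to `W 21 ∅ ∅`. -/

set_option autoImplicit false

namespace Crest.Agent.SnakyBk

open Crest.CombinatoricsR.PolyominoGame

/-- The root mask: Maker's first cell `(7,7)`, number `119`. -/
def rootM : ℕ := bit 119

lemma cell_119 : cell 119 = c0 := by
  simp [cell, c0]

lemma cells_rootM : cells rootM = {c0} := by
  have h : rootM = Nat.lor 0 (bit 119) := by
    unfold rootM
    change bit 119 = 0 ||| bit 119
    simp
  rw [h, cells_or_bit, cells_zero, cell_119]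
  rfl

lemma cells_bit (i : ℕ) : cells (bit i) = {cell i} := by
  have h : bit i = Nat.lor 0 (bit i) := by
    change bit i = 0 ||| bit i
    simp
  rw [h, cells_or_bit, cells_zero]
  rfl

/-- A reply in the sector, by certificate of the reply or by the default certificate. -/
theorem W21_of_classes (S₀ : ℕ) (h₀ : Good 20 rootM 0 S₀)
    (hcls : ∀ i, S₀.testBit i = true → 7 ≤ i / 16 → i / 16 ≤ i % 16 → i ≠ 119 →
      ∃ S, Good 20 rootM (bit i) S) : W 21 ∅ ∅ := by
  have hsec : ∀ r : Cell, r ≠ c0 → 7 ≤ r.2 → r.2 ≤ r.1 → W 20 {c0} {r} := by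
    intro r hr h2 h3
    by_cases hm : r ∈ cells S₀
    · obtain ⟨i, hi, rfl⟩ := mem_cells.1 hm
      simp only [cell] at h2 h3
      have hi1 : 7 ≤ i / 16 := by exact_mod_cast h2
      have hi2 : i / 16 ≤ i % 16 := by exact_mod_cast h3
      have hi3 : i ≠ 119 := by
        rintro rfl
        exact hr cell_119
      obtain ⟨S, hS⟩ := hcls i hi hi1 hi2 hi3
      have := hS ∅ (by simp)
      rwa [cells_rootM, cells_bit, Finset.union_empty] at this
    · have := h₀ {r} (by simpa using hm)
      rw [cells_rootM, cells_zero, Finset.empty_union] at this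
      exact this
  have hall := sector_reduce 20 hsec
  refine Or.inr ⟨c0, by simp, by simp, ?_⟩
  intro r hr _
  have hr' : r ≠ c0 := by
    intro h
    apply hr
    simp [h]
  have := hall r hr'
  simpa using this

end Crest.Agent.SnakyBk
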