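import Crest.Agent.Lib.SnakyBkCore

/-!
Certificate checker for S0047 with numbers whose low 64 bits hold a fold of the cell set.  The low bits
carry no meaning for the game: they only make the kernel's hash of a number literal (which sees the low
64 bits only) spread over different cell sets.  Cell `i` is read from bit `i + 64`.
-/

set_option autoImplicit false
set_option linter.unreachableTactic false
set_option linter.unusedTactic false
set_option linter.unnecessarySeqFocus false
set_option linter.unusedVariables false

namespace Crest.Agent.SnakyF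

open Crest.CombinatoricsR.PolyominoGame
open Crest.Agent.SnakyBk (Cell W W_of_copy W_mono exists_fresh policy_of_W sector_reduce c0)

/-- The board cell with number `i`. -/
def cell (i : ℕ) : Cell := (((i % 16 : ℕ) : ℤ), ((i / 16 : ℕ) : ℤ))

lemma cell_inj {i j : ℕ} (h : cell i = cell j) : i = j := by
  simp only [cell, Prod.mk.injEq, Nat.cast_inj] at h
  omega

/-- Membership bit of cell `i` in the mask `m`. -/
def hb (m i : ℕ) : Bool := m.testBit (i + 64)

/-- The cells of a mask. -/
def cells (m : ℕ) : Finset Cell :=
  ((Finset.range m).filter (fun i => hb m i = true)).image cell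

lemma mem_cells {m : ℕ} {p : Cell} : p ∈ cells m ↔ ∃ i, hb m i = true ∧ cell i = p := by
  simp only [cells, Finset.mem_image, Finset.mem_filter, Finset.mem_range]
  constructor
  · rintro ⟨i, ⟨_, h⟩, rfl⟩
    exact ⟨i, h, rfl⟩
  · rintro ⟨i, h, rfl⟩
    refine ⟨i, ⟨?_, h⟩, rfl⟩
    have h1 : m ≥ 2 ^ (i + 64) := Nat.ge_two_pow_of_testBit h
    have h2 : i + 64 < 2 ^ (i + 64) := Nat.lt_two_pow_self
    omega

lemma cell_mem {m i : ℕ} : cell i ∈ cells m ↔ hb m i = true := by
  rw [mem_cells]
  constructor
  · rintro ⟨j, h, e⟩
    rw [← cell_inj e]; exact h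
  · intro h; exact ⟨i, h, rfl⟩

lemma hb_zero (i : ℕ) : hb 0 i = false := by simp [hb]

lemma cells_zero : cells 0 = ∅ := by
  ext p; simp [mem_cells, hb_zero]

/-! Fast primitives. -/

/-- The mask of the single cell `c`. -/
def bit (c : ℕ) : ℕ :=
  Nat.lor (Nat.shiftLeft (nat_lit 1) (Nat.add c (nat_lit 64)))
    (Nat.shiftLeft (nat_lit 1) (Nat.land c (nat_lit 63)))

/-- Membership test. -/
def tb (m i : ℕ) : Bool :=
  Nat.beq (Nat.land (Nat.shiftRight m (Nat.add i (nat_lit 64))) (nat_lit 1)) (nat_lit 1)

/-- Subset test (on all bits). -/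
def sb (a m : ℕ) : Bool := Nat.beq (Nat.lor a m) m

/-- Subset test on cell bits only. -/
def sbh (a m : ℕ) : Bool :=
  Nat.beq (Nat.lor (Nat.shiftRight a (nat_lit 64)) (Nat.shiftRight m (nat_lit 64)))
    (Nat.shiftRight m (nat_lit 64))

lemma land_one_eq (m : ℕ) : Nat.land m 1 = m % 2 := by
  change m &&& 1 = m % 2
  exact Nat.and_one_is_mod _

lemma tb_eq (m i : ℕ) : tb m i = hb m i := by
  have h : (Nat.land (Nat.shiftRight m (i + 64)) 1) = (m >>> (i + 64)) % 2 := by
    change (m >>> (i + 64)) &&& 1 = (m >>> (i + 64)) % 2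
    exact Nat.and_one_is_mod _
  change Nat.beq (Nat.land (Nat.shiftRight m (i + 64)) 1) 1 = m.testBit (i + 64)
  rw [h, Nat.testBit]
  by_cases h2 : (m >>> (i + 64)) % 2 = 1
  · rw [h2]
    have : (1 &&& m >>> (i + 64)) = 1 := by
      rw [Nat.and_comm, Nat.and_one_is_mod, h2]
    simp [this]
  · have h3 : (m >>> (i + 64)) % 2 = 0 := by omega
    rw [h3]
    have : (1 &&& m >>> (i + 64)) = 0 := by
      rw [Nat.and_comm, Nat.and_one_is_mod, h3]
    simp [this]
    rfl

lemma hb_bit (c i : ℕ) : hb (bit c) i = true ↔ i = c := by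
  have h : bit c = 2 ^ (c + 64) ||| 2 ^ (c % 64) := by
    have h1 : Nat.land c 63 = c % 64 := by
      change c &&& 63 = c % 64
      exact Nat.and_two_pow_sub_one_eq_mod c 6
    change Nat.lor (1 <<< (c + 64)) (1 <<< (Nat.land c 63)) = _
    rw [h1, Nat.one_shiftLeft, Nat.one_shiftLeft]
    rfl
  have h2 : c % 64 < 64 := Nat.mod_lt _ (by norm_num)
  unfold hb
  rw [h, Nat.testBit_or, Nat.testBit_two_pow, Nat.testBit_two_pow]
  simp only [Bool.or_eq_true, decide_eq_true_eq]
  constructor
  · rintro (h3 | h3) <;> omega
  · intro h3; left; omega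

lemma hb_lor (a b i : ℕ) : hb (Nat.lor a b) i = (hb a i || hb b i) :=
  Nat.testBit_or a b (i + 64)

lemma hb_land (a b i : ℕ) : hb (Nat.land a b) i = (hb a i && hb b i) :=
  Nat.testBit_and a b (i + 64)

lemma sb_spec {a m : ℕ} (h : sb a m = true) {i : ℕ} (hi : hb a i = true) :
    hb m i = true := by
  have h1 : Nat.lor a m = m := Nat.eq_of_beq_eq_true h
  rw [← h1, hb_lor, hi]
  rfl

lemma sbh_spec {a m : ℕ} (h : sbh a m = true) {i : ℕ} (hi : hb a i = true) :
    hb m i = true := by
  have h1 : Nat.lor (Nat.shiftRight a 64) (Nat.shiftRight m 64) = Nat.shiftRight m 64 :=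
    Nat.eq_of_beq_eq_true h
  have h2 : ∀ x : ℕ, (Nat.shiftRight x 64).testBit i = hb x i := by
    intro x
    change (x >>> 64).testBit i = x.testBit (i + 64)
    rw [Nat.testBit_shiftRight, Nat.add_comm]
  have h3 : (Nat.shiftRight m 64).testBit i = true := by
    rw [← h1]
    change ((a >>> 64) ||| (m >>> 64)).testBit i = true
    rw [Nat.testBit_or]
    have := h2 a
    rw [hi] at this
    change (a >>> 64).testBit i = true at this
    rw [this]
    rfl
  rw [← h2]
  exact h3

lemma cells_or_bit (m c : ℕ) : cells (Nat.lor m (bit c)) = insert (cell c) (cells m) := by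
  ext p
  simp only [mem_cells, Finset.mem_insert, hb_lor, Bool.or_eq_true, hb_bit]
  constructor
  · rintro ⟨i, h | rfl, rfl⟩
    · exact Or.inr ⟨i, h, rfl⟩
    · exact Or.inl rfl
  · rintro (rfl | ⟨i, h, rfl⟩)
    · exact ⟨c, Or.inr rfl, rfl⟩
    · exact ⟨i, Or.inl h, rfl⟩

/-- Force the evaluation of a number. -/
def frc {α : Type} (n : ℕ) (k : ℕ → α) : α :=
  Nat.rec (motive := fun _ => α) (k 0) (fun m _ => k (Nat.succ m)) n

lemma frc_eq {α : Type} (n : ℕ) (k : ℕ → α) : frc n k = k n := by
  cases n <;> rfl

/-! Placements of the target. -/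

/-- Bitmasks of the eight orientations, anchored at the corner of the bounding box. -/
def baseMask (o : ℕ) : ℕ :=
  match o with
  | 0 => 1572879
  | 1 => 196638
  | 2 => 983064
  | 3 => 1966083
  | 4 => 36894332576644268033
  | 5 => 18447588507229749250
  | 6 => 18447025552981426178
  | _ => 36894051105962655745

/-- Width minus one of an orientation. -/
def baseW (o : ℕ) : ℕ := Nat.add 1 (Nat.mul 3 (Nat.sub 1 (Nat.div o 4)))

/-- Does `m` contain the orientation `o` anchored at cell `t`? -/
def placed (o t m : ℕ) : Bool :=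
  bif Nat.ble (Nat.add (Nat.land t 15) (baseW o)) 15 then
    sb (Nat.shiftLeft (baseMask o) (Nat.add t 64)) m
  else false

lemma mem_of_bit {m t : ℕ} (qx qy : ℕ) (hw : t % 16 + qx < 16)
    (hb' : hb m (t + (qx + 16 * qy)) = true) {a b : ℤ}
    (ha : a = ((t % 16 : ℕ) : ℤ) + qx) (hbb : b = ((t / 16 : ℕ) : ℤ) + qy) :
    (a, b) ∈ (cells m : Set Cell) := by
  have h : cell (t + (qx + 16 * qy)) = (a, b) := by
    simp only [cell, ha, hbb, Prod.mk.injEq]
    constructor
    · omega
    · omega
  rw [Finset.mem_coe, ← h]
  exact cell_mem.mpr hb'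

lemma placed_bits {o t m : ℕ} (h : placed o t m = true) :
    t % 16 + baseW o ≤ 15 ∧ ∀ q, (baseMask o).testBit q = true → hb m (t + q) = true := by
  unfold placed at h
  cases hle : Nat.ble (Nat.add (Nat.land t 15) (baseW o)) 15 with
  | false => rw [hle] at h; simp at h
  | true =>
    rw [hle] at h
    simp only [cond_true] at h
    constructor
    · have h1 : Nat.add (Nat.land t 15) (baseW o) ≤ 15 := Nat.le_of_ble_eq_true hle
      have h2 : Nat.land t 15 = t % 16 := by
        change t &&& 15 = t % 16
        exact Nat.and_two_pow_sub_one_eq_mod t 4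
      rw [h2] at h1
      exact h1
    · intro q hq
      have h0 : Nat.lor (Nat.shiftLeft (baseMask o) (Nat.add t 64)) m = m := Nat.eq_of_beq_eq_true h
      rw [← h0, hb_lor]
      have : hb (Nat.shiftLeft (baseMask o) (Nat.add t 64)) (t + q) = true := by
        change ((baseMask o) <<< (t + 64)).testBit (t + q + 64) = true
        rw [Nat.testBit_shiftLeft]
        have e : t + q + 64 - (t + 64) = q := by omega
        rw [e]
        simp [hq]
      rw [this]
      rfl

lemma placed_copy {o t m : ℕ} (ho : o < 8) (h : placed o t m = true) :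
    ContainsCopy (cells m : Set Cell) := by
  obtain ⟨hw, hb2⟩ := placed_bits h
  have hq : ∀ qx qy, (baseMask o).testBit (qx + 16 * qy) = true →
      hb m (t + (qx + 16 * qy)) = true := fun qx qy hq' => hb2 _ hq'
  set tx : ℤ := ((t % 16 : ℕ) : ℤ) with htx
  set ty : ℤ := ((t / 16 : ℕ) : ℤ) with hty
  by_cases ho0 : o = 0
  · subst ho0
    have hw' : t % 16 + 4 ≤ 15 := hw
    refine ⟨(tx, ty), 1, 1, Or.inl rfl, Or.inl rfl, Or.inl ?_⟩
    intro p hp
    simp only [snaky, Finset.mem_insert, Finset.mem_singleton] at hp
    rcases hp with rfl | rfl | rfl | rfl | rfl | rfl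
    · exact mem_of_bit 0 0 (by omega) (hq _ _ (by decide)) (by simp [htx]) (by simp [hty])
    · exact mem_of_bit 1 0 (by omega) (hq _ _ (by decide)) (by simp [htx]) (by simp [hty])
    · exact mem_of_bit 2 0 (by omega) (hq _ _ (by decide)) (by simp [htx]) (by simp [hty])
    · exact mem_of_bit 3 0 (by omega) (hq _ _ (by decide)) (by simp [htx]) (by simp [hty])
    · exact mem_of_bit 3 1 (by omega) (hq _ _ (by decide)) (by simp [htx]) (by simp [hty])
    · exact mem_of_bit 4 1 (by omega) (hq _ _ (by decide)) (by simp [htx]) (by simp [hty])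
  by_cases ho1 : o = 1
  · subst ho1
    have hw' : t % 16 + 4 ≤ 15 := hw
    refine ⟨(tx + 4, ty), -1, 1, Or.inr rfl, Or.inl rfl, Or.inl ?_⟩
    intro p hp
    simp only [snaky, Finset.mem_insert, Finset.mem_singleton] at hp
    rcases hp with rfl | rfl | rfl | rfl | rfl | rfl
    · exact mem_of_bit 4 0 (by omega) (hq _ _ (by decide)) (by simp [htx]) (by simp [hty])
    · exact mem_of_bit 3 0 (by omega) (hq _ _ (by decide)) (by simp [htx] <;> ring) (by simp [hty])
    · exact mem_of_bit 2 0 (by omega) (hq _ _ (by decide)) (by simp [htx] <;> ring) (by simp [hty])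
    · exact mem_of_bit 1 0 (by omega) (hq _ _ (by decide)) (by simp [htx] <;> ring) (by simp [hty])
    · exact mem_of_bit 1 1 (by omega) (hq _ _ (by decide)) (by simp [htx] <;> ring) (by simp [hty])
    · exact mem_of_bit 0 1 (by omega) (hq _ _ (by decide)) (by simp [htx] <;> ring) (by simp [hty])
  by_cases ho2 : o = 2
  · subst ho2
    have hw' : t % 16 + 4 ≤ 15 := hw
    refine ⟨(tx, ty + 1), 1, -1, Or.inl rfl, Or.inr rfl, Or.inl ?_⟩
    intro p hp
    simp only [snaky, Finset.mem_insert, Finset.mem_singleton] at hp
    rcases hp with rfl | rfl | rfl | rfl | rfl | rfl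
    · exact mem_of_bit 0 1 (by omega) (hq _ _ (by decide)) (by simp [htx]) (by simp [hty])
    · exact mem_of_bit 1 1 (by omega) (hq _ _ (by decide)) (by simp [htx]) (by simp [hty])
    · exact mem_of_bit 2 1 (by omega) (hq _ _ (by decide)) (by simp [htx]) (by simp [hty])
    · exact mem_of_bit 3 1 (by omega) (hq _ _ (by decide)) (by simp [htx]) (by simp [hty])
    · exact mem_of_bit 3 0 (by omega) (hq _ _ (by decide)) (by simp [htx]) (by simp [hty] <;> ring)
    · exact mem_of_bit 4 0 (by omega) (hq _ _ (by decide)) (by simp [htx]) (by simp [hty] <;> ring)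
  by_cases ho3 : o = 3
  · subst ho3
    have hw' : t % 16 + 4 ≤ 15 := hw
    refine ⟨(tx + 4, ty + 1), -1, -1, Or.inr rfl, Or.inr rfl, Or.inl ?_⟩
    intro p hp
    simp only [snaky, Finset.mem_insert, Finset.mem_singleton] at hp
    rcases hp with rfl | rfl | rfl | rfl | rfl | rfl
    · exact mem_of_bit 4 1 (by omega) (hq _ _ (by decide)) (by simp [htx]) (by simp [hty])
    · exact mem_of_bit 3 1 (by omega) (hq _ _ (by decide)) (by simp [htx] <;> ring) (by simp [hty])
    · exact mem_of_bit 2 1 (by omega) (hq _ _ (by decide)) (by simp [htx] <;> ring) (by simp [hty])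
    · exact mem_of_bit 1 1 (by omega) (hq _ _ (by decide)) (by simp [htx] <;> ring) (by simp [hty])
    · exact mem_of_bit 1 0 (by omega) (hq _ _ (by decide)) (by simp [htx] <;> ring) (by simp [hty] <;> ring)
    · exact mem_of_bit 0 0 (by omega) (hq _ _ (by decide)) (by simp [htx] <;> ring) (by simp [hty] <;> ring)
  by_cases ho4 : o = 4
  · subst ho4
    have hw' : t % 16 + 1 ≤ 15 := hw
    refine ⟨(tx, ty), 1, 1, Or.inl rfl, Or.inl rfl, Or.inr ?_⟩
    intro p hp
    simp only [snaky, Finset.mem_insert, Finset.mem_singleton] at hp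
    rcases hp with rfl | rfl | rfl | rfl | rfl | rfl
    · exact mem_of_bit 0 0 (by omega) (hq _ _ (by decide)) (by simp [htx]) (by simp [hty])
    · exact mem_of_bit 0 1 (by omega) (hq _ _ (by decide)) (by simp [htx]) (by simp [hty])
    · exact mem_of_bit 0 2 (by omega) (hq _ _ (by decide)) (by simp [htx]) (by simp [hty])
    · exact mem_of_bit 0 3 (by omega) (hq _ _ (by decide)) (by simp [htx]) (by simp [hty])
    · exact mem_of_bit 1 3 (by omega) (hq _ _ (by decide)) (by simp [htx]) (by simp [hty])
    · exact mem_of_bit 1 4 (by omega) (hq _ _ (by decide)) (by simp [htx]) (by simp [hty])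
  by_cases ho5 : o = 5
  · subst ho5
    have hw' : t % 16 + 1 ≤ 15 := hw
    refine ⟨(tx + 1, ty), -1, 1, Or.inr rfl, Or.inl rfl, Or.inr ?_⟩
    intro p hp
    simp only [snaky, Finset.mem_insert, Finset.mem_singleton] at hp
    rcases hp with rfl | rfl | rfl | rfl | rfl | rfl
    · exact mem_of_bit 1 0 (by omega) (hq _ _ (by decide)) (by simp [htx]) (by simp [hty])
    · exact mem_of_bit 1 1 (by omega) (hq _ _ (by decide)) (by simp [htx]) (by simp [hty])
    · exact mem_of_bit 1 2 (by omega) (hq _ _ (by decide)) (by simp [htx]) (by simp [hty])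
    · exact mem_of_bit 1 3 (by omega) (hq _ _ (by decide)) (by simp [htx]) (by simp [hty])
    · exact mem_of_bit 0 3 (by omega) (hq _ _ (by decide)) (by simp [htx] <;> ring) (by simp [hty])
    · exact mem_of_bit 0 4 (by omega) (hq _ _ (by decide)) (by simp [htx] <;> ring) (by simp [hty])
  by_cases ho6 : o = 6
  · subst ho6
    have hw' : t % 16 + 1 ≤ 15 := hw
    refine ⟨(tx, ty + 4), 1, -1, Or.inl rfl, Or.inr rfl, Or.inr ?_⟩
    intro p hp
    simp only [snaky, Finset.mem_insert, Finset.mem_singleton] at hp
    rcases hp with rfl | rfl | rfl | rfl | rfl | rfl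
    · exact mem_of_bit 0 4 (by omega) (hq _ _ (by decide)) (by simp [htx]) (by simp [hty])
    · exact mem_of_bit 0 3 (by omega) (hq _ _ (by decide)) (by simp [htx]) (by simp [hty] <;> ring)
    · exact mem_of_bit 0 2 (by omega) (hq _ _ (by decide)) (by simp [htx]) (by simp [hty] <;> ring)
    · exact mem_of_bit 0 1 (by omega) (hq _ _ (by decide)) (by simp [htx]) (by simp [hty] <;> ring)
    · exact mem_of_bit 1 1 (by omega) (hq _ _ (by decide)) (by simp [htx]) (by simp [hty] <;> ring)
    · exact mem_of_bit 1 0 (by omega) (hq _ _ (by decide)) (by simp [htx]) (by simp [hty] <;> ring)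
  · obtain rfl : o = 7 := by omega
    have hw' : t % 16 + 1 ≤ 15 := hw
    refine ⟨(tx + 1, ty + 4), -1, -1, Or.inr rfl, Or.inr rfl, Or.inr ?_⟩
    intro p hp
    simp only [snaky, Finset.mem_insert, Finset.mem_singleton] at hp
    rcases hp with rfl | rfl | rfl | rfl | rfl | rfl
    · exact mem_of_bit 1 4 (by omega) (hq _ _ (by decide)) (by simp [htx]) (by simp [hty])
    · exact mem_of_bit 1 3 (by omega) (hq _ _ (by decide)) (by simp [htx]) (by simp [hty] <;> ring)
    · exact mem_of_bit 1 2 (by omega) (hq _ _ (by decide)) (by simp [htx]) (by simp [hty] <;> ring)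
    · exact mem_of_bit 1 1 (by omega) (hq _ _ (by decide)) (by simp [htx]) (by simp [hty] <;> ring)
    · exact mem_of_bit 0 1 (by omega) (hq _ _ (by decide)) (by simp [htx] <;> ring) (by simp [hty] <;> ring)
    · exact mem_of_bit 0 0 (by omega) (hq _ _ (by decide)) (by simp [htx] <;> ring) (by simp [hty] <;> ring)


noncomputable section

/-! The memo table of proved positions. -/

/-- A binary tree of proved positions. -/
inductive Memo
  | nil
  | leaf (n M B S : ℕ)
  | node (l r : Memo)

/-- Walk down to the entry of `id`. -/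
def Memo.find (m : Memo) : ℕ → Memo :=
  Memo.rec (motive := fun _ => ℕ → Memo) (fun _ => Memo.nil) (fun a b c d _ => Memo.leaf a b c d)
    (fun _ _ il ir id => frc (Nat.shiftRight id (nat_lit 1)) fun id' =>
       Bool.rec (motive := fun _ => Memo) (ir id') (il id') (Nat.beq (Nat.land id (nat_lit 1)) (nat_lit 0))) m

/-- Evaluate a memo to head form, then continue. -/
def Memo.str (m : Memo) (k : Memo → Memo) : Memo :=
  Memo.rec (motive := fun _ => Memo) (k Memo.nil) (fun a b c d => k (Memo.leaf a b c d))
    (fun l r _ _ => k (Memo.node l r)) m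

lemma Memo.str_eq (m : Memo) (k : Memo → Memo) : Memo.str m k = k m := by
  cases m <;> rfl

/-- One step of the insertion into a subtree-less slot. -/
def Memo.insNil (ih : Memo → ℕ → Memo → Memo) (id id' : ℕ) (e : Memo) : Memo :=
  Bool.rec (motive := fun _ => Memo)
    (Memo.str (ih Memo.nil id' e) fun r' => Memo.node Memo.nil r')
    (Memo.str (ih Memo.nil id' e) fun l' => Memo.node l' Memo.nil)
    (Nat.beq (Nat.land id (nat_lit 1)) (nat_lit 0))

/-- Insert an entry at path `id` of length `d`. -/
def Memo.ins (d : ℕ) : Memo → ℕ → Memo → Memo :=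
  Nat.rec (motive := fun _ => Memo → ℕ → Memo → Memo) (fun _ _ e => e)
    (fun _ ih m id e => frc (Nat.shiftRight id (nat_lit 1)) fun id' =>
      Memo.rec (motive := fun _ => Memo)
        (Memo.insNil ih id id' e)
        (fun _ _ _ _ => Memo.insNil ih id id' e)
        (fun l r _ _ => Bool.rec (motive := fun _ => Memo)
          (Memo.str (ih r id' e) fun r' => Memo.node l r')
          (Memo.str (ih l id' e) fun l' => Memo.node l' r)
          (Nat.beq (Nat.land id (nat_lit 1)) (nat_lit 0)))
        m) d

/-- `Good n M B S`: Maker wins with `n` claims from `(M, B)` even with extra Breaker cells off `S`. -/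
def Good (n M B S : ℕ) : Prop :=
  ∀ X : Finset Cell, (∀ x ∈ X, x ∉ cells S) → W n (cells M) (cells B ∪ X)

/-- All entries of a memo are proved. -/
def AllGood : Memo → Prop
  | .nil => True
  | .leaf n M B S => Good n M B S
  | .node l r => AllGood l ∧ AllGood r

lemma AllGood.mkNode {l r : Memo} (hl : AllGood l) (hr : AllGood r) : AllGood (Memo.node l r) := ⟨hl, hr⟩

lemma AllGood.mkLeaf {n M B S : ℕ} (h : Good n M B S) : AllGood (Memo.leaf n M B S) := h

lemma AllGood.find : ∀ {m : Memo} (_ : AllGood m) (id : ℕ), AllGood (Memo.find m id)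
  | .nil, _, _ => trivial
  | .leaf _ _ _ _, h, _ => h
  | .node l r, h, id => by
    change AllGood (frc (Nat.shiftRight id (nat_lit 1)) fun id' =>
       Bool.rec (motive := fun _ => Memo) (Memo.find r id') (Memo.find l id')
         (Nat.beq (Nat.land id (nat_lit 1)) (nat_lit 0)))
    rw [frc_eq]
    cases Nat.beq (Nat.land id (nat_lit 1)) (nat_lit 0)
    · exact AllGood.find h.2 _
    · exact AllGood.find h.1 _

lemma AllGood.insNil {ih : Memo → ℕ → Memo → Memo} {e : Memo} (id id' : ℕ)
    (h : AllGood (ih Memo.nil id' e)) : AllGood (Memo.insNil ih id id' e) := by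
  unfold Memo.insNil
  cases Nat.beq (Nat.land id (nat_lit 1)) (nat_lit 0)
  · change AllGood (Memo.str (ih Memo.nil id' e) fun r' => Memo.node Memo.nil r')
    rw [Memo.str_eq]; exact ⟨trivial, h⟩
  · change AllGood (Memo.str (ih Memo.nil id' e) fun l' => Memo.node l' Memo.nil)
    rw [Memo.str_eq]; exact ⟨h, trivial⟩

lemma AllGood.ins : ∀ (d : ℕ) {m e : Memo} (_ : AllGood m) (_ : AllGood e) (id : ℕ),
    AllGood (Memo.ins d m id e) := by
  intro d
  induction d with
  | zero => intro m e _ he _; exact he
  | succ d ih =>
    intro m e hm he id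
    change AllGood (frc (Nat.shiftRight id (nat_lit 1)) fun id' =>
      Memo.rec (motive := fun _ => Memo)
        (Memo.insNil (Memo.ins d) id id' e)
        (fun _ _ _ _ => Memo.insNil (Memo.ins d) id id' e)
        (fun l r _ _ => Bool.rec (motive := fun _ => Memo)
          (Memo.str (Memo.ins d r id' e) fun r' => Memo.node l r')
          (Memo.str (Memo.ins d l id' e) fun l' => Memo.node l' r)
          (Nat.beq (Nat.land id (nat_lit 1)) (nat_lit 0)))
        m)
    rw [frc_eq]
    cases m with
    | nil => exact AllGood.insNil _ _ (ih (m := Memo.nil) trivial he _)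
    | leaf a b c d' => exact AllGood.insNil _ _ (ih (m := Memo.nil) trivial he _)
    | node l r =>
      change AllGood (Bool.rec (motive := fun _ => Memo)
          (Memo.str (Memo.ins d r _ e) fun r' => Memo.node l r')
          (Memo.str (Memo.ins d l _ e) fun l' => Memo.node l' r)
          (Nat.beq (Nat.land id (nat_lit 1)) (nat_lit 0)))
      cases Nat.beq (Nat.land id (nat_lit 1)) (nat_lit 0)
      · change AllGood (Memo.str (Memo.ins d r _ e) fun r' => Memo.node l r')
        rw [Memo.str_eq]; exact ⟨hm.1, ih hm.2 he _⟩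
      · change AllGood (Memo.str (Memo.ins d l _ e) fun l' => Memo.node l' r)
        rw [Memo.str_eq]; exact ⟨ih hm.1 he _, hm.2⟩

/-! The certificate is a stream of byte tokens; what is read has no influence on soundness. -/

/-- Read one byte token from the stream; a chunk carries a sentinel top byte `1`. -/
def rdK {α : Type} (buf : ℕ) (rest : List ℕ) (k : ℕ → ℕ → List ℕ → α) : α :=
  Bool.rec (motive := fun _ => α)
    (frc (Nat.shiftRight buf (nat_lit 8)) fun b => k (Nat.land buf (nat_lit 255)) b rest)
    (List.rec (motive := fun _ => α) (k (nat_lit 255) (nat_lit 1) [])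
      (fun h t _ => frc (Nat.shiftRight h (nat_lit 8)) fun b => k (Nat.land h (nat_lit 255)) b t) rest)
    (Nat.ble buf (nat_lit 1))

lemma rdK_elim {α : Type} {P : α → Prop} {buf : ℕ} {rest : List ℕ} {k : ℕ → ℕ → List ℕ → α}
    (h : ∀ t b r, P (k t b r)) : P (rdK buf rest k) := by
  unfold rdK
  cases Nat.ble buf (nat_lit 1)
  · change P (frc _ _); rw [frc_eq]; exact h _ _ _
  · cases rest with
    | nil => exact h _ _ _
    | cons a t => change P (frc _ _); rw [frc_eq]; exact h _ _ _

/-- Read a three-byte little-endian number. -/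
def rd3 {α : Type} (buf : ℕ) (rest : List ℕ) (k : ℕ → ℕ → List ℕ → α) : α :=
  rdK buf rest fun a buf rest => rdK buf rest fun b buf rest => rdK buf rest fun c buf rest =>
    k (Nat.add a (Nat.add (Nat.mul b (nat_lit 256)) (Nat.mul c (nat_lit 65536)))) buf rest

lemma rd3_elim {α : Type} {P : α → Prop} {buf : ℕ} {rest : List ℕ} {k : ℕ → ℕ → List ℕ → α}
    (h : ∀ t b r, P (k t b r)) : P (rd3 buf rest k) :=
  rdK_elim fun _ _ _ => rdK_elim fun _ _ _ => rdK_elim fun _ _ _ => h _ _ _

/-- The outcome of a check. -/
inductive Res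
  | fail
  | ok (S buf : ℕ) (rest : List ℕ) (memo : Memo)

/-- Sequencing of checks. -/
def Res.thn (r : Res) (k : ℕ → ℕ → List ℕ → Memo → Res) : Res :=
  Res.rec (motive := fun _ => Res) Res.fail k r

/-- What a check result promises. -/
def ResOK (n M B : ℕ) : Res → Prop
  | .fail => True
  | .ok S _ _ m => Good n M B S ∧ AllGood m

lemma ResOK_thn {P : Res → Prop} {r : Res} {k : ℕ → ℕ → List ℕ → Memo → Res} (hf : P .fail)
    (h : ∀ S b t m, r = .ok S b t m → P (k S b t m)) : P (Res.thn r k) := by
  cases r with
  | fail => exact hf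
  | ok S b t m => exact h S b t m rfl

lemma cells_mono {a b : ℕ} (h : ∀ i, hb a i = true → hb b i = true) :
    cells a ⊆ cells b := by
  intro x hx
  obtain ⟨i, hi, rfl⟩ := mem_cells.1 hx
  exact cell_mem.2 (h i hi)

lemma disj_of_mono {X : Finset Cell} {a b : ℕ} (h : ∀ i, hb a i = true → hb b i = true)
    (hX : ∀ x ∈ X, x ∉ cells b) : ∀ x ∈ X, x ∉ cells a :=
  fun x hx hxa => hX x hx (cells_mono h hxa)

lemma tb_false {m c : ℕ} (h : tb m c = false) : cell c ∉ cells m := by
  rw [cell_mem, ← tb_eq, h]
  simp

lemma good_of_ref {n' M' B' S' n M B : ℕ} (h : Good n' M' B' S') (h1 : n' ≤ n)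
    (h2 : sb M' M = true) (h3 : sbh (Nat.land B S') B' = true) : Good n M B S' := by
  intro X hX
  have hW := h ((cells B ∪ X) \ cells B') (by
    intro x hx hxS
    rw [Finset.mem_sdiff, Finset.mem_union] at hx
    rcases hx.1 with hB | hX'
    · obtain ⟨i, hi, rfl⟩ := mem_cells.1 hB
      refine hx.2 (cell_mem.2 (sbh_spec h3 ?_))
      rw [hb_land, hi, cell_mem.1 hxS]
      rfl
    · exact hX x hX' hxS)
  refine W_mono hW h1 (cells_mono (fun i hi => sb_spec h2 hi)) ?_
  intro x hx
  by_cases hxB : x ∈ cells B'
  · exact Finset.mem_union_left _ hxB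
  · exact Finset.mem_union_right _ (Finset.mem_sdiff.2 ⟨hx, hxB⟩)

/-- Packed masks, 72 bits each. -/
def maskLit : ℕ :=
  nat_lit 0x200020002000300010100010001000300020100030002000200020200030001000100010000000000001e00030000000000000f001800000000000003001e00000000000018000f

/-- The mask of an orientation. -/
def maskF (o : ℕ) : ℕ :=
  Nat.land (Nat.shiftRight maskLit (Nat.mul o (nat_lit 72))) (nat_lit 0xffffffffffffffffff)

lemma maskF_eq {o : ℕ} (ho : o < 8) : maskF o = baseMask o := by
  interval_cases o <;> decide +kernel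

/-- Placement test. -/
def placedF (o t m : ℕ) : Bool :=
  Bool.rec (motive := fun _ => Bool) false
    (Nat.beq (Nat.lor (Nat.shiftLeft (maskF o) (Nat.add t (nat_lit 64))) m) m)
    (Nat.ble (Nat.add (Nat.land t (nat_lit 15))
      (Nat.add (nat_lit 1) (Nat.mul (nat_lit 3) (Nat.sub (nat_lit 1) (Nat.div o (nat_lit 4))))))
      (nat_lit 15))

lemma boolrec_false_eq (x a : Bool) : Bool.rec (motive := fun _ => Bool) false a x = cond x a false := by
  cases x <;> rfl

lemma placedF_eq {o t m : ℕ} (ho : o < 8) : placedF o t m = placed o t m := by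
  unfold placedF placed
  rw [maskF_eq ho]
  exact boolrec_false_eq _ _

/-- Win after the move `c`. -/
def leafF (c M' o t buf : ℕ) (rest : List ℕ) (memo : Memo) : Res :=
  Bool.rec (motive := fun _ => Res) Res.fail
    (Res.ok (bit c) buf rest memo) (placedF o t M')

/-- End of the reply list: every cell in all the default and alternative trees is taken or has a
reply tree. -/
def kidsEnd (M' B sd keys acc buf : ℕ) (rest : List ℕ) (memo : Memo) : Res :=
  Bool.rec (motive := fun _ => Res) Res.fail (Res.ok acc buf rest memo)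
    (sbh sd (Nat.lor M' (Nat.lor B keys)))

/-- One reply. -/
def kids2 (ih : ℕ → ℕ → ℕ → ℕ → List ℕ → Memo → Res) (self' : ℕ → ℕ → List ℕ → Memo → Res)
    (B sd keys acc r buf : ℕ) (rest : List ℕ) (memo : Memo) : Res :=
  Res.rec (motive := fun _ => Res) Res.fail
    (fun s buf rest memo =>
      ih sd (Nat.lor keys (bit r)) (Nat.lor acc s) buf rest memo)
    (self' (Nat.lor B (bit r)) buf rest memo)

/-- One alternative tree: it works against every reply outside its support. -/
def kidsAlt (ih : ℕ → ℕ → ℕ → ℕ → List ℕ → Memo → Res) (self' : ℕ → ℕ → List ℕ → Memo → Res)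
    (B sd keys acc buf : ℕ) (rest : List ℕ) (memo : Memo) : Res :=
  Res.rec (motive := fun _ => Res) Res.fail
    (fun s buf rest memo => ih (Nat.land sd s) keys (Nat.lor acc s) buf rest memo)
    (self' B buf rest memo)

/-- Dispatch on the reply token. -/
def kids1 (ih : ℕ → ℕ → ℕ → ℕ → List ℕ → Memo → Res) (self' : ℕ → ℕ → List ℕ → Memo → Res)
    (M' B sd keys acc r buf : ℕ) (rest : List ℕ) (memo : Memo) : Res :=
  Bool.rec (motive := fun _ => Res)
    (Bool.rec (motive := fun _ => Res) (kids2 ih self' B sd keys acc r buf rest memo)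
      (kidsAlt ih self' B sd keys acc buf rest memo) (Nat.beq r (nat_lit 254)))
    (kidsEnd M' B sd keys acc buf rest memo) (Nat.beq r (nat_lit 255))

/-- Read a reply token. -/
def kidsStep (ih : ℕ → ℕ → ℕ → ℕ → List ℕ → Memo → Res) (self' : ℕ → ℕ → List ℕ → Memo → Res)
    (M' B sd keys acc buf : ℕ) (rest : List ℕ) (memo : Memo) : Res :=
  Bool.rec (motive := fun _ => Res)
    (kids1 ih self' M' B sd keys acc (Nat.land buf (nat_lit 255)) (Nat.shiftRight buf (nat_lit 8)) rest memo)
    (List.rec (motive := fun _ => Res) Res.fail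
      (fun h t _ => kids1 ih self' M' B sd keys acc (Nat.land h (nat_lit 255))
        (Nat.shiftRight h (nat_lit 8)) t memo) rest)
    (Nat.ble buf (nat_lit 1))

/-- The reply loop. -/
def kidsF (self' : ℕ → ℕ → List ℕ → Memo → Res) (M' B f : ℕ) :
    ℕ → ℕ → ℕ → ℕ → List ℕ → Memo → Res :=
  Nat.rec (motive := fun _ => ℕ → ℕ → ℕ → ℕ → List ℕ → Memo → Res)
    (fun _ _ _ _ _ _ => Res.fail) (fun _ ih sd => kidsStep ih self' M' B sd) f

/-- General interior node. -/
def generalF (self : ℕ → ℕ → ℕ → List ℕ → Memo → Res) (B c M' buf : ℕ) (rest : List ℕ)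
    (memo : Memo) : Res :=
  Res.rec (motive := fun _ => Res) Res.fail
    (fun sd buf rest memo => kidsF (self M') M' B (nat_lit 260) sd (nat_lit 0)
      (Nat.lor (bit c) sd) buf rest memo)
    (self M' B buf rest memo)

/-- Forced reply node: after `c`, placement `(o, t)` lacks only `z`. -/
def threatF (self : ℕ → ℕ → ℕ → List ℕ → Memo → Res) (B c M' o t z buf : ℕ) (rest : List ℕ)
    (memo : Memo) : Res :=
  Bool.rec (motive := fun _ => Res) Res.fail
    (Res.rec (motive := fun _ => Res) Res.fail
      (fun s buf rest memo =>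
        Res.ok (Nat.lor (Nat.lor (bit c) (bit z)) s)
          buf rest memo)
      (self M' (Nat.lor B (bit z)) buf rest memo))
    (Bool.rec (motive := fun _ => Bool) false
      (placedF o t (Nat.lor M' (bit z)))
      (Nat.beq (Nat.land (Nat.shiftRight (Nat.lor M' B) (Nat.add z (nat_lit 64))) (nat_lit 1)) (nat_lit 0)))

/-- After reading the move: dispatch on the node type. -/
def interiorF (self : ℕ → ℕ → ℕ → List ℕ → Memo → Res) (B c M' w buf : ℕ) (rest : List ℕ)
    (memo : Memo) : Res :=
  Bool.rec (motive := fun _ => Res)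
    (Bool.rec (motive := fun _ => Res) Res.fail
      (threatF self B c M' (Nat.sub w (nat_lit 16)) (Nat.land buf (nat_lit 255))
        (Nat.land (Nat.shiftRight buf (nat_lit 8)) (nat_lit 255))
        (Nat.shiftRight buf (nat_lit 16)) rest memo)
      (Nat.ble w (nat_lit 23)))
    (generalF self B c M' buf rest memo)
    (Nat.ble w (nat_lit 8))

/-- Read the node type. -/
def plain2F (self : ℕ → ℕ → ℕ → List ℕ → Memo → Res) (B c M' buf : ℕ) (rest : List ℕ)
    (memo : Memo) : Res :=
  Bool.rec (motive := fun _ => Res)
    (interiorF self B c M' (Nat.land buf (nat_lit 255)) (Nat.shiftRight buf (nat_lit 8)) rest memo)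
    (leafF c M' (Nat.land buf (nat_lit 255))
      (Nat.land (Nat.shiftRight buf (nat_lit 8)) (nat_lit 255)) (Nat.shiftRight buf (nat_lit 16)) rest memo)
    (Nat.ble (Nat.land buf (nat_lit 255)) (nat_lit 7))

/-- A Maker move. -/
def plainF (self : ℕ → ℕ → ℕ → List ℕ → Memo → Res) (M B c buf : ℕ) (rest : List ℕ)
    (memo : Memo) : Res :=
  Bool.rec (motive := fun _ => Res) Res.fail
    (plain2F self B c (Nat.lor M (bit c)) buf rest memo)
    (Nat.beq (Nat.land (Nat.shiftRight (Nat.lor M B) (Nat.add c (nat_lit 64))) (nat_lit 1)) (nat_lit 0))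

/-- Memo definitions and uses. -/
def specialF (n : ℕ) (self : ℕ → ℕ → ℕ → List ℕ → Memo → Res) (M B c buf : ℕ) (rest : List ℕ)
    (memo : Memo) : Res :=
  bif Nat.beq c 253 then
      rd3 buf rest fun id buf rest =>
      rdK buf rest fun c buf rest =>
        Res.thn (plainF self M B c buf rest memo) fun S buf rest memo =>
          frc M fun M => frc B fun B => frc S fun S =>
            .ok S buf rest (Memo.ins (nat_lit 16) memo id (.leaf (Nat.succ n) M B S))
  else bif Nat.beq c 254 then
      rd3 buf rest fun id buf rest =>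
        Memo.rec (motive := fun _ => Res) .fail
          (fun n' M' B' S' =>
            bif Nat.ble n' (Nat.succ n) then
              bif sb M' M then
                bif sbh (Nat.land B S') B' then .ok S' buf rest memo else .fail
              else .fail
            else .fail)
          (fun _ _ _ _ => .fail) (Memo.find memo id)
  else .fail

/-- Dispatch on the first token of a tree. -/
def dispatchF (n : ℕ) (self : ℕ → ℕ → ℕ → List ℕ → Memo → Res) (M B c buf : ℕ) (rest : List ℕ)
    (memo : Memo) : Res :=
  Bool.rec (motive := fun _ => Res) (specialF n self M B c buf rest memo)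
    (plainF self M B c buf rest memo) (Nat.ble c (nat_lit 252))

/-- Entry of a tree. -/
def entF (n : ℕ) (self : ℕ → ℕ → ℕ → List ℕ → Memo → Res) (M B buf : ℕ) (rest : List ℕ)
    (memo : Memo) : Res :=
  Bool.rec (motive := fun _ => Res)
    (dispatchF n self M B (Nat.land buf (nat_lit 255)) (Nat.shiftRight buf (nat_lit 8)) rest memo)
    (List.rec (motive := fun _ => Res) Res.fail
      (fun h t _ => dispatchF n self M B (Nat.land h (nat_lit 255)) (Nat.shiftRight h (nat_lit 8)) t memo)
      rest)
    (Nat.ble buf (nat_lit 1))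

/-- The fast checker. -/
def chkF (n : ℕ) : ℕ → ℕ → ℕ → List ℕ → Memo → Res :=
  Nat.rec (motive := fun _ => ℕ → ℕ → ℕ → List ℕ → Memo → Res)
    (fun _ _ _ _ _ => Res.fail) (fun n ih => entF n ih) n

/-! ### Soundness -/

section Sound

variable {n : ℕ} {self : ℕ → ℕ → ℕ → List ℕ → Memo → Res}

lemma bit_eq (c : ℕ) : bit c = bit c := rfl

/-- What the reply loop promises. -/
def AltPost (n M' B acc : ℕ) : Res → Prop
  | .fail => True
  | .ok S _ _ m => AllGood m ∧ (∀ i, hb acc i = true → hb S i = true) ∧
      ∀ r : Cell, r ∉ cells M' → r ∉ cells B → ∀ X : Finset Cell, (∀ x ∈ X, x ∉ cells S) →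
        W n (cells M') (insert r (cells B ∪ X))

lemma AltPost.weaken {n M' B acc acc' : ℕ} {r : Res}
    (h : ∀ i, hb acc i = true → hb acc' i = true) (hr : AltPost n M' B acc' r) :
    AltPost n M' B acc r := by
  cases r with
  | fail => trivial
  | ok S b t m => exact ⟨hr.1, fun i hi => hr.2.1 i (h i hi), hr.2.2⟩

lemma kidsF_sound {self' : ℕ → ℕ → List ℕ → Memo → Res} {M' B : ℕ}
    (hself : ∀ B' buf rest memo, AllGood memo → ResOK n M' B' (self' B' buf rest memo)) :
    ∀ (f sd keys acc buf : ℕ) (rest : List ℕ) (memo : Memo), AllGood memo →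
    (∀ i, hb keys i = true → ∀ X : Finset Cell, (∀ x ∈ X, x ∉ cells acc) →
      W n (cells M') (cells (Nat.lor B (bit i)) ∪ X)) →
    (∀ r : Cell, r ∉ cells sd → ∀ X : Finset Cell, (∀ x ∈ X, x ∉ cells acc) →
      W n (cells M') (insert r (cells B ∪ X))) →
    AltPost n M' B acc (kidsF self' M' B f sd keys acc buf rest memo) := by
  intro f
  induction f with
  | zero => intro _ _ _ _ _ _ _ _ _; trivial
  | succ f ih =>
    intro sd keys acc buf rest memo hm hk ha
    change AltPost n M' B acc (kidsStep (kidsF self' M' B f) self' M' B sd keys acc buf rest memo)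
    have main : ∀ (r buf : ℕ) (rest : List ℕ),
        AltPost n M' B acc (kids1 (kidsF self' M' B f) self' M' B sd keys acc r buf rest memo) := by
      intro r buf rest
      unfold kids1
      cases h255 : Nat.beq r (nat_lit 255)
      · cases h254 : Nat.beq r (nat_lit 254)
        · change AltPost n M' B acc (kids2 _ self' B sd keys acc r buf rest memo)
          unfold kids2
          have hres := hself (Nat.lor B (bit r)) buf rest memo hm
          revert hres
          cases self' (Nat.lor B (bit r)) buf rest memo with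
          | fail => intro _; trivial
          | ok s buf' rest' memo' =>
            intro hres
            have hacc : ∀ i, hb acc i = true → hb (Nat.lor acc s) i = true := by
              intro i hi; rw [hb_lor, hi]; rfl
            have hacc2 : ∀ i, hb s i = true → hb (Nat.lor acc s) i = true := by
              intro i hi; rw [hb_lor, hi, Bool.or_true]
            refine AltPost.weaken hacc (ih _ _ _ _ _ _ hres.2 ?_ ?_)
            · intro i hi X hX
              rw [hb_lor, Bool.or_eq_true] at hi
              rcases hi with hi | hi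
              · exact hk i hi X (disj_of_mono hacc hX)
              · have : i = r := (hb_bit _ _).1 hi
                subst this
                exact hres.1 X (disj_of_mono hacc2 hX)
            · intro r' hr' X hX
              exact ha r' hr' X (disj_of_mono hacc hX)
        · change AltPost n M' B acc (kidsAlt _ self' B sd keys acc buf rest memo)
          unfold kidsAlt
          have hres := hself B buf rest memo hm
          revert hres
          cases self' B buf rest memo with
          | fail => intro _; trivial
          | ok s buf' rest' memo' =>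
            intro hres
            have hacc : ∀ i, hb acc i = true → hb (Nat.lor acc s) i = true := by
              intro i hi; rw [hb_lor, hi]; rfl
            have hacc2 : ∀ i, hb s i = true → hb (Nat.lor acc s) i = true := by
              intro i hi; rw [hb_lor, hi, Bool.or_true]
            refine AltPost.weaken hacc (ih _ _ _ _ _ _ hres.2 ?_ ?_)
            · intro i hi X hX
              exact hk i hi X (disj_of_mono hacc hX)
            · intro r' hr' X hX
              by_cases h1 : r' ∈ cells sd
              · have h2 : r' ∉ cells s := by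
                  intro h2
                  apply hr'
                  obtain ⟨i, hi, rfl⟩ := mem_cells.1 h1
                  have h3 : hb s i = true := cell_mem.1 h2
                  apply cell_mem.2
                  rw [hb_land, hi, h3]
                  rfl
                have := hres.1 (insert r' X) (by
                  intro x hx
                  rcases Finset.mem_insert.1 hx with rfl | hx
                  · exact h2
                  · exact fun h => hX x hx (cells_mono hacc2 h))
                rwa [Finset.union_insert] at this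
              · exact ha r' h1 X (disj_of_mono hacc hX)
      · change AltPost n M' B acc (kidsEnd M' B sd keys acc buf rest memo)
        unfold kidsEnd
        cases hsb : sbh sd (Nat.lor M' (Nat.lor B keys))
        · exact trivial
        · refine ⟨hm, fun _ h => h, ?_⟩
          intro r hrM hrB X hX
          by_cases hrs : r ∈ cells sd
          · obtain ⟨i, hi, rfl⟩ := mem_cells.1 hrs
            have h1 := sbh_spec (a := sd) (m := Nat.lor M' (Nat.lor B keys)) hsb hi
            rw [hb_lor, hb_lor, Bool.or_eq_true, Bool.or_eq_true] at h1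
            rcases h1 with h1 | h1 | h1
            · exact absurd (cell_mem.2 h1) hrM
            · exact absurd (cell_mem.2 h1) hrB
            · have := hk i h1 X hX
              rw [cells_or_bit B i] at this
              rwa [Finset.insert_union] at this
          · exact ha r hrs X hX
    unfold kidsStep
    cases Nat.ble buf (nat_lit 1)
    · exact main _ _ _
    · cases rest with
      | nil => trivial
      | cons h t => exact main _ _ _

lemma generalF_sound
    (hself : ∀ M B buf rest memo, AllGood memo → ResOK n M B (self M B buf rest memo))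
    {M B c M' buf : ℕ} {rest : List ℕ} {memo : Memo} (hM' : M' = Nat.lor M (bit c))
    (h1 : tb M c = false) (h2 : tb B c = false) (hm : AllGood memo) :
    ResOK (n+1) M B (generalF self B c M' buf rest memo) := by
  subst hM'
  have hc1 := tb_false h1
  have hc2 := tb_false h2
  unfold generalF
  have hres := hself (Nat.lor M (bit c)) B buf rest memo hm
  revert hres
  cases self (Nat.lor M (bit c)) B buf rest memo with
  | fail => intro _; trivial
  | ok sd buf' rest' memo' =>
    intro hres
    have hsdacc : ∀ i, hb sd i = true → hb (Nat.lor (bit c) sd) i = true := by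
      intro i hi
      rw [hb_lor, hi, Bool.or_true]
    have hk := kidsF_sound (n := n) (self' := self (Nat.lor M (bit c))) (M' := Nat.lor M (bit c))
      (B := B) (fun B' b t m hm => hself _ B' b t m hm) 260 sd 0 (Nat.lor (bit c) sd)
      buf' rest' memo' hres.2 (by intro i hi; simp [hb_zero] at hi)
      (by
        intro r hr X hX
        have := hres.1 (insert r X) (by
          intro x hx
          rcases Finset.mem_insert.1 hx with rfl | hx
          · exact hr
          · exact fun h => hX x hx (cells_mono hsdacc h))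
        rwa [Finset.union_insert] at this)
    change ResOK (n+1) M B (kidsF (self (Nat.lor M (bit c))) (Nat.lor M (bit c)) B 260 sd 0
      (Nat.lor (bit c) sd) buf' rest' memo')
    revert hk
    generalize kidsF (self (Nat.lor M (bit c))) (Nat.lor M (bit c)) B 260 sd 0 (Nat.lor (bit c) sd)
      buf' rest' memo' = R
    intro hk
    cases R with
    | fail => trivial
    | ok S b t m =>
      obtain ⟨hmm, hsup, hcov⟩ := hk
      refine ⟨?_, hmm⟩
      intro X hX
      have hcS : hb S c = true := by
        apply hsup
        rw [hb_lor, (hb_bit c c).2 rfl]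
        rfl
      refine Or.inr ⟨cell c, hc1, ?_, ?_⟩
      · intro hmem
        rcases Finset.mem_union.1 hmem with hmem | hmem
        · exact hc2 hmem
        · exact hX _ hmem (cell_mem.2 hcS)
      · intro r hr hrB
        rw [← cells_or_bit]
        refine hcov r ?_ ?_ X hX
        · rw [cells_or_bit]; exact hr
        · exact fun h => hrB (Finset.mem_union_left _ h)

lemma tb_or_false {M B c : ℕ}
    (h : Nat.beq (Nat.land (Nat.shiftRight (Nat.lor M B) (Nat.add c (nat_lit 64))) (nat_lit 1)) (nat_lit 0) = true) :
    tb M c = false ∧ tb B c = false := by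
  have h1 : Nat.land (Nat.shiftRight (Nat.lor M B) (Nat.add c 64)) 1 = 0 := Nat.eq_of_beq_eq_true h
  have h2 : tb (Nat.lor M B) c = false := by
    unfold tb
    rw [h1]
    rfl
  rw [tb_eq, hb_lor, Bool.or_eq_false_iff] at h2
  rw [tb_eq, tb_eq]
  exact h2

lemma threatF_sound
    (hself : ∀ M B buf rest memo, AllGood memo → ResOK n M B (self M B buf rest memo))
    {M B c M' o t z buf : ℕ} {rest : List ℕ} {memo : Memo} (hM' : M' = Nat.lor M (bit c))
    (ho : o < 8)
    (h1 : tb M c = false) (h2 : tb B c = false) (hm : AllGood memo) :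
    ResOK (n+1) M B (threatF self B c M' o t z buf rest memo) := by
  subst hM'
  have hc1 := tb_false h1
  have hc2 := tb_false h2
  unfold threatF
  cases hchk : (Bool.rec (motive := fun _ => Bool) false
      (placedF o t (Nat.lor (Nat.lor M (bit c)) (bit z)))
      (Nat.beq (Nat.land (Nat.shiftRight (Nat.lor (Nat.lor M (bit c)) B) (Nat.add z (nat_lit 64))) (nat_lit 1)) (nat_lit 0)) : Bool)
  · trivial
  cases hz : Nat.beq (Nat.land (Nat.shiftRight (Nat.lor (Nat.lor M (bit c)) B) (Nat.add z (nat_lit 64))) (nat_lit 1)) (nat_lit 0)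
  · rw [hz] at hchk; exact absurd hchk (by simp)
  rw [hz] at hchk
  obtain ⟨hz1, hz2⟩ := tb_or_false hz
  have hp : placed o t (Nat.lor (Nat.lor M (bit c)) (bit z)) = true := by
    rw [← placedF_eq ho]; exact hchk
  have hcopy := placed_copy ho hp
  have hzM := tb_false hz1
  have hzB := tb_false hz2
  have hres := hself (Nat.lor M (bit c)) (Nat.lor B (bit z)) buf rest memo hm
  change ResOK (n+1) M B (Res.rec (motive := fun _ => Res) Res.fail
      (fun s buf rest memo => Res.ok (Nat.lor (Nat.lor (bit c) (bit z)) s) buf rest memo)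
      (self (Nat.lor M (bit c)) (Nat.lor B (bit z)) buf rest memo))
  revert hres
  cases self (Nat.lor M (bit c)) (Nat.lor B (bit z)) buf rest memo with
  | fail => intro _; trivial
  | ok s buf' rest' memo' =>
    intro hres
    refine ⟨?_, hres.2⟩
    intro X hX
    have hcS : hb (Nat.lor (Nat.lor (bit c) (bit z)) s) c = true := by
      rw [hb_lor, hb_lor, (hb_bit c c).2 rfl]; rfl
    have hzS : hb (Nat.lor (Nat.lor (bit c) (bit z)) s) z = true := by
      rw [hb_lor, hb_lor, (hb_bit z z).2 rfl, Bool.or_true]; rfl
    have hsS : ∀ i, hb s i = true → hb (Nat.lor (Nat.lor (bit c) (bit z)) s) i = true := by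
      intro i hi
      rw [hb_lor, hi, Bool.or_true]
    refine Or.inr ⟨cell c, hc1, ?_, ?_⟩
    · intro hmem
      rcases Finset.mem_union.1 hmem with hmem | hmem
      · exact hc2 hmem
      · exact hX _ hmem (cell_mem.2 hcS)
    · intro r hr hrB
      rw [← cells_or_bit]
      by_cases hrz : r = cell z
      · subst hrz
        have := hres.1 X (disj_of_mono hsS hX)
        rw [cells_or_bit B z] at this
        rwa [Finset.insert_union] at this
      · -- Maker completes at `z`
        cases n with
        | zero =>
          have := hres.1 ∅ (by simp)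
          exact this
        | succ n' =>
          refine Or.inr ⟨cell z, hzM, ?_, ?_⟩
          · intro hmem
            rcases Finset.mem_insert.1 hmem with h0 | h0
            · exact hrz h0.symm
            · rcases Finset.mem_union.1 h0 with h0 | h0
              · exact hzB h0
              · exact hX _ h0 (cell_mem.2 hzS)
          · intro r' _ _
            rw [← cells_or_bit]
            exact W_of_copy hcopy

lemma plainF_sound
    (hself : ∀ M B buf rest memo, AllGood memo → ResOK n M B (self M B buf rest memo))
    (M B c buf : ℕ) (rest : List ℕ) (memo : Memo) (hm : AllGood memo) :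
    ResOK (n+1) M B (plainF self M B c buf rest memo) := by
  unfold plainF
  cases hf : Nat.beq (Nat.land (Nat.shiftRight (Nat.lor M B) (Nat.add c (nat_lit 64))) (nat_lit 1)) (nat_lit 0)
  · trivial
  obtain ⟨h1, h2⟩ := tb_or_false hf
  change ResOK (n+1) M B (plain2F self B c (Nat.lor M (bit c)) buf rest memo)
  unfold plain2F
  cases hw : Nat.ble (Nat.land buf (nat_lit 255)) (nat_lit 7)
  · change ResOK (n+1) M B (interiorF self B c (Nat.lor M (bit c)) (Nat.land buf (nat_lit 255))
      (Nat.shiftRight buf (nat_lit 8)) rest memo)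
    unfold interiorF
    cases hw8 : Nat.ble (Nat.land buf (nat_lit 255)) (nat_lit 8)
    · cases hw23 : Nat.ble (Nat.land buf (nat_lit 255)) (nat_lit 23)
      · trivial
      · have hle : Nat.land buf 255 ≤ 23 := Nat.le_of_ble_eq_true hw23
        exact threatF_sound hself rfl (by
          change Nat.land buf 255 - 16 < 8
          omega) h1 h2 hm
    · exact generalF_sound hself rfl h1 h2 hm
  · change ResOK (n+1) M B (leafF c (Nat.lor M (bit c)) (Nat.land buf (nat_lit 255))
      (Nat.land (Nat.shiftRight buf (nat_lit 8)) (nat_lit 255)) (Nat.shiftRight buf (nat_lit 16)) rest memo)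
    unfold leafF
    have ho : Nat.land buf (nat_lit 255) < 8 := Nat.lt_succ_of_le (Nat.le_of_ble_eq_true hw)
    cases hpl : placedF (Nat.land buf (nat_lit 255)) (Nat.land (Nat.shiftRight buf (nat_lit 8)) (nat_lit 255))
        (Nat.lor M (bit c))
    · trivial
    · refine ⟨?_, hm⟩
      intro X hX
      rw [placedF_eq ho] at hpl
      have hcopy := placed_copy ho hpl
      refine Or.inr ⟨cell c, tb_false h1, ?_, ?_⟩
      · intro hmem
        rcases Finset.mem_union.1 hmem with hmem | hmem
        · exact tb_false h2 hmem
        · exact hX _ hmem (cell_mem.2 ((hb_bit c c).2 rfl))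
      · intro r _ _
        rw [← cells_or_bit]
        exact W_of_copy hcopy

lemma specialF_sound
    (hself : ∀ M B buf rest memo, AllGood memo → ResOK n M B (self M B buf rest memo))
    (M B c buf : ℕ) (rest : List ℕ) (memo : Memo) (hm : AllGood memo) :
    ResOK (n+1) M B (specialF n self M B c buf rest memo) := by
  unfold specialF
  cases h2 : Nat.beq c 253
  swap
  · simp only [cond_true]
    refine rd3_elim (P := ResOK (n+1) M B) ?_
    intro id buf rest
    refine rdK_elim (P := ResOK (n+1) M B) ?_
    intro c buf rest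
    refine ResOK_thn (P := ResOK (n+1) M B) trivial ?_
    intro S buf' rest' memo' hs
    have hres := plainF_sound hself M B c buf rest memo hm
    rw [hs] at hres
    simp only [frc_eq]
    refine ⟨hres.1, AllGood.ins _ hres.2 ?_ _⟩
    exact hres.1
  simp only [cond_false]
  cases h3 : Nat.beq c 254
  swap
  · simp only [cond_true]
    refine rd3_elim (P := ResOK (n+1) M B) ?_
    intro id buf rest
    have hf := AllGood.find hm id
    revert hf
    generalize Memo.find memo id = e
    intro hf
    cases e with
    | nil => trivial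
    | node l r => trivial
    | leaf n' M' B' S' =>
      cases h4 : Nat.ble n' (Nat.succ n)
      · simp only [h4, cond_false]; trivial
      cases h5 : sb M' M
      · simp only [h4, h5, cond_true, cond_false]; trivial
      cases h6 : sbh (Nat.land B S') B'
      · simp only [h4, h5, h6, cond_true, cond_false]; trivial
      simp only [h4, h5, h6, cond_true]
      exact ⟨good_of_ref hf (Nat.le_of_ble_eq_true h4) h5 h6, hm⟩
  · simp only [cond_false]
    trivial

end Sound

theorem chkF_sound : ∀ (n M B buf : ℕ) (rest : List ℕ) (memo : Memo), AllGood memo →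
    ResOK n M B (chkF n M B buf rest memo) := by
  intro n
  induction n with
  | zero => intro _ _ _ _ _ _; trivial
  | succ n ih =>
    intro M B buf rest memo hm
    change ResOK (n+1) M B (entF n (chkF n) M B buf rest memo)
    have main : ∀ (c buf : ℕ) (rest : List ℕ),
        ResOK (n+1) M B (dispatchF n (chkF n) M B c buf rest memo) := by
      intro c buf rest
      unfold dispatchF
      cases Nat.ble c (nat_lit 252)
      · exact specialF_sound ih M B c buf rest memo hm
      · exact plainF_sound ih M B c buf rest memo hm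
    unfold entF
    cases Nat.ble buf (nat_lit 1)
    · exact main _ _ _
    · cases rest with
      | nil => trivial
      | cons h t => exact main _ _ _

/-- A successful run from a proved memo proves the position. -/
theorem good_of_chkF {memo : Memo} (hm : AllGood memo) {n M B S buf : ℕ} {rest : List ℕ}
    (h : (match chkF n M B buf rest memo with
          | .fail => false
          | .ok S' _ _ _ => sb S' S) = true) : Good n M B S := by
  have hs := chkF_sound n M B buf rest memo hm
  revert h hs
  generalize chkF n M B buf rest memo = R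
  intro h hs
  cases R with
  | fail => simp at h
  | ok S' b t m =>
    intro X hX
    exact hs.1 X (disj_of_mono (fun i hi => sb_spec h hi) hX)


/-! From class certificates to `W 21 ∅ ∅`. -/

/-- The root mask: Maker's first cell `(7,7)`, number `119`. -/
def rootM : ℕ := bit 119

lemma cell_119 : cell 119 = c0 := by
  simp [cell, c0]

lemma cells_bit (i : ℕ) : cells (bit i) = {cell i} := by
  have h : bit i = Nat.lor 0 (bit i) := by
    change bit i = 0 ||| bit i
    simp
  rw [h, cells_or_bit, cells_zero]
  rfl

lemma cells_rootM : cells rootM = {c0} := by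
  unfold rootM
  rw [cells_bit, cell_119]

/-- A reply in the sector, by certificate of the reply or by the default certificate. -/
theorem W21_of_classes (S₀ : ℕ) (h₀ : Good 20 rootM 0 S₀)
    (hcls : ∀ i, hb S₀ i = true → 7 ≤ i / 16 → i / 16 ≤ i % 16 → i ≠ 119 →
      ∃ S, Good 20 rootM (bit i) S) : W 21 ∅ ∅ := by
  have hsec : ∀ r : Cell, r ≠ c0 → 7 ≤ r.2 → r.2 ≤ r.1 → W 20 {c0} {r} := by
    intro r hr h2 h3
    by_cases hm : r ∈ cells S₀
    · obtain ⟨i, hi, rfl⟩ := mem_cells.1 hm
      simp only [cell] at h2 h3
      have hi1 : 7 ≤ i / 16 := by exact_mod_cast h2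
      have hi2 : i / 16 ≤ i % 16 := by exact_mod_cast h3
      have hi3 : i ≠ 119 := by
        rintro rfl
        exact hr cell_119
      obtain ⟨S, hS⟩ := hcls i hi hi1 hi2 hi3
      have := hS ∅ (by simp)
      rwa [cells_rootM, cells_bit, Finset.union_empty] at this
    · have := h₀ {r} (by simpa using hm)
      rw [cells_rootM, cells_zero, Finset.empty_union] at this
      exact this
  have hall := sector_reduce 20 hsec
  refine Or.inr ⟨c0, by simp, by simp, ?_⟩
  intro r hr _
  have hr' : r ≠ c0 := by
    intro h
    apply hr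
    simp [h]
  have := hall r hr'
  simpa using this

end


end Crest.Agent.SnakyF
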